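import Vale.Agent.P092.H375.ResB2

/-!
P092 (helper375), team C, theorem RES (board 4063): the torsor export.  In case (a) the algebra is an
algebra of functions on the group `G` (the symbol `sym`), and `H` acts by right translations through
a homomorphism `θ : H →* G`.
-/

set_option linter.all false

namespace Vale.Agent.P092.H375

open Vale.Agent.P092.H175.T1
open scoped ComplexConjugate

variable {𝔸 G H : Type} [Ring 𝔸] [StarRing 𝔸] [Algebra ℂ 𝔸] [StarModule ℂ 𝔸] [Group G] [Group H]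

/-- the symbol of `y` at the point `k` -/
noncomputable def sym (α : G →* (𝔸 →⋆ₐ[ℂ] 𝔸)) (x : ℕ → 𝔸) (y : 𝔸) (k : G) : ℂ :=
  open Classical in
  if hy : ∃ c : ℂ, ∃ M0 : ℕ, ∀ M, M0 ≤ M → y * α k (x M) = c • α k (x M) then hy.choose else 0

variable {α : G →* (𝔸 →⋆ₐ[ℂ] 𝔸)} {β : H →* (𝔸 →⋆ₐ[ℂ] 𝔸)} {P : NonUnitalStarSubalgebra ℂ 𝔸}
    {U : ℕ → Subgroup G} {W : ℕ → Subgroup H} {p q a n m0 : ℕ} {f : 𝔸} {x : ℕ → 𝔸}

namespace RB

variable (h : RB α β P U W p q a n m0 f x)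
include h

theorem tx_ne {M : ℕ} (hM : a ≤ M) (k : G) : α k (x M) ≠ 0 :=
  fun h0 => (h.x_min M hM).ne (alpha_inj h0)

theorem sym_eq {y : 𝔸} {k : G} {c : ℂ} {M : ℕ} (hM : a ≤ M)
    (hy : y * α k (x M) = c • α k (x M)) : sym α x y k = c := by
  have h1 : ∀ M', M ≤ M' → y * α k (x M') = c • α k (x M') := by
    intro M' hM'
    have h2 : α k (x M') = α k (x M) * α k (x M') := by rw [← map_mul, h.x_le hM hM']
    rw [h2, ← mul_assoc, hy, smul_mul_assoc]
  have hex : ∃ c : ℂ, ∃ M0 : ℕ, ∀ M, M0 ≤ M → y * α k (x M) = c • α k (x M) := ⟨c, M, h1⟩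
  have h2 : sym α x y k = hex.choose := dif_pos hex
  obtain ⟨M0, h3⟩ := hex.choose_spec
  rw [← h2] at h3
  have h4 := h3 (max M0 M) (le_max_left _ _)
  rw [h1 (max M0 M) (le_max_right _ _)] at h4
  exact (smul_left_injective ℂ (h.tx_ne (hM.trans (le_max_right _ _)) k) h4).symm

theorem f_P : f ∈ P := h.opt.1.mem.1

theorem x_P {m : ℕ} (hm : a ≤ m) : x m ∈ P := (h.x_min m hm).mem.1

/-- the stabiliser of an atom -/
theorem stab {m : ℕ} (hm : a ≤ m) {g : G} (hg : α g (x m) = x m) : g ∈ U m := by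
  by_cases hga : g ∈ U a
  · exact h.tower_ab.1 m hm g hga hg
  · exfalso
    have h1 := h.b5 hga (h.x_P hm)
    rw [h.x_f m hm] at h1
    have h2 : x m * α g (x m) = 0 := by
      have h3 : α g (x m) = α g f * α g (x m) := by rw [← map_mul, h.x_f m hm]
      rw [h3, ← mul_assoc, h1, zero_mul]
    rw [hg, (h.x_min m hm).idem] at h2
    exact (h.x_min m hm).ne h2

theorem orth {m : ℕ} (hm : a ≤ m) {g : G} (hg : g ∉ U m) : x m * α g (x m) = 0 := by
  by_cases hga : g ∈ U a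
  · by_contra h0
    have h1 : x m = α g (x m) := by
      by_contra hne
      exact h0 (atoms_orth h.sys h.opt.1 (h.cor_comm m) (h.x_mem hm)
        (atoms_act h.sys h.opt.1 (h.x_mem hm) hga) hne)
    exact hg (h.stab hm h1.symm)
  · have h1 := h.b5 hga (h.x_P hm)
    rw [h.x_f m hm] at h1
    have h3 : α g (x m) = α g f * α g (x m) := by rw [← map_mul, h.x_f m hm]
    rw [h3, ← mul_assoc, h1, zero_mul]

theorem x_a : x a = f := by
  obtain ⟨c, hc⟩ := h.opt.1.scal (x a) (atoms_cor h.f_sa (h.x_mem le_rfl))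
  have h1 := (h.x_min a le_rfl).idem
  have h2 := (h.x_min a le_rfl).ne
  rw [hc] at h1 h2
  rw [smul_mul_smul_comm, h.f_idem] at h1
  have h3 : c * c = c := smul_left_injective ℂ h.opt.1.ne h1
  have h4 : c ≠ 0 := by rintro rfl; exact h2 (zero_smul _ _)
  have h5 : c = 1 := mul_left_cancel₀ h4 (by rw [h3, mul_one])
  rw [hc, h5, one_smul]

/-- additivity -/
theorem sum_reps {m M : ℕ} (hm : a ≤ m) (hmM : m ≤ M) (T : Finset G) (hT : ∀ t ∈ T, t ∈ U m)
    (hT2 : ∀ u ∈ U m, ∃ t ∈ T, t⁻¹ * u ∈ U M) (hT3 : ∀ t ∈ T, ∀ t' ∈ T, t⁻¹ * t' ∈ U M → t = t') :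
    x m = ∑ t ∈ T, α t (x M) := by
  classical
  have hcm : ∀ y ∈ Cor α P U M (x m), ∀ z ∈ Cor α P U M (x m), y * z = z * y := by
    intro y hy z hz
    have h1 := Cor_le (α := α) (P := P) (Kn := U) (n := M) h.f_sa (h.x_min m hm).sa (h.x_f m hm)
    exact h.cor_comm M y (h1 hy) z (h1 hz)
  have haM : a ≤ M := hm.trans hmM
  obtain ⟨X, hX, hX1, hX2⟩ := exists_atoms h.sys (h.x_min m hm) hmM hcm
  have hxM : x M ∈ atoms α P U (x m) M := ⟨h.x_min M haM, h.x_le hm hmM⟩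
  have hXT : X = T.image fun t => α t (x M) := by
    ext y
    rw [hX, Finset.mem_image]
    constructor
    · intro hy
      obtain ⟨u, hu, h1⟩ := atoms_trans h.sys (h.x_min m hm) hmM hcm hxM hy
      obtain ⟨t, ht, h2⟩ := hT2 u hu
      refine ⟨t, ht, ?_⟩
      rw [← h1]
      have h3 : u = t * (t⁻¹ * u) := by group
      rw [h3, alpha_mul, (h.x_min M haM).mem.2 _ h2]
    · rintro ⟨t, ht, rfl⟩
      exact atoms_act h.sys (h.x_min m hm) hxM (hT t ht)
  rw [← hX2, hXT, Finset.sum_image]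
  intro t ht t' ht' htt
  refine hT3 t ht t' ht' (h.stab haM ?_)
  have htt' : α t (x M) = α t' (x M) := htt
  rw [alpha_mul, ← htt', alpha_inv]

variable (hA : ∀ y ∈ P, ∀ z ∈ P, y * z = z * y)
include hA

/-- elements of level `M` act on `x M` by scalars -/
theorem exists_scal {M : ℕ} (hM : a ≤ M) {y : 𝔸} (hy : y ∈ Qn α P U M) :
    ∃ c : ℂ, y * x M = c • x M := by
  have hxM := h.x_min M hM
  refine hxM.scal _ ⟨Qn_mul hy hxM.mem, ?_, ?_⟩
  · rw [← mul_assoc, hA _ hxM.mem.1 _ hy.1, mul_assoc, hxM.idem]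
  · rw [mul_assoc, hxM.idem]

theorem sym_spec {y : 𝔸} (hy : y ∈ P) (k : G) :
    ∃ M0, a ≤ M0 ∧ ∀ M, M0 ≤ M → y * α k (x M) = sym α x y k • α k (x M) := by
  obtain ⟨m1, h1⟩ := h.smU _ (h.aG k⁻¹ y hy)
  refine ⟨max a m1, le_max_left _ _, fun M hM => ?_⟩
  have haM : a ≤ M := (le_max_left _ _).trans hM
  obtain ⟨c, hc⟩ := h.exists_scal hA haM (y := α k⁻¹ y)
    ⟨h.aG _ _ hy, fun u hu => h1 u (h.sys.chain.mono ((le_max_right _ _).trans hM) hu)⟩
  have h2 : y * α k (x M) = c • α k (x M) := by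
    have h3 := congrArg (α k) hc
    rw [map_mul, map_smul, ← alpha_mul, mul_inv_cancel, map_one] at h3
    exact h3
  rw [h2, h.sym_eq haM h2]

theorem sym_add {y z : 𝔸} (hy : y ∈ P) (hz : z ∈ P) (k : G) :
    sym α x (y + z) k = sym α x y k + sym α x z k := by
  obtain ⟨M1, ha1, h1⟩ := h.sym_spec hA hy k
  obtain ⟨M2, -, h2⟩ := h.sym_spec hA hz k
  refine h.sym_eq (M := max M1 M2) (ha1.trans (le_max_left _ _)) ?_
  rw [add_mul, h1 _ (le_max_left _ _), h2 _ (le_max_right _ _), add_smul]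

theorem sym_smul {y : 𝔸} (hy : y ∈ P) (c : ℂ) (k : G) : sym α x (c • y) k = c * sym α x y k := by
  obtain ⟨M1, ha1, h1⟩ := h.sym_spec hA hy k
  refine h.sym_eq (M := M1) ha1 ?_
  rw [smul_mul_assoc, h1 _ le_rfl, smul_smul]

theorem sym_mul {y z : 𝔸} (hy : y ∈ P) (hz : z ∈ P) (k : G) :
    sym α x (y * z) k = sym α x y k * sym α x z k := by
  obtain ⟨M1, ha1, h1⟩ := h.sym_spec hA hy k
  obtain ⟨M2, -, h2⟩ := h.sym_spec hA hz k
  refine h.sym_eq (M := max M1 M2) (ha1.trans (le_max_left _ _)) ?_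
  rw [mul_assoc, h2 _ (le_max_right _ _), mul_smul_comm, h1 _ (le_max_left _ _), smul_smul,
    mul_comm]

theorem sym_star {y : 𝔸} (hy : y ∈ P) (k : G) : sym α x (star y) k = conj (sym α x y k) := by
  obtain ⟨M1, ha1, h1⟩ := h.sym_spec hA hy k
  refine h.sym_eq (M := M1) ha1 ?_
  have h2 := congrArg star (h1 M1 le_rfl)
  rw [star_mul, star_smul, ← map_star, (h.x_min M1 ha1).sa] at h2
  rw [hA _ (star_mem hy) _ (h.aG k _ (h.x_P ha1)), h2]
  rfl

theorem sym_act {y : 𝔸} (hy : y ∈ P) (g k : G) : sym α x (α g y) k = sym α x y (g⁻¹ * k) := by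
  obtain ⟨M1, ha1, h1⟩ := h.sym_spec hA hy (g⁻¹ * k)
  refine h.sym_eq (M := M1) ha1 ?_
  have h2 := congrArg (α g) (h1 M1 le_rfl)
  rw [map_mul, map_smul, ← alpha_mul, mul_inv_cancel_left] at h2
  exact h2

theorem sym_idem {y : 𝔸} (hy : y ∈ P) (hyy : y * y = y) (k : G) :
    sym α x y k = 0 ∨ sym α x y k = 1 := by
  have h1 := h.sym_mul hA hy hy k
  rw [hyy] at h1
  by_cases h0 : sym α x y k = 0
  · exact Or.inl h0
  · exact Or.inr (mul_left_cancel₀ h0 (by rw [mul_one]; exact h1.symm))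

omit hA in
theorem sym_x_of_mem {m : ℕ} (hm : a ≤ m) {k : G} (hk : k ∈ U m) : sym α x (x m) k = 1 := by
  refine h.sym_eq (M := m) hm ?_
  rw [(h.x_min m hm).mem.2 k hk, (h.x_min m hm).idem, one_smul]

omit hA in
theorem sym_x_of_not_mem {m : ℕ} (hm : a ≤ m) {k : G} (hk : k ∉ U m) : sym α x (x m) k = 0 := by
  refine h.sym_eq (M := m) hm ?_
  rw [h.orth hm hk, zero_smul]

omit hA in
theorem sym_x_eq_one {m : ℕ} (hm : a ≤ m) {k : G} (hk : sym α x (x m) k = 1) : k ∈ U m := by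
  by_contra h0
  rw [h.sym_x_of_not_mem hm h0] at hk
  exact zero_ne_one hk

variable (hE : ∀ y ∈ P, (∀ g, y * α g f = 0) → y = 0)
include hE

theorem sym_inj0 {y : 𝔸} (hy : y ∈ P) (h0 : ∀ k, sym α x y k = 0) : y = 0 := by
  classical
  refine hE y hy fun g => ?_
  obtain ⟨m1, h1⟩ := h.smU _ (h.aG g⁻¹ y hy)
  set M := max a m1 with hM
  have haM : a ≤ M := le_max_left _ _
  have hyQ : α g⁻¹ y ∈ Qn α P U M :=
    ⟨h.aG _ _ hy, fun u hu => h1 u (h.sys.chain.mono (le_max_right _ _) hu)⟩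
  obtain ⟨X, hX, -, hXs⟩ := exists_atoms h.sys h.opt.1 haM (h.cor_comm M)
  have h2 : α g⁻¹ y * f = 0 := by
    rw [← hXs, Finset.mul_sum]
    refine Finset.sum_eq_zero fun z hz => ?_
    obtain ⟨u, hu, h3⟩ := atoms_trans h.sys h.opt.1 haM (h.cor_comm M) (h.x_mem haM) ((hX z).1 hz)
    have hu0 : u⁻¹ ∈ U 0 := inv_mem (h.sys.chain.mono (Nat.zero_le a) hu)
    obtain ⟨c, hc⟩ := h.exists_scal hA haM (act_Qn h.sys hu0 hyQ)
    have h4 : y * α (g * u) (x M) = c • α (g * u) (x M) := by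
      have h5 := congrArg (α (g * u)) hc
      rw [map_mul, map_smul, ← alpha_mul, ← alpha_mul] at h5
      have h6 : g * u * u⁻¹ * g⁻¹ = 1 := by group
      rw [h6, map_one] at h5
      exact h5
    have h5 : c = 0 := by rw [← h.sym_eq haM h4, h0]
    rw [h5, zero_smul] at h4
    have h6 := congrArg (α g⁻¹) h4
    rw [map_mul, map_zero, alpha_mul, alpha_inv, h3] at h6
    exact h6
  have h3 := congrArg (α g) h2
  rw [map_mul, map_zero, ← alpha_mul, mul_inv_cancel, map_one] at h3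
  exact h3

theorem sym_inj {y z : 𝔸} (hy : y ∈ P) (hz : z ∈ P) (h0 : ∀ k, sym α x y k = sym α x z k) :
    y = z := by
  rw [← sub_eq_zero]
  refine h.sym_inj0 hA hE (sub_mem hy hz) fun k => ?_
  have h1 : y - z = y + (-1 : ℂ) • z := by rw [neg_one_smul, sub_eq_add_neg]
  rw [h1, h.sym_add hA hy (SMulMemClass.smul_mem _ hz), h.sym_smul hA hz, h0 k]
  ring

variable (hH : ∀ w, ∀ b ∈ P, β w b ∈ P)
include hH

/-- the image of the base point under `w` -/
theorem exists_pt (w : H) : ∃ g : G, ∀ m, a ≤ m → ∀ k, sym α x (β w (x m)) k =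
    sym α x (x m) (k * g) := by
  classical
  have hyP : ∀ m, a ≤ m → β w (x m) ∈ P := fun m hm => hH w _ (h.x_P hm)
  have hyi : ∀ m, a ≤ m → β w (x m) * β w (x m) = β w (x m) := fun m hm => by
    rw [← map_mul, (h.x_min m hm).idem]
  have hbinv : ∀ b, β w⁻¹ (β w b) = b := h.beta_inv w
  have hyne : ∀ m, a ≤ m → β w (x m) ≠ 0 := fun m hm h0 => by
    have h1 := hbinv (x m)
    rw [h0, map_zero] at h1
    exact (h.x_min m hm).ne h1.symm
  have hex : ∀ m, a ≤ m → ∃ g, sym α x (β w (x m)) g = 1 := by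
    intro m hm
    by_contra hcon
    push Not at hcon
    exact hyne m hm (h.sym_inj0 hA hE (hyP m hm) fun k =>
      (h.sym_idem hA (hyP m hm) (hyi m hm) k).resolve_right (hcon k))
  -- left invariance
  have hleft : ∀ m, a ≤ m → ∀ u ∈ U m, ∀ k, sym α x (β w (x m)) (u * k) = sym α x (β w (x m)) k := by
    intro m hm u hu k
    have h1 := h.sym_act hA (hyP m hm) u (u * k)
    rw [inv_mul_cancel_left, h.cm, (h.x_min m hm).mem.2 u hu] at h1
    exact h1
  -- the support is one coset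
  have hcos : ∀ m, a ≤ m → ∀ k1 k2, sym α x (β w (x m)) k1 = 1 → sym α x (β w (x m)) k2 = 1 →
      k1 * k2⁻¹ ∈ U m := by
    intro m hm k1 k2 h1 h2
    obtain ⟨M1, ha1, hM1⟩ := h.sym_spec hA (hyP m hm) k1
    obtain ⟨M2, -, hM2⟩ := h.sym_spec hA (hyP m hm) k2
    set M := max M1 M2 with hM
    have haM : a ≤ M := ha1.trans (le_max_left _ _)
    have hzP : β w⁻¹ (x M) ∈ P := hH _ _ (h.x_P haM)
    have hzi : β w⁻¹ (x M) * β w⁻¹ (x M) = β w⁻¹ (x M) := by
      rw [← map_mul, (h.x_min M haM).idem]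
    have hz0 : β w⁻¹ (x M) ≠ 0 := fun h0 => by
      have h3 : β w (β w⁻¹ (x M)) = x M := by
        rw [← alpha_mul, mul_inv_cancel, map_one]; rfl
      rw [h0, map_zero] at h3
      exact (h.x_min M haM).ne h3.symm
    obtain ⟨s, hs⟩ : ∃ s, sym α x (β w⁻¹ (x M)) s = 1 := by
      by_contra hcon
      push Not at hcon
      exact hz0 (h.sym_inj0 hA hE hzP fun k => (h.sym_idem hA hzP hzi k).resolve_right (hcon k))
    have key : ∀ k, sym α x (β w (x m)) k = 1 →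
        β w (x m) * α k (x M) = sym α x (β w (x m)) k • α k (x M) → k * s ∈ U m := by
      intro k hk1 hk
      rw [hk1, one_smul] at hk
      have h3 := congrArg (β w⁻¹) hk
      rw [map_mul, hbinv, ← h.cm] at h3
      have h4 := h.sym_mul hA (h.x_P hm) (h.aG k _ hzP) (k * s)
      rw [h3, h.sym_act hA hzP, inv_mul_cancel_left, hs, mul_one] at h4
      exact h.sym_x_eq_one hm h4.symm
    have h3 := key k1 h1 (hM1 M (le_max_left _ _))
    have h4 := key k2 h2 (hM2 M (le_max_right _ _))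
    have h5 : k1 * k2⁻¹ = (k1 * s) * (k2 * s)⁻¹ := by group
    rw [h5]
    exact mul_mem h3 (inv_mem h4)
  choose! gg hgg using hex
  -- monotone
  have hmono : ∀ m, a ≤ m → sym α x (β w (x m)) (gg (m + 1)) = 1 := by
    intro m hm
    have h1 := h.sym_mul hA (hyP m hm) (hyP (m + 1) (by omega)) (gg (m + 1))
    rw [← map_mul, h.x_x m hm, hgg (m + 1) (by omega), mul_one] at h1
    exact h1.symm
  have hstep : ∀ m, a ≤ m → gg m * (gg (m + 1))⁻¹ ∈ U m := fun m hm =>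
    hcos m hm _ _ (hgg m hm) (hmono m hm)
  set c' : ℕ → G := fun N => if a ≤ N then gg a * (gg N)⁻¹ else 1 with hc'
  have hc'e : ∀ N, a ≤ N → c' N = gg a * (gg N)⁻¹ := fun N hN => if_pos hN
  have hgU : ∀ N, a ≤ N → gg a * (gg N)⁻¹ ∈ U a := by
    intro N hN
    induction N, hN using Nat.le_induction with
    | base => rw [mul_inv_cancel]; exact one_mem _
    | succ N hN ih =>
      have h1 : gg a * (gg (N + 1))⁻¹ = (gg a * (gg N)⁻¹) * (gg N * (gg (N + 1))⁻¹) := by group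
      rw [h1]
      exact mul_mem ih (h.sys.chain.mono hN (hstep N hN))
  obtain ⟨u, huU, hu⟩ := h.cpl c' (fun N => by
      by_cases hN : a ≤ N
      · rw [hc'e N hN]; exact hgU N hN
      · simp only [hc', if_neg hN]; exact one_mem _) (fun N hN => by
      rw [hc'e N hN, hc'e (N + 1) (by omega)]
      have h1 : (gg a * (gg N)⁻¹)⁻¹ * (gg a * (gg (N + 1))⁻¹) = gg N * (gg (N + 1))⁻¹ := by group
      rw [h1]
      exact hstep N hN)
  refine ⟨(gg a)⁻¹ * u, fun m hm k => ?_⟩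
  have h1 : gg m * ((gg a)⁻¹ * u) ∈ U m := by
    have h2 := hu m hm
    rw [hc'e m hm] at h2
    have h3 : gg m * ((gg a)⁻¹ * u) = (gg a * (gg m)⁻¹)⁻¹ * u := by group
    rw [h3]
    exact h2
  by_cases hk : k * ((gg a)⁻¹ * u) ∈ U m
  · rw [h.sym_x_of_mem hm hk]
    have h2 : k = (k * ((gg a)⁻¹ * u)) * (gg m * ((gg a)⁻¹ * u))⁻¹ * gg m := by group
    rw [h2, hleft m hm _ (mul_mem hk (inv_mem h1)), hgg m hm]
  · rw [h.sym_x_of_not_mem hm hk]
    refine (h.sym_idem hA (hyP m hm) (hyi m hm) k).resolve_right fun h2 => hk ?_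
    have h3 := hcos m hm k (gg m) h2 (hgg m hm)
    have h4 : k * ((gg a)⁻¹ * u) = (k * (gg m)⁻¹) * (gg m * ((gg a)⁻¹ * u)) := by group
    rw [h4]
    exact mul_mem h3 h1

/-- `w` acts by right translation by its point, on all elements. -/
theorem pt_all {w : H} {g : G} (hg : ∀ m, a ≤ m → ∀ k, sym α x (β w (x m)) k =
    sym α x (x m) (k * g)) {y : 𝔸} (hy : y ∈ P) (k : G) :
    sym α x (β w y) k = sym α x y (k * g) := by
  obtain ⟨M, haM, hM⟩ := h.sym_spec hA hy (k * g)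
  have h1 := congrArg (β w) (hM M le_rfl)
  rw [map_mul, map_smul, ← h.cm] at h1
  have hP1 : α (k * g) (β w (x M)) ∈ P := h.aG _ _ (hH w _ (h.x_P haM))
  have h2 := h.sym_mul hA (hH w y hy) hP1 k
  rw [h1, h.sym_smul hA hP1, h.sym_act hA (hH w _ (h.x_P haM)), hg M haM] at h2
  have h3 : (k * g)⁻¹ * k * g = 1 := by group
  rw [h3, h.sym_x_of_mem haM (one_mem _), mul_one, mul_one] at h2
  exact h2.symm

theorem pt_unique {w : H} {g g' : G}
    (hg : ∀ m, a ≤ m → ∀ k, sym α x (β w (x m)) k = sym α x (x m) (k * g))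
    (hg' : ∀ m, a ≤ m → ∀ k, sym α x (β w (x m)) k = sym α x (x m) (k * g')) : g = g' := by
  have h1 : ∀ m, a ≤ m → g⁻¹ * g' ∈ U m := by
    intro m hm
    refine h.sym_x_eq_one hm ?_
    rw [← hg' m hm, hg m hm, inv_mul_cancel, h.sym_x_of_mem hm (one_mem _)]
  exact inv_mul_eq_one.1 (h.inter _ h1)

/-- **The torsor export.** -/
theorem exists_theta : ∃ θ : H →* G,
    (∀ w, ∀ y ∈ P, ∀ k, sym α x (β w y) k = sym α x y (k * θ w)) ∧
    (∀ w, (∀ y ∈ P, β w y = y) ↔ θ w = 1) ∧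
    (∀ N, ∃ M, ∀ w ∈ W M, θ w ∈ U N) ∧
    (∀ M, ∃ r, ∀ m, ∀ u ∈ U r, ∃ w ∈ W M, u * θ w ∈ U m) := by
  classical
  choose θ hθ using h.exists_pt hA hE hH
  have hall : ∀ w, ∀ y ∈ P, ∀ k, sym α x (β w y) k = sym α x y (k * θ w) :=
    fun w y hy k => h.pt_all hA hE hH (hθ w) hy k
  have hone : θ 1 = 1 := by
    refine h.pt_unique hA hE hH (hθ 1) fun m hm k => ?_
    rw [map_one, mul_one]; rfl
  have hmul : ∀ w w', θ (w * w') = θ w * θ w' := by
    intro w w'
    refine h.pt_unique hA hE hH (hθ (w * w')) fun m hm k => ?_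
    rw [alpha_mul, hall w _ (hH w' _ (h.x_P hm)), hθ w' m hm, mul_assoc]
  refine ⟨⟨⟨θ, hone⟩, hmul⟩, hall, fun w => ⟨fun hw => ?_, fun hw y hy => ?_⟩, fun N => ?_,
    fun M => ?_⟩
  · refine h.pt_unique hA hE hH (hθ w) fun m hm k => ?_
    rw [hw _ (h.x_P hm), mul_one]
  · refine h.sym_inj hA hE (hH w y hy) hy fun k => ?_
    have hw' : θ w = 1 := hw
    rw [hall w y hy, hw', mul_one]
  · set N' := max a N with hN'
    have haN : a ≤ N' := le_max_left _ _
    obtain ⟨M, hM⟩ := h.smW _ (h.x_P haN)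
    refine ⟨M, fun w hw => h.sys.chain.mono (le_max_right a N) ?_⟩
    refine h.sym_x_eq_one haN ?_
    have h1 := hθ w N' haN 1
    rw [hM w hw, one_mul, h.sym_x_of_mem haN (one_mem _)] at h1
    exact h1.symm
  · obtain ⟨r, har, hr⟩ := h.tower_ab.2 (max n M) (le_max_left _ _)
    refine ⟨r, fun m u hu => ?_⟩
    have ham : a ≤ max r m := har.trans (le_max_left _ _)
    obtain ⟨w, hw, h1⟩ := hr (max r m) (le_max_left _ _) u hu
    refine ⟨w, h.aW (le_max_right _ _) hw, h.sys.chain.mono (le_max_right r m) ?_⟩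
    refine h.sym_x_eq_one ham ?_
    have h2 := hθ w _ ham u
    rw [h1, h.sym_act hA (h.x_P ham), inv_mul_cancel, h.sym_x_of_mem ham (one_mem _)] at h2
    exact h2.symm

/-- With sequential compactness of `W M` the image of `W M` contains an open subgroup. -/
theorem theta_surj {θ : H →* G} (hθ : ∀ w, ∀ y ∈ P, ∀ k, sym α x (β w y) k = sym α x y (k * θ w))
    {M : ℕ} (hc : ∀ c : ℕ → H, (∀ i, c i ∈ W M) →
      ∃ w ∈ W M, ∀ N, ∃ i, N ≤ i ∧ (c i)⁻¹ * w ∈ W N) :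
    ∃ r, ∀ u ∈ U r, ∃ w ∈ W M, θ w = u := by
  obtain ⟨r, har, hr⟩ := h.tower_ab.2 (max n M) (le_max_left _ _)
  refine ⟨r, fun u hu => ?_⟩
  have hex : ∀ i, ∃ w ∈ W M, u⁻¹ * θ w ∈ U (max r i) := by
    intro i
    have ham : a ≤ max r i := har.trans (le_max_left _ _)
    obtain ⟨w, hw, h1⟩ := hr (max r i) (le_max_left _ _) u⁻¹ (inv_mem hu)
    refine ⟨w, h.aW (le_max_right _ _) hw, h.sym_x_eq_one ham ?_⟩
    rw [← hθ w _ (h.x_P ham), h1, h.sym_act hA (h.x_P ham), inv_mul_cancel,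
      h.sym_x_of_mem ham (one_mem _)]
  choose c hc1 hc2 using hex
  obtain ⟨w, hw, h1⟩ := hc c hc1
  refine ⟨w, hw, ?_⟩
  have h2 : ∀ N, a ≤ N → u⁻¹ * θ w ∈ U N := by
    intro N hN
    obtain ⟨M', hM'⟩ := h.smW _ (h.x_P hN)
    obtain ⟨i, hi, h3⟩ := h1 (max M' N)
    have h4 : θ ((c i)⁻¹ * w) ∈ U N := by
      refine h.sym_x_eq_one hN ?_
      have h5 := hθ ((c i)⁻¹ * w) _ (h.x_P hN) 1
      rw [hM' _ (h.aW (le_max_left _ _) h3), one_mul, h.sym_x_of_mem hN (one_mem _)] at h5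
      exact h5.symm
    have h5 : u⁻¹ * θ w = (u⁻¹ * θ (c i)) * θ ((c i)⁻¹ * w) := by
      rw [map_mul, map_inv]; group
    rw [h5]
    exact mul_mem (h.sys.chain.mono ((le_max_right _ _).trans (hi.trans (le_max_right _ _)))
      (hc2 i)) h4
  exact (inv_mul_eq_one.1 (h.inter _ h2)).symm

omit hA hE hH in
/-- the symbol of a translate of an atom is the indicator of a coset -/
theorem sym_tx {m : ℕ} (hm : a ≤ m) (g k : G) [Decidable (g⁻¹ * k ∈ U m)] :
    sym α x (α g (x m)) k = if g⁻¹ * k ∈ U m then 1 else 0 := by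
  have h0 : sym α x (α g (x m)) k = sym α x (x m) (g⁻¹ * k) := by
    by_cases hk : g⁻¹ * k ∈ U m
    · rw [h.sym_x_of_mem hm hk]
      refine h.sym_eq (M := m) hm ?_
      have h1 : α k (x m) = α g (x m) := by
        have h2 : k = g * (g⁻¹ * k) := by group
        rw [h2, alpha_mul, (h.x_min m hm).mem.2 _ hk]
      rw [h1, ← map_mul, (h.x_min m hm).idem, one_smul]
    · rw [h.sym_x_of_not_mem hm hk]
      refine h.sym_eq (M := m) hm ?_
      have h2 := congrArg (α g) (h.orth hm hk)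
      rw [map_mul, ← alpha_mul, mul_inv_cancel_left, map_zero] at h2
      rw [h2, zero_smul]
  rw [h0]
  split_ifs with hk
  · exact h.sym_x_of_mem hm hk
  · exact h.sym_x_of_not_mem hm hk

end RB

end Vale.Agent.P092.H375
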