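import Vale.Agent.P092.H375.ClsH

/-!
P092 (helper375), [N-CLS]/[U8]: a commuting leg which preserves matroids is classical.
-/

set_option linter.all false

namespace Vale.Agent.P092.H375.Cls

open Vale.Agent.P092.H820 Vale.Agent.P092.H466
open Vale.Agent.P092.H171 (ext ext_apply ext_surj Qg Qg_apply Qg_nd Pos pos_uniq ae_of_pos co phi_congr_ae
  conj_eq hom_uniq ms_restr exists_joint comm_all ae_restr)
open Vale.Agent.P092.H789 (cmap isOpenEmbedding_cmap range_cmap cmap_mul cmap_injective src GPos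
  isOpen_gpos gpos_cmap cmap_apply mk_smul sv sv_ne sv_last sv_castSucc)
open Vale.Agent.P092.RC (PG YY GG)
open Vale.Agent.P092.H35 (sp mkP)
open Vale.Agent.P092.H35.Sig (sgm sgm_src sgm_smul homog sig tv)
open TopologicalSpace Set MeasureTheory Matrix Module Topology Filter
open scoped LinearAlgebra.Projectivization Matrix InnerProductSpace ZeroAtInfty

section geo

variable {k : Type} [NontriviallyNormedField k] {m : ℕ}

theorem sp_smul (g : GG k m) (x : YY k m) : sp k (m + 1) g • x = g • x := by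
  obtain ⟨v, rfl⟩ := pj_surj x
  rfl

/-- the frame in the configuration -/
def ri (m : ℕ) : Fin (m + 2) → Fin (m + 1) ⊕ Fin 5 := Fin.lastCases (.inr 0) .inl

/-- the moved frame in the configuration -/
def si {m : ℕ} (j : Fin (m + 1)) : Fin (m + 2) → Fin (m + 1) ⊕ Fin 5 :=
  Fin.lastCases (.inr 4) fun l => if l = j then .inr 2 else .inl l

variable {i j : Fin (m + 1)}

theorem src_ri (hij : i ≠ j) (s : k) (x : Fin (m + 2)) : src k m x = ac hij s (ri m x) := by
  refine Fin.lastCases ?_ (fun l => ?_) x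
  · have e : ri m (Fin.last (m + 1)) = .inr 0 := Fin.lastCases_last ..
    rw [e]
    exact pj_smul_eq _ _ (c := 1) (by rw [one_smul, sv_last]; rfl)
  · have e : ri m l.castSucc = .inl l := Fin.lastCases_castSucc ..
    rw [e]
    exact pj_smul_eq _ _ (c := 1) (by rw [one_smul, sv_castSucc]; rfl)

theorem tv_mulVec (hij : i ≠ j) (s : k) (v : Fin (m + 1) → k) :
    (tv hij s).1 *ᵥ v = v + (s * v j) • ev i := by
  have h1 : (tv hij s).1 = Matrix.transvection i j s := rfl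
  rw [h1, Matrix.transvection, Matrix.add_mulVec, Matrix.one_mulVec]
  congr 1
  funext p
  by_cases hp : p = i
  · subst hp
    simp [ev, Matrix.single_mulVec]
  · simp [ev, Matrix.single_mulVec, hp, Function.update_of_ne hp]

theorem tv_src (hij : i ≠ j) (s : k) (x : Fin (m + 2)) :
    tv hij s • src k m x = ac hij s (si j x) := by
  have key : ∀ (v w : Fin (m + 1) → k) (hv : v ≠ 0) (hw : w ≠ 0),
      v + (s * v j) • ev i = w → tv hij s • pj k (Fin (m + 1)) ⟨v, hv⟩ = pj k (Fin (m + 1)) ⟨w, hw⟩ := by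
    intro v w hv hw h
    refine pj_smul_eq (gsmul_ne (tv hij s) hv) hw (c := 1) ?_
    rw [one_smul, ← h, ← tv_mulVec hij s v]
    rfl
  refine Fin.lastCases ?_ (fun l => ?_) x
  · have e : si j (Fin.last (m + 1)) = .inr 4 := Fin.lastCases_last ..
    rw [e]
    refine key _ _ _ _ ?_
    rw [sv_last]
    change (1 : Fin (m + 1) → k) + (s * 1) • ev i = 1 + s • ev i
    rw [mul_one]
  · have e : si j l.castSucc = if l = j then .inr 2 else .inl l := Fin.lastCases_castSucc ..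
    rw [e]
    by_cases hl : l = j
    · rw [if_pos hl]
      refine key _ _ _ _ ?_
      rw [sv_castSucc, hl]
      change (ev j : Fin (m + 1) → k) + (s * ev j j) • ev i = s • ev i + ev j
      rw [ev_self, mul_one]
      exact add_comm _ _
    · rw [if_neg hl]
      refine key _ _ _ _ ?_
      rw [sv_castSucc]
      change (ev l : Fin (m + 1) → k) + (s * ev l j) • ev i = ev l
      rw [ev_ne (fun h => hl h.symm), mul_zero, zero_smul, add_zero]

/-- the parameter is determined by the configuration -/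
theorem ac_one (hij : i ≠ j) {s t : k}
    (h : ac hij t (.inr 1) = (ac hij t (.inr 2) : YY k m)) : t = 1 := by
  have h1 := (pj_eq _ _).1 h
  obtain ⟨c, hc⟩ := h1
  have e1 := congrFun hc i
  have e2 := congrFun hc j
  change c • (t • ev i + ev j : Fin (m + 1) → k) i = (ev i + ev j : Fin (m + 1) → k) i at e1
  change c • (t • ev i + ev j : Fin (m + 1) → k) j = (ev i + ev j : Fin (m + 1) → k) j at e2
  simp only [Pi.add_apply, Pi.smul_apply, ev_self, ev_ne hij, ev_ne hij.symm, smul_eq_mul,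
    Units.smul_def] at e1 e2
  have hc1 : (c : k) = 1 := by linear_combination e2
  rw [hc1] at e1
  linear_combination e1

end geo

section out

variable {k : Type} [NontriviallyNormedField k] [ProperSpace k] {m : ℕ} {H Γ K : Type} [Group H]
  [Group Γ] [NormedAddCommGroup K] [InnerProductSpace ℂ K] [CompleteSpace K]

/-- The classical form of a leg. -/
structure Out (α : H →* PG k (m + 1)) (π : H →* (K →L[ℂ] K)) (lam : Γ →* (K →L[ℂ] K))
    (W : Set (K →L[ℂ] K)) (q : Γ → GG k m) (E : YY k m → (C(YY k m, ℂ) →⋆ₐ[ℂ] (K →L[ℂ] K)))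
    (σ : k →+* k) (Q : C₀(PG k (m + 1), ℂ) →⋆ₙₐ[ℂ] (K →L[ℂ] K)) : Prop where
  nd : ∀ ξ, (∀ ψ, Q ψ ξ = 0) → ξ = 0
  cm : ∀ ψ, ∀ w ∈ W, Q ψ * w = w * Q ψ
  cov : ∀ γ (ψ ψ' : C₀(PG k (m + 1), ℂ)), (∀ x, ψ' x = ψ ((sp k (m + 1) (q γ))⁻¹ * x)) →
    lam γ * Q ψ * lam γ⁻¹ = Q ψ'
  pcov : ∀ e (x : PG k (m + 1)), (∀ b : YY k m, x • sgm σ (m + 1) b = sgm σ (m + 1) (α e • b)) →
    ∀ ψ ψ' : C₀(PG k (m + 1), ℂ), (∀ y, ψ' y = ψ (y * x)) → π e * Q ψ * π e⁻¹ = Q ψ'
  mulE : ∀ b (f : C(YY k m, ℂ)) (ψ ψ' : C₀(PG k (m + 1), ℂ)),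
    (∀ x, ψ' x = f (x • sgm σ (m + 1) b) * ψ x) → E b f * Q ψ = Q ψ'
  gen : ∀ T : K →L[ℂ] K, (∀ b f, T * E b f = E b f * T) → ∀ ψ, T * Q ψ = Q ψ * T

variable {α : H →* PG k (m + 1)} {π : H →* (K →L[ℂ] K)} {lam : Γ →* (K →L[ℂ] K)}
  {W : Set (K →L[ℂ] K)} {q : Γ → GG k m} {E : YY k m → (C(YY k m, ℂ) →⋆ₐ[ℂ] (K →L[ℂ] K))}

theorem exists_third (hm : 2 ≤ m) (i j : Fin (m + 1)) : ∃ l : Fin (m + 1), l ≠ i ∧ l ≠ j := by
  classical
  by_contra hcon
  push Not at hcon
  have h1 : (Finset.univ : Finset (Fin (m + 1))) ⊆ {i, j} := by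
    intro x _
    by_cases h : x = i
    · simp [h]
    · simp [hcon x h]
  have h2 := Finset.card_le_card h1
  rw [Finset.card_univ, Fintype.card_fin] at h2
  exact absurd (h2.trans Finset.card_le_two) (by omega)

/-- **[N-CLS]** -/
theorem Leg.out [Nontrivial K] (hm : 2 ≤ m) (hL : Leg α π lam W q E) (ι : GG k m →* H)
    (hι : ∀ g (x : YY k m), α (ι g) • x = g • x) :
    ∃ (σ : k →+* k) (Q : C₀(PG k (m + 1), ℂ) →⋆ₙₐ[ℂ] (K →L[ℂ] K)), Out α π lam W q E σ Q := by
  classical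
  obtain ⟨Φ₀, hΦ₀'⟩ := hL.joint (src k m)
  have hΦ₀ : Jn E (src k m) Φ₀ := hΦ₀'
  -- the constants
  have hex : ∀ i j (hij : i ≠ j) (s : k), ∃ t : k, Cf E (ac hij s) (ac hij t) := by
    intro i j hij s
    obtain ⟨l, hli, hlj⟩ := exists_third hm i j
    obtain ⟨t, ht⟩ := hL.cfg_const hij hli hlj s
    refine ⟨t, fun Φ hΦ ξ => ?_⟩
    filter_upwards [ht Φ hΦ ξ] with z hz
    obtain ⟨g, hg⟩ := hz
    exact ⟨QuotientGroup.mk g, fun y => hg y⟩
  let τ : Fin (m + 1) → Fin (m + 1) → k → k := fun i j s =>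
    if hij : i ≠ j then (hex i j hij s).choose else 0
  have hτ : ∀ i j (hij : i ≠ j) (s : k), Cf E (ac hij s) (ac hij (τ i j s)) := by
    intro i j hij s
    have e : τ i j s = (hex i j hij s).choose := dif_pos hij
    rw [e]
    exact (hex i j hij s).choose_spec
  have hfr : ∀ ξ, ∀ᵐ z ∂(ms Φ₀ ξ), z ∈ range (cmap k m) := by
    have h01 : (0 : Fin (m + 1)) ≠ ⟨1, by omega⟩ := by
      intro h
      simp [Fin.ext_iff] at h
    obtain ⟨Φ, hΦ⟩ := hL.joint (ac h01 (1 : k))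
    exact (hτ _ _ h01 1).frame hΦ₀ hΦ (src_ri h01 1) (src_ri h01 _)
  have hpf : ∀ i, Pos (Qc Φ₀) (E (src k m i)) fun x => x • src k m i := by
    intro i
    have h01 : (0 : Fin (m + 1)) ≠ ⟨1, by omega⟩ := by
      intro h
      simp [Fin.ext_iff] at h
    obtain ⟨Φ, hΦ⟩ := hL.joint (ac h01 (1 : k))
    have h1 := (hτ _ _ h01 1).mulE hΦ₀ hΦ (src_ri h01 1) (src_ri h01 _) (ri m i)
    rw [← src_ri h01, ← src_ri h01] at h1
    exact h1
  -- right covariance
  have hroot : ∀ i j (hij : i ≠ j) (s : k),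
      Rt π (Qc Φ₀) (ι (tv hij s)) (sp k (m + 1) (tv hij (τ i j s))) := by
    intro i j hij s
    obtain ⟨Φ, hΦ⟩ := hL.joint (ac hij s)
    refine (hτ i j hij s).right hL.pcov hΦ₀ hΦ (src_ri hij s) (src_ri hij _) (s := si j) ?_ ?_
    · intro x
      rw [hι]
      exact tv_src hij s x
    · intro x
      rw [sp_smul]
      exact tv_src hij _ x
  have hone : ∀ i j, i ≠ j → τ i j 1 = 1 := by
    intro i j hij
    obtain ⟨Φ, hΦ⟩ := hL.joint (ac hij (1 : k))
    have h1 := (hτ i j hij 1).mulE hΦ₀ hΦ (src_ri hij 1) (src_ri hij _) (.inr 1)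
    have h2 := (hτ i j hij 1).mulE hΦ₀ hΦ (src_ri hij 1) (src_ri hij _) (.inr 2)
    have e : (ac hij (1 : k) (.inr 2) : YY k m) = ac hij 1 (.inr 1) :=
      pj_smul_eq _ _ (c := 1) (by
        rw [one_smul]
        change (1 : k) • (ev i : Fin (m + 1) → k) + ev j = ev i + ev j
        rw [one_smul])
    rw [e] at h2
    obtain ⟨g, hg⟩ := pos_uniq isOpenEmbedding_cmap hfr (cont_pt _) (cont_pt _) h1 h2
    exact ac_one (s := 1) hij (smul_left_cancel g hg)
  obtain ⟨σ, -, hσ⟩ := sig (by omega) (Rt := fun h x => Rt π (Qc Φ₀) (ι h) x)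
    (fun g h g' h' h1 h2 => by
      change Rt π (Qc Φ₀) (ι (g * h)) (g' * h')
      rw [map_mul]
      exact h1.mul h2)
    (fun h h' h'' h1 h2 => Rt.uniq hL.pcov hfr hpf h1 h2) τ hroot hone
  -- positions of all points
  have hpos : ∀ b : YY k m, Pos (Qc Φ₀) (E b) fun x => x • sgm σ (m + 1) b := by
    have hT : {b : YY k m | Pos (Qc Φ₀) (E b) fun x => x • sgm σ (m + 1) b} = univ := by
      refine homog (by omega) ⟨src k m 0, ?_⟩ ?_
      · have h1 := hpf 0
        rw [← sgm_src σ 0] at h1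
        rw [mem_setOf_eq]
        rw [sgm_src σ 0] at h1 ⊢
        exact hpf 0
      · intro g b hb
        have h1 := (hσ g).pos hL.pcov hb
        rw [hι] at h1
        rw [mem_setOf_eq, sgm_smul]
        simp only [sp_smul] at h1
        exact h1
    intro b
    have : b ∈ {b : YY k m | Pos (Qc Φ₀) (E b) fun x => x • sgm σ (m + 1) b} := by
      rw [hT]; trivial
    exact this
  refine ⟨σ, Qc Φ₀, ?_, ?_, ?_, ?_, ?_, ?_⟩
  · intro ξ h
    exact Qg_nd isOpenEmbedding_cmap hfr h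
  · intro ψ w hw
    have h1 := comm_all Φ₀ (T := w) (fun i f => by
      rw [hΦ₀ i f]; exact (hL.cm _ _ w hw).symm) (ext isOpenEmbedding_cmap ψ)
    exact h1.symm
  · intro γ ψ ψ' hψ
    have h1 := hΦ₀.lam_conj hL γ (ext isOpenEmbedding_cmap ψ)
    change lam γ * Φ₀ (ext isOpenEmbedding_cmap ψ) * lam γ⁻¹ = _
    rw [h1]
    refine phi_congr_ae Φ₀ fun ξ => ?_
    filter_upwards [hfr ξ] with z hz
    obtain ⟨x, rfl⟩ := hz
    have h2 : (fun i => (q γ)⁻¹ • cmap k m x i) = cmap k m ((sp k (m + 1) (q γ))⁻¹ * x) := by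
      funext i
      rw [cmap_mul, ← map_inv, sp_smul]
    change ext isOpenEmbedding_cmap ψ (fun i => (q γ)⁻¹ • cmap k m x i) = _
    rw [h2, ext_apply, ext_apply, hψ]
  · intro e x hx
    refine Rt.of_pos hL.pcov hL.com hΦ₀ hfr fun i => ?_
    have h1 := hpos (α e • src k m i)
    rw [← hx, sgm_src] at h1
    simp only [← mul_smul] at h1
    exact h1
  · intro b f ψ ψ' h
    exact hpos b f ψ ψ' h
  · intro T hT ψ
    exact comm_all Φ₀ (T := T) (fun i f => by
      rw [hΦ₀ i f]; exact hT _ _) (ext isOpenEmbedding_cmap ψ)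

end out

end Vale.Agent.P092.H375.Cls
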