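import Vale.Agent.P092.H375.ClsU2
import Vale.Agent.P092.H375.ClsI
import Vale.Agent.P092.SN.Blocks2
import Vale.Agent.P092.H252.DU.Blocks
import Vale.Agent.P092.H455.AdmN

/-!
P092 (helper375), D-ULTRA [U8] + [U9]: a commuting leg of `SL_3(k)` is classical; with the
cross-leg step of Team N both legs are classical and commute.
-/

set_option linter.all false

namespace Vale.Agent.P092.H375.Cls

open Vale.Agent.P092.H820 Vale.Agent.P092.H466
open Vale.Agent.P092.H171 (co)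
open Vale.Agent.P092.H933 (LocK)
open Vale.Agent.P092.RC (PG YY GG Cm Moore ct)
open Vale.Agent.P092.H35 (sp mkP)
open Vale.Agent.P092.H35.Sig (sgm sgm_smul)
open TopologicalSpace Set MeasureTheory Matrix Module Topology Filter
open scoped LinearAlgebra.Projectivization Matrix InnerProductSpace ZeroAtInfty

section moore

variable {k : Type} [NontriviallyNormedField k] [ProperSpace k]

/-- the pointwise stabiliser of a line has the Moore property -/
theorem moore_ln {m : ℕ} (hm : 1 ≤ m) (hk : LocK k) {i j l : Fin (m + 1)} (hil : i ≠ l)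
    (hlj : l ≠ j) :
    Moore {e : GG k m | ∀ x : YY k m, x.submodule ≤ Submodule.span k {Pi.single i 1,
      Pi.single j 1} → sp k (m + 1) e • x = x} := by
  refine H455.moore_mono (H455.moore_root hk (by omega) hil) ?_
  rintro g ⟨t, ht⟩ x hx
  rw [sp_smul]
  obtain ⟨⟨v, hv⟩, rfl⟩ := pj_surj x
  have h1 : v ∈ Submodule.span k {(Pi.single i 1 : Fin (m + 1) → k), Pi.single j 1} := by
    apply hx
    have : (pj k (Fin (m + 1)) ⟨v, hv⟩).submodule = Submodule.span k {v} :=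
      Projectivization.submodule_mk _ _
    rw [this]
    exact Submodule.mem_span_singleton_self v
  have h2 : v l = 0 := by
    obtain ⟨a, b, rfl⟩ := Submodule.mem_span_pair.1 h1
    simp [hil.symm, hlj]
  refine pj_smul_eq (gsmul_ne g hv) hv (c := 1) ?_
  rw [one_smul]
  change g.1 *ᵥ v = v
  rw [ht, Matrix.add_mulVec, Matrix.one_mulVec, Matrix.single_mulVec, h2]
  simp

end moore

section leg3

variable {k : Type} [NontriviallyNormedField k] [ProperSpace k] [MeasurableSpace k]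
  {μ : Measure k} {Γ K : Type} [Group Γ] [NormedAddCommGroup K] [InnerProductSpace ℂ K]
  [CompleteSpace K] {w : kˣ} {π : SD.G3 k →* (K →L[ℂ] K)} {lam : Γ →* (K →L[ℂ] K)}
  {W : Set (K →L[ℂ] K)} {Ω : K} {m : Set Γ → (K →L[ℂ] K)} {q : Γ →* SD.G3 k}
  {E F : SD.PP k → (SD.CP k →⋆ₐ[ℂ] (K →L[ℂ] K))}

theorem leg3 (hk : LocK k) (hL : SD.LegS μ w π lam W Ω m q E F) (hQ : SD.QP E F)
    (cEE : ∀ a b f g, Commute (E a f) (E b g)) (cEF : ∀ a l f h, Commute (E a f) (F l h))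
    (cFF : ∀ l l' f g, Commute (F l f) (F l' g)) :
    Leg (n := 3) (sp k 3) π lam W q E where
  cm := hL.e.cm
  cov := hL.e.cov
  pcov := fun e a f => by
    have h1 : sp k 3 e • a = e • a := sp_smul (m := 2) e a
    rw [h1]
    exact hL.e.pcov e a f
  com := cEE
  erg := fun i j l hij hli hlj T h1 h2 h3 =>
    hL.pic.erg _ (moore_ln (m := 2) (by norm_num) hk hli.symm hlj) T h1 h2 h3
  mt := fun a Φ hΦ ξ => mt_of_plane hQ.inc hQ.agrE hQ.agrF cEE cEF cFF a Φ hΦ ξ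

/-- **[U8]** -/
theorem clsN3 (hk : LocK k) (hL : SD.LegS μ w π lam W Ω m q E F) (hQ : SD.QP E F)
    (cEE : ∀ a b f g, Commute (E a f) (E b g)) (cEF : ∀ a l f h, Commute (E a f) (F l h))
    (cFF : ∀ l l' f g, Commute (F l f) (F l' g)) :
    ∃ (σ : k →+* k) (Q : C₀(PG k 3, ℂ) →⋆ₙₐ[ℂ] (K →L[ℂ] K)),
      SN.ClsN (N := 2) (sp k 3) π lam W q E σ Q := by
  haveI : Nontrivial K := ⟨Ω, 0, fun h => by
    have := hL.pic.nΩ
    rw [h, norm_zero] at this
    exact zero_ne_one this⟩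
  obtain ⟨σ, Q, h⟩ := (leg3 hk hL hQ cEE cEF cFF).out (m := 2) le_rfl (MonoidHom.id _)
    (fun g x => sp_smul (m := 2) g x)
  exact ⟨σ, Q, h.nd, h.cm, h.cov, h.pcov, h.mulE⟩

/-- a leg in the form of Team N is a leg in the form of [U12] -/
theorem cq_of {σ : k →+* k} {Q : C₀(PG k 3, ℂ) →⋆ₙₐ[ℂ] (K →L[ℂ] K)}
    (h : SN.ClsN (N := 2) (sp k 3) π lam W q E σ Q) : H252.DU.CQ π lam W q Q where
  nd := h.nd
  cm := h.cm
  cov := h.cov
  pcov := fun g ψ => ⟨rtr (m := 2) (sp k 3 (SpecialLinearGroup.map σ g)) ψ,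
    h.pcov g (sp k 3 (SpecialLinearGroup.map σ g)) (fun b => by
      have e1 : sp k 3 g • b = g • b := sp_smul (m := 2) g b
      have e2 : sp k 3 (SpecialLinearGroup.map σ g) • sgm σ 3 b =
        SpecialLinearGroup.map σ g • sgm σ 3 b := sp_smul (m := 2) _ _
      change sp k 3 (SpecialLinearGroup.map σ g) • sgm σ 3 b = sgm σ 3 (sp k 3 g • b)
      rw [e1, e2, sgm_smul]) ψ _ fun y => rfl⟩

end leg3

/-- **[U8] + [U9]** from the cross-leg step of Team N. -/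
theorem clsXC_of {k : Type} [NontriviallyNormedField k] [ProperSpace k] [MeasurableSpace k]
    (hk : LocK k) (μ : Measure k) (hX : SN.XCStmt k) : H252.DU.ClsXCStmt k μ := by
  intro Γ K _ _ _ _ _ w π lam₁ lam₂ X Ω m₁ m₂ q₁ q₂ E₁ F₁ E₂ F₂ hP ht₁ ht₂ hL₁ hL₂ h₁ h₂
  obtain ⟨σ₁, Q₁, c₁⟩ := clsN3 hk hL₁ h₁.1 h₁.2.1 h₁.2.2.1 h₁.2.2.2
  obtain ⟨σ₂, Q₂, c₂⟩ := clsN3 hk hL₂ h₂.1 h₂.2.1 h₂.2.2.1 h₂.2.2.2
  refine ⟨Q₁, Q₂, cq_of c₁, cq_of c₂, ?_⟩
  have ph : ∀ q : Γ →* SD.G3 k, SN.PH (N := 2) (k := k) q := fun q γ γ' => ⟨1, by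
    rw [one_smul, map_mul]⟩
  exact hX (N := 2) (MonoidHom.id _) (sp k 3) ((sp k 3).comp ct) π lam₁ lam₂ X Ω q₁ q₂ E₁ E₂
    σ₁ σ₂ Q₁ Q₂ (H455.adm_sl hk le_rfl) hP ht₁ ht₂ (ph q₁) (ph q₂) hL₁.disc hL₂.disc c₁ c₂

end Vale.Agent.P092.H375.Cls
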