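import Vale.Agent.P092.H820.Cpv

/-!
P092 (helper375), D-ULTRA (board 4628), block DU-SYN: the synthesis step of the proof of board 4334
over nonarchimedean local fields, for projection valued measures on clopen sets of points and of
lines.  Everything is exact: no analysis.
-/

set_option linter.all false

namespace Vale.Agent.P092.H375.Ultra

open TopologicalSpace Vale.Agent.P092.H820

universe u

variable {X : Type*} [TopologicalSpace X] [CompactSpace X] [T2Space X]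
  [TotallyDisconnectedSpace X] {Y : Type*} [TopologicalSpace Y] [CompactSpace Y] [T2Space Y]
  [TotallyDisconnectedSpace Y]

/-- no point of `U` is incident with a line of `A` -/
def NI (I : Set (X × Y)) (U : Clopens X) (A : Clopens Y) : Prop := ∀ x ∈ U, ∀ y ∈ A, (x, y) ∉ I

theorem NI.mono {I : Set (X × Y)} {U U' : Clopens X} {A A' : Clopens Y} (h : NI I U A)
    (hU : U' ≤ U) (hA : A' ≤ A) : NI I U' A' := fun x hx y hy => h x (hU hx) y (hA hy)

/-- One point measure `P`, two line measures `Q₁`, `Q₂` and a middle operator `T`. -/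
structure Syst (I : Set (X × Y)) {𝔸 : Type u} [Ring 𝔸] [StarRing 𝔸] (P : Clopens X → 𝔸)
    (Q₁ Q₂ : Clopens Y → 𝔸) (T : 𝔸) : Prop where
  hP : Cpv P
  h1 : Cpv Q₁
  h2 : Cpv Q₂
  comm : ∀ U A, P U * Q₁ A = Q₁ A * P U
  inc1 : ∀ U A, NI I U A → P U * Q₁ A = 0
  inc2 : ∀ U A, NI I U A → P U * T * Q₂ A = 0

/-- a rectangle on which no point of `V` is incident with both sides -/
def Out (I : Set (X × Y)) (V : Clopens X) (B B' : Clopens Y) : Prop :=
  ∃ V₁ V₂ : Clopens X, V = V₁ ⊔ V₂ ∧ NI I V₁ B ∧ NI I V₂ B'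

theorem Out.mono {I : Set (X × Y)} {V : Clopens X} {B B' C C' : Clopens Y} (h : Out I V B B')
    (hC : C ≤ B) (hC' : C' ≤ B') : Out I V C C' := by
  obtain ⟨V₁, V₂, h0, h1, h2⟩ := h
  exact ⟨V₁, V₂, h0, h1.mono le_rfl hC, h2.mono le_rfl hC'⟩

/-- tube lemma -/
theorem tube {I : Set (X × Y)} (hI : IsClosed I) (V : Clopens X) {b : Y}
    (h : ∀ x ∈ V, (x, b) ∉ I) : ∃ B : Clopens Y, b ∈ B ∧ NI I V B := by
  have hV : IsCompact (V : Set X) := V.isClopen.isClosed.isCompact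
  have key : ∃ B : Clopens Y, b ∈ B ∧ ∀ x ∈ (V : Set X), ∀ y ∈ B, (x, y) ∉ I := by
    refine hV.induction_on (p := fun S => ∃ B : Clopens Y, b ∈ B ∧ ∀ x ∈ S, ∀ y ∈ B,
      (x, y) ∉ I) ?_ ?_ ?_ ?_
    · exact ⟨⊤, trivial, fun x hx => absurd hx (Set.notMem_empty x)⟩
    · rintro S T hST ⟨B, h1, h2⟩
      exact ⟨B, h1, fun x hx => h2 x (hST hx)⟩
    · rintro S T ⟨B, h1, h2⟩ ⟨C, g1, g2⟩
      refine ⟨B ⊓ C, ⟨h1, g1⟩, ?_⟩
      rintro x (hx | hx) y hy
      · exact h2 x hx y hy.1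
      · exact g2 x hx y hy.2
    · intro x hx
      have hn : Iᶜ ∈ nhds (x, b) := hI.isOpen_compl.mem_nhds (h x hx)
      rw [nhds_prod_eq, Filter.mem_prod_iff] at hn
      obtain ⟨S, hS, T, hT, hST⟩ := hn
      obtain ⟨B, hB, hBT⟩ := exists_clopen hT
      exact ⟨S, mem_nhdsWithin_of_mem_nhds hS, B, hB, fun z hz y hy => hST ⟨hz, hBT hy⟩⟩
  exact key

/-- Local existence of outer rectangles. -/
theorem exists_out {I : Set (X × Y)} (hI : IsClosed I) (V : Clopens X) {b b' : Y}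
    (h : ∀ x ∈ V, (x, b) ∈ I → (x, b') ∈ I → False) :
    ∃ B B' : Clopens Y, b ∈ B ∧ b' ∈ B' ∧ Out I V B B' := by
  -- cover the points of `V` incident with `b`
  have hK : IsCompact ((V : Set X) ∩ {x | (x, b) ∈ I}) :=
    (V.isClopen.isClosed.inter (hI.preimage (by fun_prop : Continuous fun x : X => (x, b)))).isCompact
  obtain ⟨V₂, B', hKV, hb', hN⟩ : ∃ (V₂ : Clopens X) (B' : Clopens Y),
      (V : Set X) ∩ {x | (x, b) ∈ I} ⊆ V₂ ∧ b' ∈ B' ∧ NI I V₂ B' := by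
    refine hK.induction_on (p := fun S => ∃ (V₂ : Clopens X) (B' : Clopens Y),
      S ⊆ V₂ ∧ b' ∈ B' ∧ NI I V₂ B') ?_ ?_ ?_ ?_
    · exact ⟨⊥, ⊤, Set.empty_subset _, trivial, fun x hx => absurd hx (Set.notMem_empty x)⟩
    · rintro S T hST ⟨V₂, B', h1, h2, h3⟩
      exact ⟨V₂, B', hST.trans h1, h2, h3⟩
    · rintro S T ⟨V₂, B', h1, h2, h3⟩ ⟨W₂, C', g1, g2, g3⟩
      refine ⟨V₂ ⊔ W₂, B' ⊓ C', Set.union_subset_union h1 g1, ⟨h2, g2⟩, ?_⟩
      rintro x (hx | hx) y hy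
      · exact h3 x hx y hy.1
      · exact g3 x hx y hy.2
    · rintro x ⟨hxV, hxb⟩
      have hn : Iᶜ ∈ nhds (x, b') := hI.isOpen_compl.mem_nhds fun h' => h x hxV hxb h'
      rw [nhds_prod_eq, Filter.mem_prod_iff] at hn
      obtain ⟨S, hS, T, hT, hST⟩ := hn
      obtain ⟨V₂, hV₂, hVS⟩ := exists_clopen hS
      obtain ⟨B', hB', hBT⟩ := exists_clopen hT
      exact ⟨V₂, mem_nhdsWithin_of_mem_nhds (V₂.isClopen.isOpen.mem_nhds hV₂), V₂, B', subset_rfl,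
        hB', fun z hz y hy => hST ⟨hVS hz, hBT hy⟩⟩
  obtain ⟨B, hbB, hNB⟩ := tube hI (V ⊓ V₂ᶜ) (b := b) fun x hx hxb => hx.2 (hKV ⟨hx.1, hxb⟩)
  refine ⟨B, B', hbB, hb', V ⊓ V₂ᶜ, V ⊓ V₂, ?_, hNB, hN.mono inf_le_right le_rfl⟩
  rw [← inf_sup_left, sup_comm, sup_compl_eq_top, inf_top_eq]

/-- On an outer rectangle the point measure vanishes. -/
theorem Syst.out {I : Set (X × Y)} {𝔸 : Type u} [Ring 𝔸] [StarRing 𝔸] {P : Clopens X → 𝔸}
    {Q₁ Q₂ : Clopens Y → 𝔸} {T : 𝔸} (h : Syst I P Q₁ Q₂ T) {V : Clopens X} {B B' : Clopens Y}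
    (hO : Out I V B B') : P V * Q₁ B * T * Q₂ B' = 0 := by
  obtain ⟨V₁, V₂, rfl, h1, h2⟩ := hO
  have e1 : P V₁ * Q₁ B = 0 := h.inc1 _ _ h1
  have e2 : P V₂ * Q₁ B * T * Q₂ B' = 0 := by
    rw [h.comm, mul_assoc, mul_assoc, ← mul_assoc (P V₂), h.inc2 _ _ h2, mul_zero]
  have e3 : P (V₁ ⊔ V₂) = P V₁ + (1 - P V₁) * P V₂ := by
    rw [h.hP.sup]; noncomm_ring
  have e4 : (1 - P V₁) * P V₂ * Q₁ B * T * Q₂ B' = (1 - P V₁) * (P V₂ * Q₁ B * T * Q₂ B') := by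
    noncomm_ring
  rw [e3, add_mul, add_mul, add_mul, e1, zero_mul, zero_mul, zero_add, e4, e2, mul_zero]

/-- `P U * Q₁ S * T * Q₂ S'` is a fixed finite sum of products, for all systems. -/
def Good (I : Set (X × Y)) (U : Clopens X) (S S' : Clopens Y) : Prop :=
  ∃ L : List (Clopens Y × Clopens Y), (∀ p ∈ L, p.1 ≤ S ∧ p.2 ≤ S') ∧
    ∀ (𝔸 : Type u) [Ring 𝔸] [StarRing 𝔸] (P : Clopens X → 𝔸) (Q₁ Q₂ : Clopens Y → 𝔸) (T : 𝔸),
      Syst I P Q₁ Q₂ T →
        P U * Q₁ S * T * Q₂ S' = (L.map fun p => Q₁ p.1 * T * Q₂ p.2).sum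

theorem sum_map_mul_left {𝔸 : Type*} [Ring 𝔸] {α : Type*} (L : List α) (f : α → 𝔸) (c : 𝔸) :
    c * (L.map f).sum = (L.map fun p => c * f p).sum := by
  induction L with
  | nil => simp
  | cons a L ih => simp [mul_add, ih]

theorem sum_map_mul_right {𝔸 : Type*} [Ring 𝔸] {α : Type*} (L : List α) (f : α → 𝔸) (c : 𝔸) :
    (L.map f).sum * c = (L.map fun p => f p * c).sum := by
  induction L with
  | nil => simp
  | cons a L ih => simp [add_mul, ih]

theorem Good.mono {I : Set (X × Y)} {U : Clopens X} {S S' R R' : Clopens Y}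
    (h : Good.{u} I U S S') (hR : R ≤ S) (hR' : R' ≤ S') : Good.{u} I U R R' := by
  obtain ⟨L, hL, h⟩ := h
  refine ⟨L.map fun p => (R ⊓ p.1, p.2 ⊓ R'), ?_, ?_⟩
  · intro p hp
    obtain ⟨q, hq, rfl⟩ := List.mem_map.1 hp
    exact ⟨inf_le_left, inf_le_right⟩
  · intro 𝔸 _ _ P Q₁ Q₂ T hs
    have h1 := h 𝔸 P Q₁ Q₂ T hs
    have h2 : P U * Q₁ R * T * Q₂ R' = Q₁ R * (P U * Q₁ S * T * Q₂ S') * Q₂ R' := by
      have e1 : Q₁ R * Q₁ S = Q₁ R := hs.h1.le_left hR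
      have e2 : Q₂ S' * Q₂ R' = Q₂ R' := hs.h2.le_right hR'
      calc P U * Q₁ R * T * Q₂ R' = P U * (Q₁ R * Q₁ S) * T * (Q₂ S' * Q₂ R') := by rw [e1, e2]
        _ = (P U * Q₁ R) * Q₁ S * T * Q₂ S' * Q₂ R' := by simp only [mul_assoc]
        _ = _ := by rw [hs.comm]; simp only [mul_assoc]
    rw [h2, h1, sum_map_mul_left, sum_map_mul_right, List.map_map]
    congr 1
    refine List.map_congr_left fun p _ => ?_
    simp only [Function.comp]
    rw [hs.h1.inf, hs.h2.inf]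
    simp only [mul_assoc]

theorem Good.sup_left {I : Set (X × Y)} {U : Clopens X} {S R S' : Clopens Y}
    (h : Good.{u} I U S S') (hR : Good.{u} I U R S') : Good.{u} I U (S ⊔ R) S' := by
  obtain ⟨L, hL, h⟩ := h
  obtain ⟨M, hM, hR⟩ := hR.mono (R := R ⊓ Sᶜ) inf_le_left (le_refl S')
  refine ⟨L ++ M, ?_, ?_⟩
  · intro p hp
    rcases List.mem_append.1 hp with hp | hp
    · exact ⟨(hL p hp).1.trans le_sup_left, (hL p hp).2⟩
    · exact ⟨(hM p hp).1.trans (inf_le_left.trans le_sup_right), (hM p hp).2⟩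
  · intro 𝔸 _ _ P Q₁ Q₂ T hs
    have e : S ⊔ R = S ⊔ (R ⊓ Sᶜ) := by rw [sup_inf_left, sup_compl_eq_top, inf_top_eq]
    have hd : Disjoint S (R ⊓ Sᶜ) := disjoint_compl_right.mono le_rfl inf_le_right
    rw [e, hs.h1.add hd, mul_add, add_mul, add_mul, List.map_append, List.sum_append,
      h 𝔸 P Q₁ Q₂ T hs, hR 𝔸 P Q₁ Q₂ T hs]

theorem Good.sup_right {I : Set (X × Y)} {U : Clopens X} {S S' R' : Clopens Y}
    (h : Good.{u} I U S S') (hR : Good.{u} I U S R') : Good.{u} I U S (S' ⊔ R') := by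
  obtain ⟨L, hL, h⟩ := h
  obtain ⟨M, hM, hR⟩ := hR.mono (R' := R' ⊓ S'ᶜ) (le_refl S) inf_le_left
  refine ⟨L ++ M, ?_, ?_⟩
  · intro p hp
    rcases List.mem_append.1 hp with hp | hp
    · exact ⟨(hL p hp).1, (hL p hp).2.trans le_sup_left⟩
    · exact ⟨(hM p hp).1, (hM p hp).2.trans (inf_le_left.trans le_sup_right)⟩
  · intro 𝔸 _ _ P Q₁ Q₂ T hs
    have e : S' ⊔ R' = S' ⊔ (R' ⊓ S'ᶜ) := by rw [sup_inf_left, sup_compl_eq_top, inf_top_eq]
    have hd : Disjoint S' (R' ⊓ S'ᶜ) := disjoint_compl_right.mono le_rfl inf_le_right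
    rw [e, hs.h2.add hd, mul_add, List.map_append, List.sum_append,
      h 𝔸 P Q₁ Q₂ T hs, hR 𝔸 P Q₁ Q₂ T hs]

theorem good_bot_left {I : Set (X × Y)} {U : Clopens X} {S' : Clopens Y} :
    Good.{u} I U ⊥ S' := by
  refine ⟨[], fun p hp => absurd hp List.not_mem_nil, fun 𝔸 _ _ P Q₁ Q₂ T hs => ?_⟩
  rw [hs.h1.bot, mul_zero, zero_mul, zero_mul]
  simp

theorem good_bot_right {I : Set (X × Y)} {U : Clopens X} {S : Clopens Y} :
    Good.{u} I U S ⊥ := by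
  refine ⟨[], fun p hp => absurd hp List.not_mem_nil, fun 𝔸 _ _ P Q₁ Q₂ T hs => ?_⟩
  rw [hs.h2.bot, mul_zero]
  simp

/-- Local step. -/
theorem good_local {I : Set (X × Y)} (hI : IsClosed I)
    (huniq : ∀ x x' b b', b ≠ b' → (x, b) ∈ I → (x, b') ∈ I → (x', b) ∈ I → (x', b') ∈ I → x = x')
    (U : Clopens X) {b b' : Y} (hne : b ≠ b') :
    ∃ B B' : Clopens Y, b ∈ B ∧ b' ∈ B' ∧ Good.{u} I U B B' := by
  by_cases hx : ∃ x ∈ U, (x, b) ∈ I ∧ (x, b') ∈ I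
  · obtain ⟨x, hxU, hx1, hx2⟩ := hx
    obtain ⟨B, B', h1, h2, h3⟩ := exists_out hI Uᶜ (b := b) (b' := b') fun z hz g1 g2 => by
      have := huniq x z b b' hne hx1 hx2 g1 g2
      subst this
      exact hz hxU
    refine ⟨B, B', h1, h2, [(B, B')], ?_, ?_⟩
    · intro p hp
      rw [List.mem_singleton] at hp
      subst hp
      exact ⟨le_rfl, le_rfl⟩
    · intro 𝔸 _ _ P Q₁ Q₂ T hs
      have e := hs.out h3
      rw [hs.hP.compl, sub_mul, sub_mul, sub_mul, one_mul, sub_eq_zero] at e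
      rw [← e]
      simp
  · obtain ⟨B, B', h1, h2, h3⟩ := exists_out hI U (b := b) (b' := b') fun z hz g1 g2 =>
      hx ⟨z, hz, g1, g2⟩
    refine ⟨B, B', h1, h2, [], fun p hp => absurd hp List.not_mem_nil, ?_⟩
    intro 𝔸 _ _ P Q₁ Q₂ T hs
    rw [hs.out h3]
    simp

/-- **Synthesis.** -/
theorem good_of_disjoint {I : Set (X × Y)} (hI : IsClosed I)
    (huniq : ∀ x x' b b', b ≠ b' → (x, b) ∈ I → (x, b') ∈ I → (x', b) ∈ I → (x', b') ∈ I → x = x')
    (U : Clopens X) {A A' : Clopens Y} (hd : Disjoint A A') : Good.{u} I U A A' := by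
  have loc1 : ∀ b ∈ A, ∃ B : Clopens Y, b ∈ B ∧ Good.{u} I U B A' := by
    intro b hb
    have hA'c : IsCompact (A' : Set Y) := A'.isClopen.isClosed.isCompact
    have key : ∃ B V : Clopens Y, b ∈ B ∧ (A' : Set Y) ⊆ V ∧ Good.{u} I U B V := by
      refine hA'c.induction_on (p := fun S => ∃ B V : Clopens Y, b ∈ B ∧ S ⊆ V ∧
        Good.{u} I U B V) ?_ ?_ ?_ ?_
      · exact ⟨⊤, ⊥, trivial, Set.empty_subset _, good_bot_right⟩
      · rintro S T hST ⟨B, V, h1, h2, h3⟩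
        exact ⟨B, V, h1, hST.trans h2, h3⟩
      · rintro S T ⟨B, V, h1, h2, h3⟩ ⟨C, Z, g1, g2, g3⟩
        exact ⟨B ⊓ C, V ⊔ Z, ⟨h1, g1⟩, Set.union_subset_union h2 g2,
          (h3.mono inf_le_left le_rfl).sup_right (g3.mono inf_le_right le_rfl)⟩
      · intro b' hb'
        have hne : b ≠ b' := by
          rintro rfl
          exact (hd.le_bot (show b ∈ A ⊓ A' from ⟨hb, hb'⟩) : b ∈ (⊥ : Clopens Y))
        obtain ⟨B, B', h1, h2, h3⟩ := good_local.{u} hI huniq U hne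
        exact ⟨B', mem_nhdsWithin_of_mem_nhds (B'.isClopen.isOpen.mem_nhds h2), B, B', h1,
          subset_rfl, h3⟩
    obtain ⟨B, V, h1, h2, h3⟩ := key
    exact ⟨B, h1, h3.mono le_rfl h2⟩
  have hAc : IsCompact (A : Set Y) := A.isClopen.isClosed.isCompact
  have key : ∃ V : Clopens Y, (A : Set Y) ⊆ V ∧ Good.{u} I U V A' := by
    refine hAc.induction_on (p := fun S => ∃ V : Clopens Y, S ⊆ V ∧ Good.{u} I U V A') ?_ ?_ ?_ ?_
    · exact ⟨⊥, Set.empty_subset _, good_bot_left⟩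
    · rintro S T hST ⟨V, h2, h3⟩
      exact ⟨V, hST.trans h2, h3⟩
    · rintro S T ⟨V, h2, h3⟩ ⟨Z, g2, g3⟩
      exact ⟨V ⊔ Z, Set.union_subset_union h2 g2, h3.sup_left g3⟩
    · intro b hb
      obtain ⟨B, hB, h⟩ := loc1 b hb
      exact ⟨B, mem_nhdsWithin_of_mem_nhds (B.isClopen.isOpen.mem_nhds hB), B, subset_rfl, h⟩
  obtain ⟨V, h1, h2⟩ := key
  exact h2.mono h1 le_rfl

section Use

variable {𝔸 : Type u} [Ring 𝔸] [StarRing 𝔸]

/-- Two point measures with the same data agree on `Q₁ A * T * Q₂ A'`. -/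
theorem agree {I : Set (X × Y)} (hI : IsClosed I)
    (huniq : ∀ x x' b b', b ≠ b' → (x, b) ∈ I → (x, b') ∈ I → (x', b) ∈ I → (x', b') ∈ I → x = x')
    {P P' : Clopens X → 𝔸} {Q₁ Q₂ : Clopens Y → 𝔸} {T : 𝔸} (h : Syst I P Q₁ Q₂ T)
    (h' : Syst I P' Q₁ Q₂ T) (U : Clopens X) {A A' : Clopens Y} (hd : Disjoint A A') :
    P U * (Q₁ A * T * Q₂ A') = P' U * (Q₁ A * T * Q₂ A') := by
  obtain ⟨L, -, hL⟩ := good_of_disjoint.{u} hI huniq U hd
  have e1 := hL 𝔸 P Q₁ Q₂ T h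
  have e2 := hL 𝔸 P' Q₁ Q₂ T h'
  simp only [mul_assoc] at e1 e2 ⊢
  rw [e1, e2]

/-- (U3): the key identity for disjoint sets implies it for all sets. -/
theorem key_all {I : Set (X × Y)} {P P' : Clopens X → 𝔸} (hP : Cpv P) (hP' : Cpv P')
    {Q : Clopens Y → 𝔸} (hinc : ∀ U A, NI I U A → P U * Q A = 0)
    (hkey : ∀ U Z A, Disjoint U Z → NI I U A → P U * P' Z * Q A = 0) (U Z : Clopens X)
    (A : Clopens Y) (hUA : NI I U A) : P U * P' Z * Q A = 0 := by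
  -- first the case `Z ≤ U`
  have h1 : ∀ Z ≤ U, P U * P' Z * Q A = 0 := by
    intro Z hZ
    have hUZ : P U = P (U ⊓ Zᶜ) + P Z := by
      have e : U = (U ⊓ Zᶜ) ⊔ Z := by
        rw [sup_inf_right, compl_sup_eq_top, inf_top_eq, sup_eq_left.2 hZ]
      conv_lhs => rw [e]
      exact hP.add (disjoint_compl_left.mono inf_le_right le_rfl)
    have e1 : P (U ⊓ Zᶜ) * P' Z * Q A = 0 :=
      hkey _ _ _ (disjoint_compl_left.mono inf_le_right le_rfl) (hUA.mono inf_le_left le_rfl)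
    have e2 : P Z * P' Z * Q A = 0 := by
      have e3 := hkey Z Zᶜ A disjoint_compl_right (hUA.mono hZ le_rfl)
      rw [hP'.compl, mul_sub, mul_one, sub_mul, hinc Z A (hUA.mono hZ le_rfl), zero_sub,
        neg_eq_zero] at e3
      exact e3
    rw [hUZ, add_mul, add_mul, e1, e2, add_zero]
  have hZ : P' Z = P' (Z ⊓ Uᶜ) + P' (Z ⊓ U) := by
    have e : Z = (Z ⊓ Uᶜ) ⊔ (Z ⊓ U) := by rw [← inf_sup_left, compl_sup_eq_top, inf_top_eq]
    conv_lhs => rw [e]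
    exact hP'.add (disjoint_compl_left.mono inf_le_right inf_le_right)
  rw [hZ, mul_add, add_mul, h1 _ inf_le_right,
    hkey _ _ _ (disjoint_compl_right.mono le_rfl inf_le_right) hUA, add_zero]

end Use

/-- The family of all points and lines of the source. -/
structure Fam (I : Set (X × Y)) {𝔸 : Type u} [Ring 𝔸] [StarRing 𝔸] {𝓑 𝓜 : Type*}
    (R : 𝓑 → 𝓜 → Prop) (P : 𝓑 → Clopens X → 𝔸) (Q : 𝓜 → Clopens Y → 𝔸) : Prop where
  cl : IsClosed I
  uniq : ∀ x x' b b', b ≠ b' → (x, b) ∈ I → (x, b') ∈ I → (x', b) ∈ I → (x', b') ∈ I → x = x'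
  hP : ∀ b, Cpv (P b)
  hQ : ∀ m, Cpv (Q m)
  inc : ∀ c m, R c m → ∀ U A, NI I U A → P c U * Q m A = 0
  key : ∀ b c m, ¬ R b m → R c m → ∀ U Z A, Disjoint U Z → NI I U A → P c U * P b Z * Q m A = 0
  agP : ∀ c c', c ≠ c' → ∀ T : 𝔸, (∀ U, P c U * T = P c' U * T) → T = 0
  agQ : ∀ m m', m ≠ m' → ∀ T : 𝔸, (∀ A, Q m A * T = Q m' A * T) → T = 0
  two : ∀ m, ∃ c c', c ≠ c' ∧ R c m ∧ R c' m
  two' : ∀ b, ∃ m m', m ≠ m' ∧ R b m ∧ R b m'

namespace Fam

variable {I : Set (X × Y)} {𝔸 : Type u} [Ring 𝔸] [StarRing 𝔸] {𝓑 𝓜 : Type*}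
    {R : 𝓑 → 𝓜 → Prop} {P : 𝓑 → Clopens X → 𝔸} {Q : 𝓜 → Clopens Y → 𝔸}

/-- incident measures commute -/
theorem incomm (h : Fam I R P Q) {c : 𝓑} {m : 𝓜} (hcm : R c m) (U : Clopens X) (A : Clopens Y) :
    P c U * Q m A = Q m A * P c U :=
  inc_comm h.cl (fun a a' b b' hne h1 h2 h3 h4 => by
    by_contra hbb
    exact hne (h.uniq a a' b b' hbb h1 h3 h2 h4)) (h.hP c) (h.hQ m) (h.inc c m hcm) U A

/-- (5): every line measure commutes with every point measure. -/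
theorem opp (h : Fam I R P Q) (b : 𝓑) (m : 𝓜) (Z : Clopens X) (A : Clopens Y) :
    P b Z * Q m A = Q m A * P b Z := by
  by_cases hbm : R b m
  · exact h.incomm hbm Z A
  · have h0 : ∀ A A' : Clopens Y, Disjoint A A' → Q m A * P b Z * Q m A' = 0 := by
      intro A A' hd
      obtain ⟨c, c', hne, hc, hc'⟩ := h.two m
      have hs : ∀ c, R c m → Syst I (P c) (Q m) (Q m) (P b Z) := fun c hc =>
        ⟨h.hP c, h.hQ m, h.hQ m, h.incomm hc, h.inc c m hc, fun U A hUA =>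
          key_all (h.hP c) (h.hP b) (h.inc c m hc) (h.key b c m hbm hc) U Z A hUA⟩
      exact h.agP c c' hne _ fun U => agree h.cl h.uniq (hs c hc) (hs c' hc') U hd
    have e1 := h0 A Aᶜ disjoint_compl_right
    have e2 := h0 Aᶜ A disjoint_compl_left
    rw [(h.hQ m).compl, mul_sub, mul_one, sub_eq_zero] at e1
    rw [(h.hQ m).compl, sub_mul, sub_mul, one_mul, sub_eq_zero] at e2
    rw [e1, e2]

/-- (6): operators commuting with all line measures commute with all point measures. -/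
theorem comm_of_comm (h : Fam I R P Q) {y : 𝔸} (hy : ∀ m A, y * Q m A = Q m A * y) (b : 𝓑)
    (U : Clopens X) : y * P b U = P b U * y := by
  obtain ⟨m, m', hne, hm, hm'⟩ := h.two' b
  set D := y * P b U - P b U * y with hD
  have hs : Syst I (P b) (Q m) (Q m') 1 := ⟨h.hP b, h.hQ m, h.hQ m', h.incomm hm, h.inc b m hm,
    fun U A hUA => by rw [mul_one, h.inc b m' hm' U A hUA]⟩
  have h0 : ∀ A A' : Clopens Y, Disjoint A A' → D * Q m A * Q m' A' = 0 := by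
    intro A A' hd
    obtain ⟨L, -, hL⟩ := good_of_disjoint.{u} h.cl h.uniq U hd
    have e1 := hL 𝔸 _ _ _ _ hs
    have e2 : y * (P b U * Q m A * 1 * Q m' A') = P b U * Q m A * 1 * Q m' A' * y := by
      rw [e1, sum_map_mul_left, sum_map_mul_right]
      congr 1
      refine List.map_congr_left fun p _ => ?_
      calc y * (Q m p.1 * 1 * Q m' p.2) = (y * Q m p.1) * Q m' p.2 := by
            rw [mul_one, mul_assoc]
        _ = Q m p.1 * (y * Q m' p.2) := by rw [hy m, mul_assoc]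
        _ = _ := by rw [hy m', mul_one, mul_assoc]
    calc D * Q m A * Q m' A' = y * (P b U * Q m A * 1 * Q m' A') -
          P b U * ((y * Q m A) * Q m' A') := by
          rw [hD]; noncomm_ring
      _ = y * (P b U * Q m A * 1 * Q m' A') - P b U * Q m A * 1 * (y * Q m' A') := by
          rw [hy m]; noncomm_ring
      _ = 0 := by
          rw [hy m', e2]
          noncomm_ring
  have h1 : ∀ A, D * Q m A = D * Q m' A := by
    intro A
    have e1 := h0 A Aᶜ disjoint_compl_right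
    have e2 := h0 Aᶜ A disjoint_compl_left
    rw [(h.hQ m').compl, mul_sub, mul_one, sub_eq_zero] at e1
    rw [(h.hQ m).compl, mul_sub, mul_one, sub_mul, sub_eq_zero] at e2
    rw [e1, e2]
  have h2 : star D = 0 := by
    refine h.agQ m m' hne _ fun A => ?_
    have := congrArg star (h1 A)
    rwa [star_mul, star_mul, (h.hQ m).sa, (h.hQ m').sa] at this
  have h3 : D = 0 := by rw [← star_star D, h2, star_zero]
  rw [hD, sub_eq_zero] at h3
  exact h3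

/-- **All point measures commute.** -/
theorem points_comm (h : Fam I R P Q) (b b' : 𝓑) (U U' : Clopens X) :
    P b U * P b' U' = P b' U' * P b U :=
  h.comm_of_comm (y := P b U) (fun m A => h.opp b m U A) b' U'

end Fam

end Vale.Agent.P092.H375.Ultra
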