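import Vale.Agent.P092.H820.Pn

/-!
P092 (helper375), [N-CLS]/[U8]: the cross ratio of four points on a line of `ℙ k (Fin n → k)` as a
measurable relation.
-/

set_option linter.all false

namespace Vale.Agent.P092.H375.Cls

open Vale.Agent.P092.H820 TopologicalSpace Set
open scoped LinearAlgebra.Projectivization Matrix

section alg

variable {k : Type*} [Field k] {n : ℕ}

/-- minors -/
def mi (p : Fin n × Fin n) (v w : Fin n → k) : k := v p.1 * w p.2 - v p.2 * w p.1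

theorem mi_self (p : Fin n × Fin n) (v : Fin n → k) : mi p v v = 0 := by rw [mi]; ring

theorem mi_smul_left (p : Fin n × Fin n) (c : k) (v w : Fin n → k) :
    mi p (c • v) w = c * mi p v w := by
  simp only [mi, Pi.smul_apply, smul_eq_mul]; ring

theorem mi_smul_right (p : Fin n × Fin n) (c : k) (v w : Fin n → k) :
    mi p v (c • w) = c * mi p v w := by
  simp only [mi, Pi.smul_apply, smul_eq_mul]; ring

theorem mi_add_left (p : Fin n × Fin n) (v v' w : Fin n → k) :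
    mi p (v + v') w = mi p v w + mi p v' w := by
  simp only [mi, Pi.add_apply]; ring

theorem mi_add_right (p : Fin n × Fin n) (v w w' : Fin n → k) :
    mi p v (w + w') = mi p v w + mi p v w' := by
  simp only [mi, Pi.add_apply]; ring

/-- the cross ratio by minors -/
def crv (p : Fin n × Fin n) (u : Fin 4 → Fin n → k) : k :=
  mi p (u 3) (u 1) * mi p (u 0) (u 2) / (mi p (u 0) (u 3) * mi p (u 2) (u 1))

/-- the polynomial conditions for four vectors on a line -/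
def Cnd (p : Fin n × Fin n) (u : Fin 4 → Fin n → k) : Prop :=
  mi p (u 0) (u 1) ≠ 0 ∧ mi p (u 0) (u 2) ≠ 0 ∧ mi p (u 2) (u 1) ≠ 0 ∧ mi p (u 0) (u 3) ≠ 0 ∧
    (∀ j, mi p (u 0) (u 1) * u 2 j = mi p (u 2) (u 1) * u 0 j + mi p (u 0) (u 2) * u 1 j) ∧
    ∀ j, mi p (u 0) (u 1) * u 3 j = mi p (u 3) (u 1) * u 0 j + mi p (u 0) (u 3) * u 1 j

end alg

section rel

variable {k : Type*} [NontriviallyNormedField k] {n : ℕ}

/-- `z` is projectively equivalent to `e₀, e₁, e₀ + e₁, t e₀ + e₁` -/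
def Rl (z : Fin 4 → ℙ k (Fin n → k)) (t : k) : Prop :=
  ∃ (v0 v1 : Fin n → k) (h0 : v0 ≠ 0) (h1 : v1 ≠ 0) (h2 : v0 + v1 ≠ 0) (h3 : t • v0 + v1 ≠ 0),
    (∃ p, mi p v0 v1 ≠ 0) ∧ z 0 = pj k (Fin n) ⟨v0, h0⟩ ∧ z 1 = pj k (Fin n) ⟨v1, h1⟩ ∧
      z 2 = pj k (Fin n) ⟨v0 + v1, h2⟩ ∧ z 3 = pj k (Fin n) ⟨t • v0 + v1, h3⟩

/-- from the conditions on representatives to the relation -/
theorem rl_of_cnd {z : Fin 4 → ℙ k (Fin n → k)} {u : Fin 4 → Fin n → k} (hu : ∀ i, u i ≠ 0)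
    (hz : ∀ i, z i = pj k (Fin n) ⟨u i, hu i⟩) {p : Fin n × Fin n} (h : Cnd p u) :
    Rl z (crv p u) := by
  obtain ⟨h01, h02, h21, h03, e2, e3⟩ := h
  have hv0 : mi p (u 2) (u 1) • u 0 ≠ 0 := smul_ne_zero h21 (hu 0)
  have hv1 : mi p (u 0) (u 2) • u 1 ≠ 0 := smul_ne_zero h02 (hu 1)
  have hs : mi p (u 2) (u 1) • u 0 + mi p (u 0) (u 2) • u 1 = mi p (u 0) (u 1) • u 2 := by
    funext j
    simp only [Pi.add_apply, Pi.smul_apply, smul_eq_mul]
    exact (e2 j).symm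
  have hv2 : mi p (u 2) (u 1) • u 0 + mi p (u 0) (u 2) • u 1 ≠ 0 := by
    rw [hs]; exact smul_ne_zero h01 (hu 2)
  have hs3 : crv p u • (mi p (u 2) (u 1) • u 0) + mi p (u 0) (u 2) • u 1 =
      (mi p (u 0) (u 2) / mi p (u 0) (u 3) * mi p (u 0) (u 1)) • u 3 := by
    funext j
    simp only [Pi.add_apply, Pi.smul_apply, smul_eq_mul]
    have := e3 j
    rw [crv, mul_assoc (mi p (u 0) (u 2) / mi p (u 0) (u 3)), this]
    field_simp
  have hv3 : crv p u • (mi p (u 2) (u 1) • u 0) + mi p (u 0) (u 2) • u 1 ≠ 0 := by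
    rw [hs3]
    exact smul_ne_zero (mul_ne_zero (div_ne_zero h02 h03) h01) (hu 3)
  refine ⟨_, _, hv0, hv1, hv2, hv3, ⟨p, ?_⟩, ?_, ?_, ?_, ?_⟩
  · rw [mi_smul_left, mi_smul_right]
    exact mul_ne_zero h21 (mul_ne_zero h02 h01)
  · rw [hz 0]
    exact ((pj_eq _ _).2 ⟨Units.mk0 _ h21, rfl⟩).symm
  · rw [hz 1]
    exact ((pj_eq _ _).2 ⟨Units.mk0 _ h02, rfl⟩).symm
  · rw [hz 2]
    refine ((pj_eq _ _).2 ⟨Units.mk0 _ h01, ?_⟩).symm
    exact hs.symm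
  · rw [hz 3]
    refine ((pj_eq _ _).2 ⟨Units.mk0 _ (mul_ne_zero (div_ne_zero h02 h03) h01), ?_⟩).symm
    exact hs3.symm

/-- from the relation to the conditions, for any representatives -/
theorem cnd_of_rl {z : Fin 4 → ℙ k (Fin n → k)} {t : k} (h : Rl z t) {u : Fin 4 → Fin n → k}
    (hu : ∀ i, u i ≠ 0) (hz : ∀ i, z i = pj k (Fin n) ⟨u i, hu i⟩) :
    ∃ p, Cnd p u ∧ crv p u = t := by
  obtain ⟨v0, v1, h0, h1, h2, h3, ⟨p, hp⟩, z0, z1, z2, z3⟩ := h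
  obtain ⟨c0, e0⟩ := (pj_eq _ _).1 ((hz 0).symm.trans z0)
  obtain ⟨c1, e1⟩ := (pj_eq _ _).1 ((hz 1).symm.trans z1)
  obtain ⟨c2, e2⟩ := (pj_eq _ _).1 ((hz 2).symm.trans z2)
  obtain ⟨c3, e3⟩ := (pj_eq _ _).1 ((hz 3).symm.trans z3)
  simp only [Units.smul_def] at e0 e1 e2 e3
  have n0 : (c0 : k) ≠ 0 := c0.ne_zero
  have n1 : (c1 : k) ≠ 0 := c1.ne_zero
  have n2 : (c2 : k) ≠ 0 := c2.ne_zero
  have n3 : (c3 : k) ≠ 0 := c3.ne_zero
  have m01 : mi p (u 0) (u 1) = c0 * c1 * mi p v0 v1 := by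
    rw [← e0, ← e1, mi_smul_left, mi_smul_right]; ring
  have m02 : mi p (u 0) (u 2) = c0 * c2 * mi p v0 v1 := by
    rw [← e0, ← e2, mi_smul_left, mi_smul_right, mi_add_right, mi_self]; ring
  have m21 : mi p (u 2) (u 1) = c2 * c1 * mi p v0 v1 := by
    rw [← e2, ← e1, mi_smul_left, mi_smul_right, mi_add_left, mi_self]; ring
  have m03 : mi p (u 0) (u 3) = c0 * c3 * mi p v0 v1 := by
    rw [← e0, ← e3, mi_smul_left, mi_smul_right, mi_add_right, mi_smul_right, mi_self]; ring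
  have m31 : mi p (u 3) (u 1) = c3 * c1 * t * mi p v0 v1 := by
    rw [← e3, ← e1, mi_smul_left, mi_smul_right, mi_add_left, mi_smul_left, mi_self]; ring
  refine ⟨p, ⟨?_, ?_, ?_, ?_, ?_, ?_⟩, ?_⟩
  · rw [m01]; exact mul_ne_zero (mul_ne_zero n0 n1) hp
  · rw [m02]; exact mul_ne_zero (mul_ne_zero n0 n2) hp
  · rw [m21]; exact mul_ne_zero (mul_ne_zero n2 n1) hp
  · rw [m03]; exact mul_ne_zero (mul_ne_zero n0 n3) hp
  · intro j
    rw [m01, m02, m21, ← e2, ← e0, ← e1]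
    simp only [Pi.smul_apply, Pi.add_apply, smul_eq_mul]
    ring
  · intro j
    rw [m01, m03, m31, ← e3, ← e0, ← e1]
    simp only [Pi.smul_apply, Pi.add_apply, smul_eq_mul]
    ring
  · rw [crv, m31, m02, m03, m21]
    field_simp

/-- the relation is functional -/
theorem rl_uniq {z : Fin 4 → ℙ k (Fin n → k)} {t t' : k} (h : Rl z t) (h' : Rl z t') :
    t = t' := by
  obtain ⟨v0, v1, h0, h1, h2, h3, ⟨p, hp⟩, z0, z1, z2, z3⟩ := h
  -- use the representatives of `h`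
  obtain ⟨u, hu, e⟩ : ∃ u : Fin 4 → Fin n → k, ∃ hu : ∀ i, u i ≠ 0,
      u 0 = v0 ∧ u 1 = v1 ∧ u 2 = v0 + v1 ∧ u 3 = t • v0 + v1 :=
    ⟨![v0, v1, v0 + v1, t • v0 + v1], fun i => by fin_cases i <;> assumption,
      rfl, rfl, rfl, rfl⟩
  obtain ⟨a0, a1, a2, a3⟩ := e
  have hz : ∀ i, z i = pj k (Fin n) ⟨u i, hu i⟩ := by
    intro i
    fin_cases i
    · simp only [Fin.zero_eta]; rw [z0]; congr 1; exact Subtype.ext a0.symm
    · simp only [Fin.mk_one]; rw [z1]; congr 1; exact Subtype.ext a1.symm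
    · change z 2 = pj k (Fin n) ⟨u 2, hu 2⟩; rw [z2]; congr 1; exact Subtype.ext a2.symm
    · change z 3 = pj k (Fin n) ⟨u 3, hu 3⟩; rw [z3]; congr 1; exact Subtype.ext a3.symm
  obtain ⟨q, ⟨c1, c2, c3, c4, c5, c6⟩, e'⟩ := cnd_of_rl h' hu hz
  rw [a0, a1] at c1
  have m02 : mi q (u 0) (u 2) = mi q v0 v1 := by
    rw [a0, a2, mi_add_right, mi_self]; ring
  have m21 : mi q (u 2) (u 1) = mi q v0 v1 := by
    rw [a2, a1, mi_add_left, mi_self]; ring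
  have m03 : mi q (u 0) (u 3) = mi q v0 v1 := by
    rw [a0, a3, mi_add_right, mi_smul_right, mi_self]; ring
  have m31 : mi q (u 3) (u 1) = t * mi q v0 v1 := by
    rw [a3, a1, mi_add_left, mi_smul_left, mi_self]; ring
  rw [← e', crv, m02, m21, m03, m31, eq_div_iff (mul_ne_zero c1 c1)]
  ring

end rel

end Vale.Agent.P092.H375.Cls
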