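import Vale.Agent.P092.H375.ClsA
import Vale.Agent.P092.H604.Kp

/-!
P092 (helper375), [N-CLS]/[U8]: measurability of the cross ratio.
-/

set_option linter.all false

namespace Vale.Agent.P092.H375.Cls

open Vale.Agent.P092.H820 TopologicalSpace Set MeasureTheory
open scoped LinearAlgebra.Projectivization Matrix

variable {k : Type*} [NontriviallyNormedField k] {n : ℕ}

/-- ratios of coordinates -/
noncomputable def rt (i j : Fin n) : ℙ k (Fin n → k) → k :=
  Quotient.lift (fun v : {v : Fin n → k // v ≠ 0} => v.1 j / v.1 i) (by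
    rintro v w ⟨c, hc⟩
    have e : ∀ i, v.1 i = c * w.1 i := fun i => by rw [← hc]; rfl
    have hc' : (c : k) ≠ 0 := c.ne_zero
    change v.1 j / v.1 i = w.1 j / w.1 i
    rw [e i, e j, mul_div_mul_left _ _ hc'])

theorem rt_pj (i j : Fin n) (v : {v : Fin n → k // v ≠ 0}) :
    rt i j (pj k (Fin n) v) = v.1 j / v.1 i := rfl

theorem isOpen_chart (i j : Fin n) {O : Set k} (hO : IsOpen O) :
    IsOpen {x : ℙ k (Fin n → k) | rt i i x ≠ 0 ∧ rt i j x ∈ O} := by
  have e : {x : ℙ k (Fin n → k) | rt i i x ≠ 0 ∧ rt i j x ∈ O} =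
      pj k (Fin n) '' {v | v.1 i ≠ 0 ∧ v.1 j / v.1 i ∈ O} := by
    ext x
    constructor
    · rintro ⟨h1, h2⟩
      obtain ⟨v, rfl⟩ := pj_surj x
      refine ⟨v, ⟨fun h => h1 ?_, h2⟩, rfl⟩
      rw [rt_pj, h, div_zero]
    · rintro ⟨v, ⟨h1, h2⟩, rfl⟩
      refine ⟨?_, h2⟩
      rw [rt_pj, div_self h1]
      exact one_ne_zero
  rw [e]
  refine pj_open _ ?_
  have h1 : IsOpen {v : {v : Fin n → k // v ≠ 0} | v.1 i ≠ 0} :=
    isOpen_ne_fun ((continuous_apply i).comp continuous_subtype_val) continuous_const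
  have h2 : ContinuousOn (fun v : {v : Fin n → k // v ≠ 0} => v.1 j / v.1 i)
      {v | v.1 i ≠ 0} := by
    refine ContinuousOn.div ?_ ?_ fun v hv => hv
    · exact ((continuous_apply j).comp continuous_subtype_val).continuousOn
    · exact ((continuous_apply i).comp continuous_subtype_val).continuousOn
  exact h2.isOpen_inter_preimage h1 hO

variable [ProperSpace k]

theorem measurable_rt [MeasurableSpace k] [BorelSpace k] (i j : Fin n) :
    Measurable (rt i j : ℙ k (Fin n → k) → k) := by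
  refine measurable_of_isOpen fun O hO => ?_
  have hU : MeasurableSet {x : ℙ k (Fin n → k) | rt i i x ≠ 0} := by
    have := isOpen_chart (k := k) i i (O := univ) isOpen_univ
    have e : {x : ℙ k (Fin n → k) | rt i i x ≠ 0 ∧ rt i i x ∈ (univ : Set k)} =
        {x | rt i i x ≠ 0} := by ext x; simp
    rw [e] at this
    exact this.measurableSet
  have h0 : ∀ x : ℙ k (Fin n → k), rt i i x = 0 → rt i j x = 0 := by
    intro x hx
    obtain ⟨v, rfl⟩ := pj_surj x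
    rw [rt_pj] at hx ⊢
    rcases div_eq_zero_iff.1 hx with h | h <;> rw [h, div_zero]
  have e : (rt i j : ℙ k (Fin n → k) → k) ⁻¹' O =
      {x | rt i i x ≠ 0 ∧ rt i j x ∈ O} ∪ ({x | rt i i x ≠ 0}ᶜ ∩ {x | (0 : k) ∈ O}) := by
    ext x
    simp only [mem_preimage, mem_union, mem_setOf_eq, mem_inter_iff, mem_compl_iff, not_not]
    constructor
    · intro h
      by_cases hx : rt i i x = 0
      · right
        rw [h0 x hx] at h
        exact ⟨hx, h⟩
      · exact Or.inl ⟨hx, h⟩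
    · rintro (⟨-, h⟩ | ⟨h1, h2⟩)
      · exact h
      · rw [h0 x h1]; exact h2
  rw [e]
  exact (isOpen_chart i j hO).measurableSet.union (hU.compl.inter (MeasurableSet.const _))

/-- the representative in the chart `i` -/
noncomputable def vc (i : Fin n) (x : ℙ k (Fin n → k)) : Fin n → k := fun j => rt i j x

theorem vc_spec {i : Fin n} {x : ℙ k (Fin n → k)} (h : rt i i x ≠ 0) :
    ∃ hv : vc i x ≠ 0, x = pj k (Fin n) ⟨vc i x, hv⟩ := by
  have hv : vc i x ≠ 0 := fun h' => h (congrFun h' i)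
  refine ⟨hv, ?_⟩
  obtain ⟨v, rfl⟩ := pj_surj x
  have hvi : v.1 i ≠ 0 := by
    intro h0
    apply h
    rw [rt_pj, h0, div_zero]
  rw [pj_eq]
  refine ⟨Units.mk0 (v.1 i) hvi, ?_⟩
  funext j
  simp only [Units.smul_def, Units.val_mk0, Pi.smul_apply, smul_eq_mul, vc, rt_pj]
  field_simp

theorem exists_chart (x : ℙ k (Fin n → k)) : ∃ i, rt i i x ≠ 0 := by
  obtain ⟨v, rfl⟩ := pj_surj x
  obtain ⟨i, hi⟩ : ∃ i, v.1 i ≠ 0 := by
    by_contra hc
    push Not at hc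
    exact v.2 (funext hc)
  exact ⟨i, by rw [rt_pj, div_self hi]; exact one_ne_zero⟩

/-- the set of the configurations with cross ratio in `A` -/
def CS (A : Set k) : Set (Fin 4 → ℙ k (Fin n → k)) := {z | ∃ t ∈ A, Rl z t}

theorem cs_eq (A : Set k) : (CS A : Set (Fin 4 → ℙ k (Fin n → k))) =
    ⋃ c : Fin 4 → Fin n, ⋃ p : Fin n × Fin n, {z | (∀ i, rt (c i) (c i) (z i) ≠ 0) ∧
      Cnd p (fun i => vc (c i) (z i)) ∧ crv p (fun i => vc (c i) (z i)) ∈ A} := by
  ext z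
  simp only [CS, mem_setOf_eq, mem_iUnion]
  constructor
  · rintro ⟨t, ht, h⟩
    choose c hc using fun i => exists_chart (z i)
    choose hv hz using fun i => vc_spec (hc i)
    obtain ⟨p, h1, h2⟩ := cnd_of_rl h hv hz
    exact ⟨c, p, hc, h1, by rw [h2]; exact ht⟩
  · rintro ⟨c, p, hc, h1, h2⟩
    choose hv hz using fun i => vc_spec (hc i)
    exact ⟨_, h2, rl_of_cnd hv hz h1⟩

theorem measurableSet_cs [MeasurableSpace k] [BorelSpace k] {A : Set k} (hA : MeasurableSet A) :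
    MeasurableSet (CS A : Set (Fin 4 → ℙ k (Fin n → k))) := by
  rw [cs_eq]
  refine MeasurableSet.iUnion fun c => MeasurableSet.iUnion fun p => ?_
  have hm : ∀ (i : Fin 4) (a b : Fin n), Measurable fun z : Fin 4 → ℙ k (Fin n → k) =>
      rt a b (z i) := fun i a b => (measurable_rt a b).comp (measurable_pi_apply i)
  have hmi : ∀ i j : Fin 4, Measurable fun z : Fin 4 → ℙ k (Fin n → k) =>
      mi p (vc (c i) (z i)) (vc (c j) (z j)) := by
    intro i j
    simp only [mi, vc]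
    exact ((hm i _ _).mul (hm j _ _)).sub ((hm i _ _).mul (hm j _ _))
  have hne : ∀ i j : Fin 4, MeasurableSet {z : Fin 4 → ℙ k (Fin n → k) |
      mi p (vc (c i) (z i)) (vc (c j) (z j)) ≠ 0} := fun i j =>
    (measurableSet_singleton (0 : k)).compl.preimage (hmi i j)
  have hcr : Measurable fun z : Fin 4 → ℙ k (Fin n → k) => crv p (fun i => vc (c i) (z i)) := by
    simp only [crv]
    exact ((hmi 3 1).mul (hmi 0 2)).div ((hmi 0 3).mul (hmi 2 1))
  have h1 : MeasurableSet {z : Fin 4 → ℙ k (Fin n → k) | ∀ i, rt (c i) (c i) (z i) ≠ 0} := by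
    have e : {z : Fin 4 → ℙ k (Fin n → k) | ∀ i, rt (c i) (c i) (z i) ≠ 0} =
        ⋂ i, {z | rt (c i) (c i) (z i) ≠ 0} := by ext z; simp
    rw [e]
    exact MeasurableSet.iInter fun i =>
      (measurableSet_singleton (0 : k)).compl.preimage (hm i _ _)
  have h2 : MeasurableSet {z : Fin 4 → ℙ k (Fin n → k) | Cnd p (fun i => vc (c i) (z i))} := by
    refine ((hne 0 1).inter ((hne 0 2).inter ((hne 2 1).inter ((hne 0 3).inter
      (MeasurableSet.inter ?_ ?_)))))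
    · have e : {z : Fin 4 → ℙ k (Fin n → k) | ∀ j, mi p (vc (c 0) (z 0)) (vc (c 1) (z 1)) *
          vc (c 2) (z 2) j = mi p (vc (c 2) (z 2)) (vc (c 1) (z 1)) * vc (c 0) (z 0) j +
            mi p (vc (c 0) (z 0)) (vc (c 2) (z 2)) * vc (c 1) (z 1) j} =
          ⋂ j, {z | mi p (vc (c 0) (z 0)) (vc (c 1) (z 1)) *
          vc (c 2) (z 2) j = mi p (vc (c 2) (z 2)) (vc (c 1) (z 1)) * vc (c 0) (z 0) j +
            mi p (vc (c 0) (z 0)) (vc (c 2) (z 2)) * vc (c 1) (z 1) j} := by ext z; simp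
      change MeasurableSet {z : Fin 4 → ℙ k (Fin n → k) | ∀ j,
        mi p (vc (c 0) (z 0)) (vc (c 1) (z 1)) *
          vc (c 2) (z 2) j = mi p (vc (c 2) (z 2)) (vc (c 1) (z 1)) * vc (c 0) (z 0) j +
            mi p (vc (c 0) (z 0)) (vc (c 2) (z 2)) * vc (c 1) (z 1) j}
      rw [e]
      refine MeasurableSet.iInter fun j => measurableSet_eq_fun ?_ ?_
      · exact (hmi 0 1).mul (hm 2 _ _)
      · exact ((hmi 2 1).mul (hm 0 _ _)).add ((hmi 0 2).mul (hm 1 _ _))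
    · have e : {z : Fin 4 → ℙ k (Fin n → k) | ∀ j, mi p (vc (c 0) (z 0)) (vc (c 1) (z 1)) *
          vc (c 3) (z 3) j = mi p (vc (c 3) (z 3)) (vc (c 1) (z 1)) * vc (c 0) (z 0) j +
            mi p (vc (c 0) (z 0)) (vc (c 3) (z 3)) * vc (c 1) (z 1) j} =
          ⋂ j, {z | mi p (vc (c 0) (z 0)) (vc (c 1) (z 1)) *
          vc (c 3) (z 3) j = mi p (vc (c 3) (z 3)) (vc (c 1) (z 1)) * vc (c 0) (z 0) j +
            mi p (vc (c 0) (z 0)) (vc (c 3) (z 3)) * vc (c 1) (z 1) j} := by ext z; simp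
      change MeasurableSet {z : Fin 4 → ℙ k (Fin n → k) | ∀ j,
        mi p (vc (c 0) (z 0)) (vc (c 1) (z 1)) *
          vc (c 3) (z 3) j = mi p (vc (c 3) (z 3)) (vc (c 1) (z 1)) * vc (c 0) (z 0) j +
            mi p (vc (c 0) (z 0)) (vc (c 3) (z 3)) * vc (c 1) (z 1) j}
      rw [e]
      refine MeasurableSet.iInter fun j => measurableSet_eq_fun ?_ ?_
      · exact (hmi 0 1).mul (hm 3 _ _)
      · exact ((hmi 3 1).mul (hm 0 _ _)).add ((hmi 0 3).mul (hm 1 _ _))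
  exact h1.inter (h2.inter (hcr hA))

theorem cs_mono {A B : Set k} (h : A ⊆ B) :
    (CS A : Set (Fin 4 → ℙ k (Fin n → k))) ⊆ CS B := fun z ⟨t, ht, hz⟩ => ⟨t, h ht, hz⟩

theorem cs_inter (A B : Set k) : (CS (A ∩ B) : Set (Fin 4 → ℙ k (Fin n → k))) =
    CS A ∩ CS B := by
  ext z
  constructor
  · rintro ⟨t, ⟨h1, h2⟩, h⟩
    exact ⟨⟨t, h1, h⟩, ⟨t, h2, h⟩⟩
  · rintro ⟨⟨t, h1, h⟩, ⟨t', h2, h'⟩⟩
    obtain rfl := rl_uniq h h'
    exact ⟨t, ⟨h1, h2⟩, h⟩

theorem cs_union (A B : Set k) : (CS (A ∪ B) : Set (Fin 4 → ℙ k (Fin n → k))) =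
    CS A ∪ CS B := by
  ext z
  constructor
  · rintro ⟨t, h1 | h1, h⟩
    · exact Or.inl ⟨t, h1, h⟩
    · exact Or.inr ⟨t, h1, h⟩
  · rintro (⟨t, h1, h⟩ | ⟨t, h1, h⟩)
    · exact ⟨t, Or.inl h1, h⟩
    · exact ⟨t, Or.inr h1, h⟩

end Vale.Agent.P092.H375.Cls
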