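import Vale.Agent.P092.H375.ClsB
import Vale.Agent.P092.H171.Jt
import Vale.Agent.P092.H171.Ej
import Vale.Agent.P092.H789.Fr
import Vale.Agent.P092.RC.Cc

/-!
P092 (helper375), [N-CLS]/[U8]: a commuting leg; the cross ratios of its joint laws are constant.
-/

set_option linter.all false

namespace Vale.Agent.P092.H375.Cls

open Vale.Agent.P092 (RC.PG)
open Vale.Agent.P092.H820 Vale.Agent.P092.H466 Vale.Agent.P092.H171
open TopologicalSpace Set MeasureTheory Matrix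
open scoped LinearAlgebra.Projectivization Matrix InnerProductSpace

/-! ### The zero-one law -/

section zo

variable {k : Type} [NontriviallyNormedField k] [ProperSpace k] [MeasurableSpace k] [BorelSpace k]
  {n : ℕ} {K : Type} [NormedAddCommGroup K] [InnerProductSpace ℂ K] [CompleteSpace K]

theorem pv_one_ae {X : Type*} [TopologicalSpace X] [CompactSpace X] [MetrizableSpace X]
    [MeasurableSpace X] [BorelSpace X] (φ : C(X, ℂ) →⋆ₐ[ℂ] (K →L[ℂ] K)) {A : Set X}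
    (hA : MeasurableSet A) : pv φ A = 1 ↔ ∀ ξ, ∀ᵐ z ∂(ms φ ξ), z ∈ A := by
  have key : ∀ ξ, ‖pv φ Aᶜ ξ‖ₑ ^ 2 = ms φ ξ Aᶜ := fun ξ => enorm_pv_sq φ hA.compl ξ
  constructor
  · intro h ξ
    have h1 : pv φ Aᶜ ξ = 0 := by rw [pv_compl φ hA, h, sub_self]; rfl
    have h2 := key ξ
    rw [h1] at h2
    exact measure_eq_zero_iff_ae_notMem.1 (by rw [← h2]; simp) |>.mono fun z hz => by
      simpa using hz
  · intro h
    have h0 : pv φ Aᶜ = 0 := by
      ext ξ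
      have h2 := key ξ
      have h3 : ms φ ξ Aᶜ = 0 := measure_eq_zero_iff_ae_notMem.2 ((h ξ).mono fun z hz => by
        simpa using hz)
      rw [h3] at h2
      simpa using h2
    rw [pv_compl φ hA, sub_eq_zero] at h0
    exact h0.symm

/-- **zero-one law for the cross ratio** -/
theorem cs_const [Nontrivial K] (Φ : C(Fin 4 → ℙ k (Fin n → k), ℂ) →⋆ₐ[ℂ] (K →L[ℂ] K))
    (h1 : ∀ ξ, ∀ᵐ z ∂(ms Φ ξ), z ∈ CS (univ : Set k))
    (h01 : ∀ A : Set k, MeasurableSet A → pv Φ (CS A) = 0 ∨ pv Φ (CS A) = 1) :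
    ∃ t : k, ∀ ξ, ∀ᵐ z ∂(ms Φ ξ), Rl z t := by
  classical
  -- a set or its complement has full measure
  have hd : ∀ A : Set k, MeasurableSet A →
      (∀ ξ, ∀ᵐ z ∂(ms Φ ξ), z ∈ CS A) ∨ ∀ ξ, ∀ᵐ z ∂(ms Φ ξ), z ∈ CS Aᶜ := by
    intro A hA
    rcases h01 A hA with h | h
    · right
      intro ξ
      have h2 : ms Φ ξ (CS A) = 0 := by
        rw [← enorm_pv_sq Φ (measurableSet_cs hA) ξ, h]
        simp
      filter_upwards [h1 ξ, measure_eq_zero_iff_ae_notMem.1 h2] with z hz1 hz2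
      have : z ∈ CS (A ∪ Aᶜ) := by rw [union_compl_self]; exact hz1
      rw [cs_union] at this
      exact this.resolve_left hz2
    · left
      exact (pv_one_ae Φ (measurableSet_cs hA)).1 h
  set 𝓑 := countableBasis k with h𝓑
  have hB : ∀ U ∈ 𝓑, MeasurableSet U := fun U hU => (isOpen_of_mem_countableBasis hU).measurableSet
  let Z : Set k → Set k := fun U => if ∀ ξ, ∀ᵐ z ∂(ms Φ ξ), z ∈ CS U then U else Uᶜ
  have hZ : ∀ U ∈ 𝓑, ∀ ξ, ∀ᵐ z ∂(ms Φ ξ), z ∈ CS (Z U) := by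
    intro U hU
    by_cases h : ∀ ξ, ∀ᵐ z ∂(ms Φ ξ), z ∈ CS U
    · have : Z U = U := if_pos h
      rw [this]; exact h
    · have : Z U = Uᶜ := if_neg h
      rw [this]; exact (hd U (hB U hU)).resolve_left h
  have hall : ∀ ξ, ∀ᵐ z ∂(ms Φ ξ), ∀ U ∈ 𝓑, z ∈ CS (Z U) := fun ξ =>
    (ae_ball_iff (countable_countableBasis k)).2 fun U hU => hZ U hU ξ
  have hsub : ∀ t t' : k, (∀ U ∈ 𝓑, t ∈ Z U) → (∀ U ∈ 𝓑, t' ∈ Z U) → t = t' := by
    intro t t' ht ht'
    by_contra hne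
    obtain ⟨O, O', hO, hO', htO, ht'O', hdis⟩ := t2_separation hne
    obtain ⟨U, hU, htU, hUO⟩ := (isBasis_countableBasis k).exists_subset_of_mem_open htO hO
    have h2 : t' ∉ U := fun h => disjoint_left.1 hdis (hUO h) ht'O'
    have h3 := ht U hU
    have h4 := ht' U hU
    by_cases h : ∀ ξ, ∀ᵐ z ∂(ms Φ ξ), z ∈ CS U
    · have : Z U = U := if_pos h
      rw [this] at h4
      exact h2 h4
    · have : Z U = Uᶜ := if_neg h
      rw [this] at h3
      exact h3 htU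
  obtain ⟨ξ₀, hξ₀⟩ := exists_ne (0 : K)
  have hms : ms Φ ξ₀ ≠ 0 := by
    intro h
    have := ms_univ Φ ξ₀
    rw [h] at this
    simp only [measureReal_zero, Pi.zero_apply] at this
    exact hξ₀ (norm_eq_zero.1 (by
      have h2 : ‖ξ₀‖ ^ 2 = 0 := by rw [← this]
      exact pow_eq_zero_iff (two_ne_zero) |>.1 h2))
  have : (ae (ms Φ ξ₀)).NeBot := ae_neBot.2 hms
  obtain ⟨z₀, hz₀, t, -, hzt⟩ := ((hall ξ₀).and (h1 ξ₀)).exists
  have ht : ∀ U ∈ 𝓑, t ∈ Z U := by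
    intro U hU
    obtain ⟨t', ht', hzt'⟩ := hz₀ U hU
    rw [rl_uniq hzt hzt']
    exact ht'
  refine ⟨t, fun ξ => ?_⟩
  filter_upwards [hall ξ, h1 ξ] with z hz hz1
  obtain ⟨t', -, hzt'⟩ := hz1
  have ht' : ∀ U ∈ 𝓑, t' ∈ Z U := by
    intro U hU
    obtain ⟨t'', ht'', hzt''⟩ := hz U hU
    rw [rl_uniq hzt' hzt'']
    exact ht''
  rw [hsub t t' ht ht']
  exact hzt'

end zo

/-! ### The leg -/

section leg

variable {k : Type} [NontriviallyNormedField k] [ProperSpace k] {n : ℕ}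
  {H Γ K : Type} [Group H] [Group Γ] [NormedAddCommGroup K] [InnerProductSpace ℂ K]
  [CompleteSpace K]

/-- translation of functions -/
noncomputable def tr (g : SpecialLinearGroup (Fin n) k) (f : C(ℙ k (Fin n → k), ℂ)) :
    C(ℙ k (Fin n → k), ℂ) :=
  ⟨fun x => f (g⁻¹ • x), f.continuous.comp (continuous_const_smul g⁻¹)⟩

/-- the rank of a family of points -/
noncomputable def rk {ι : Type*} (z : ι → ℙ k (Fin n → k)) (A : Finset ι) : ℕ :=
  Module.finrank k (⨆ i ∈ A, (z i).submodule : Submodule k (Fin n → k))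

/-- two families have the same matroid -/
def Mt {ι : Type*} (a z : ι → ℙ k (Fin n → k)) : Prop := ∀ A : Finset ι, rk z A = rk a A

/-- A leg in which all points commute and which preserves the matroids. The source group `H` acts
on the points through `α : H →* PGL_n(k)`; the target is `q : Γ → SL_n(k)`. -/
structure Leg (α : H →* RC.PG k n) (π : H →* (K →L[ℂ] K)) (lam : Γ →* (K →L[ℂ] K))
    (W : Set (K →L[ℂ] K)) (q : Γ → SpecialLinearGroup (Fin n) k)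
    (E : ℙ k (Fin n → k) → (C(ℙ k (Fin n → k), ℂ) →⋆ₐ[ℂ] (K →L[ℂ] K))) : Prop where
  cm : ∀ a f, ∀ w ∈ W, E a f * w = w * E a f
  cov : ∀ γ a f, lam γ * E a f * lam γ⁻¹ = E a (tr (q γ) f)
  pcov : ∀ e a f, π e * E a f * π e⁻¹ = E (α e • a) f
  com : ∀ a b f g, Commute (E a f) (E b g)
  /-- ergodicity: operators commuting with the pointwise stabiliser of a line -/
  erg : ∀ (i j l : Fin n), i ≠ j → l ≠ i → l ≠ j → ∀ T : K →L[ℂ] K, (∀ w ∈ W, T * w = w * T) →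
    (∀ γ, T * lam γ = lam γ * T) →
    (∀ e : H, (∀ x : ℙ k (Fin n → k), x.submodule ≤ Submodule.span k {Pi.single i 1,
      Pi.single j 1} → α e • x = x) → T * π e = π e * T) → ∃ c : ℂ, T = c • (1 : K →L[ℂ] K)
  /-- the matroid of finitely many points is preserved -/
  mt : ∀ {ι : Type} [Fintype ι] (a : ι → ℙ k (Fin n → k))
    (Φ : C(ι → ℙ k (Fin n → k), ℂ) →⋆ₐ[ℂ] (K →L[ℂ] K)), (∀ i f, Φ (co i f) = E (a i) f) →
    ∀ ξ, ∀ᵐ z ∂(ms Φ ξ), Mt a z

variable {α : H →* RC.PG k n} {π : H →* (K →L[ℂ] K)} {lam : Γ →* (K →L[ℂ] K)}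
  {W : Set (K →L[ℂ] K)} {q : Γ → SpecialLinearGroup (Fin n) k}
  {E : ℙ k (Fin n → k) → (C(ℙ k (Fin n → k), ℂ) →⋆ₐ[ℂ] (K →L[ℂ] K))}

theorem Leg.joint (hL : Leg α π lam W q E) {ι : Type} (a : ι → ℙ k (Fin n → k)) :
    ∃ Φ : C(ι → ℙ k (Fin n → k), ℂ) →⋆ₐ[ℂ] (K →L[ℂ] K), ∀ i f, Φ (co i f) = E (a i) f :=
  exists_joint (fun i => E (a i)) fun i j f g => hL.com _ _ f g

end leg

end Vale.Agent.P092.H375.Cls
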