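import Vale.Agent.P092.H375.ClsC

/-!
P092 (helper375), [N-CLS]/[U8]: linear algebra of families of points with the same matroid.
-/

set_option linter.all false

namespace Vale.Agent.P092.H375.Cls

open Vale.Agent.P092.H820
open TopologicalSpace Set Matrix Module
open scoped LinearAlgebra.Projectivization Matrix

section lin

variable {k : Type} [NontriviallyNormedField k] {n : ℕ} {ι : Type*}

/-- `u` represents the family `z` -/
def Rep (u : ι → Fin n → k) (z : ι → ℙ k (Fin n → k)) : Prop :=
  ∀ i, ∃ h : u i ≠ 0, z i = pj k (Fin n) ⟨u i, h⟩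

theorem Rep.ne {u : ι → Fin n → k} {z : ι → ℙ k (Fin n → k)} (h : Rep u z) (i : ι) : u i ≠ 0 :=
  (h i).1

theorem exists_rep (z : ι → ℙ k (Fin n → k)) : ∃ u, Rep u z := by
  choose v hv using fun i => pj_surj (z i)
  exact ⟨fun i => (v i).1, fun i => ⟨(v i).2, (hv i).symm⟩⟩

theorem Rep.sub {u : ι → Fin n → k} {z : ι → ℙ k (Fin n → k)} (h : Rep u z) (i : ι) :
    (z i).submodule = Submodule.span k {u i} := by
  obtain ⟨h1, h2⟩ := h i
  rw [h2]
  exact Projectivization.submodule_mk _ h1

theorem Rep.rk [DecidableEq ι] {u : ι → Fin n → k} {z : ι → ℙ k (Fin n → k)} (h : Rep u z)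
    (A : Finset ι) : rk z A = finrank k (Submodule.span k (u '' A)) := by
  have e : (⨆ i ∈ A, (z i).submodule : Submodule k (Fin n → k)) = Submodule.span k (u '' A) := by
    simp only [h.sub]
    rw [← biUnion_of_singleton (u '' (A : Set ι)), biUnion_image, Submodule.span_iUnion₂]
    rfl
  rw [Cls.rk, e]

variable [DecidableEq ι] {a z : ι → ℙ k (Fin n → k)} {ua uz : ι → Fin n → k}

theorem mem_of_mt (h : Mt a z) (ha : Rep ua a) (hz : Rep uz z) {i : ι} {A : Finset ι}
    (hi : ua i ∈ Submodule.span k (ua '' A)) : uz i ∈ Submodule.span k (uz '' A) := by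
  have h1 : rk a (insert i A) = rk a A := by
    rw [ha.rk, ha.rk, Finset.coe_insert, image_insert_eq, Submodule.span_insert_eq_span hi]
  have h2 : rk z (insert i A) = rk z A := by rw [h, h, h1]
  rw [hz.rk, hz.rk] at h2
  have h3 : Submodule.span k (uz '' (A : Set ι)) = Submodule.span k (uz '' (insert i A : Finset ι)) := by
    refine Submodule.eq_of_le_of_finrank_eq (Submodule.span_mono (image_mono ?_)) h2.symm
    exact_mod_cast Finset.subset_insert i A
  rw [h3]
  exact Submodule.subset_span ⟨i, by simp, rfl⟩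

theorem indep_iff_rk (hz : Rep uz z) (A : Finset ι) :
    LinearIndepOn k uz (A : Set ι) ↔ rk z A = A.card := by
  rw [hz.rk, LinearIndepOn, linearIndependent_iff_card_eq_finrank_span]
  simp only [Finset.coe_sort_coe, Fintype.card_coe]
  have e : Set.range (fun x : A => uz x) = uz '' (A : Set ι) := by
    ext v
    constructor
    · rintro ⟨x, rfl⟩
      exact ⟨x.1, x.2, rfl⟩
    · rintro ⟨x, hx, rfl⟩
      exact ⟨⟨x, hx⟩, rfl⟩
  rw [Set.finrank, e]
  exact eq_comm

theorem indep_of_mt (h : Mt a z) (ha : Rep ua a) (hz : Rep uz z) {A : Finset ι}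
    (hA : LinearIndepOn k ua (A : Set ι)) : LinearIndepOn k uz (A : Set ι) := by
  rw [indep_iff_rk hz, h, ← indep_iff_rk ha]
  exact hA

/-- a nonzero minor -/
theorem exists_mi {v w : Fin n → k} (h : LinearIndependent k ![v, w]) : ∃ p, mi p v w ≠ 0 := by
  by_contra hc
  push Not at hc
  rw [LinearIndependent.pair_iff] at h
  by_cases hv : v = 0
  · have := h 1 0 (by rw [hv]; simp)
    exact one_ne_zero this.1
  · obtain ⟨i, hi⟩ : ∃ i, v i ≠ 0 := by
      by_contra hc'
      push Not at hc'
      exact hv (funext hc')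
    have := h (w i) (-(v i)) (by
      funext j
      have := hc (i, j)
      simp only [mi] at this
      simp only [Pi.add_apply, Pi.smul_apply, smul_eq_mul, Pi.zero_apply]
      linear_combination (-1 : k) * this)
    exact hi (by simpa using this.2)

theorem li_pair {v w : Fin n → k} {p : Fin n × Fin n} (h : mi p v w ≠ 0) :
    LinearIndependent k ![v, w] := by
  rw [LinearIndependent.pair_iff]
  intro s t e
  have e1 : mi p (s • v + t • w) w = s * mi p v w := by
    rw [mi_add_left, mi_smul_left, mi_smul_left, mi_self, mul_zero, add_zero]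
  have e2 : mi p v (s • v + t • w) = t * mi p v w := by
    rw [mi_add_right, mi_smul_right, mi_smul_right, mi_self, mul_zero, zero_add]
  rw [e] at e1 e2
  have z1 : mi p (0 : Fin n → k) w = 0 := by simp [mi]
  have z2 : mi p v (0 : Fin n → k) = 0 := by simp [mi]
  rw [z1] at e1
  rw [z2] at e2
  exact ⟨(mul_eq_zero.1 e1.symm).resolve_right h, (mul_eq_zero.1 e2.symm).resolve_right h⟩

end lin

end Vale.Agent.P092.H375.Cls
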