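import Vale.Agent.P092.H375.ClsD

/-!
P092 (helper375), [N-CLS]/[U8]: the configuration which computes the elementary matrices.
-/

set_option linter.all false

namespace Vale.Agent.P092.H375.Cls

open Vale.Agent.P092.H820
open TopologicalSpace Set Matrix Module
open scoped LinearAlgebra.Projectivization Matrix

section cfg

variable {k : Type} [NontriviallyNormedField k] {n : ℕ}

/-- basis vectors -/
def ev (m : Fin n) : Fin n → k := Pi.single m 1

theorem ev_self (m : Fin n) : (ev m : Fin n → k) m = 1 := Pi.single_eq_same m 1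

theorem ev_ne {m m' : Fin n} (h : m' ≠ m) : (ev m : Fin n → k) m' = 0 := Pi.single_eq_of_ne h 1

/-- the vectors of the configuration, with parameter `s` -/
def uc (i j : Fin n) (s : k) : Fin n ⊕ Fin 5 → Fin n → k
  | .inl m => ev m
  | .inr 0 => 1
  | .inr 1 => ev i + ev j
  | .inr 2 => s • ev i + ev j
  | .inr 3 => 1 - ev j
  | .inr 4 => 1 + s • ev i

theorem uc_ne {i j : Fin n} (hij : i ≠ j) (s : k) (x : Fin n ⊕ Fin 5) : uc i j s x ≠ 0 := by
  rcases x with m | x
  · intro h
    have := congrFun h m
    simp [uc, ev_self] at this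
  · intro h
    fin_cases x
    · have := congrFun h i
      simp [uc] at this
    · have := congrFun h j
      simp [uc, ev_self, ev_ne hij.symm] at this
    · have := congrFun h j
      simp [uc, ev_self, ev_ne hij.symm] at this
    · have := congrFun h i
      simp [uc, ev_ne hij] at this
    · have := congrFun h j
      simp [uc, ev_ne hij.symm] at this

/-- the points of the configuration -/
def ac {i j : Fin n} (hij : i ≠ j) (s : k) (x : Fin n ⊕ Fin 5) : ℙ k (Fin n → k) :=
  pj k (Fin n) ⟨uc i j s x, uc_ne hij s x⟩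

theorem rep_ac {i j : Fin n} (hij : i ≠ j) (s : k) : Rep (uc i j s) (ac hij s) :=
  fun x => ⟨uc_ne hij s x, rfl⟩

theorem sum_ev : ∑ m, (ev m : Fin n → k) = 1 := by
  funext m
  rw [Finset.sum_apply, Pi.one_apply]
  simp [ev, Pi.single_apply]

/-- a functional which vanishes on generators -/
theorem fun_zero {ι : Type*} {u : ι → Fin n → k} {A : Finset ι} {x : Fin n → k}
    (hx : x ∈ Submodule.span k (u '' A)) (f : (Fin n → k) →ₗ[k] k) (hf : ∀ m ∈ A, f (u m) = 0) :
    f x = 0 := by
  have : Submodule.span k (u '' A) ≤ LinearMap.ker f := by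
    rw [Submodule.span_le]
    rintro _ ⟨m, hm, rfl⟩
    exact hf m hm
  exact this hx

/-- coordinate functionals -/
def cf (m : Fin n) : (Fin n → k) →ₗ[k] k := LinearMap.proj m

@[simp] theorem cf_apply (m : Fin n) (x : Fin n → k) : cf m x = x m := rfl

theorem pj_smul_eq {u v : Fin n → k} (hu : u ≠ 0) (hv : v ≠ 0) {c : k} (h : u = c • v) :
    pj k (Fin n) ⟨u, hu⟩ = pj k (Fin n) ⟨v, hv⟩ := by
  have hc : c ≠ 0 := by
    rintro rfl
    rw [zero_smul] at h
    exact hu h
  exact (pj_eq _ _).2 ⟨Units.mk0 c hc, h.symm⟩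

variable {i j l : Fin n} {s t : k}

/-- **the normalised configuration** -/
theorem norm_cfg (hij : i ≠ j) (hli : l ≠ i) (hlj : l ≠ j) {y : Fin n ⊕ Fin 5 → ℙ k (Fin n → k)}
    (h : Mt (ac hij s) y) {uy : Fin n ⊕ Fin 5 → Fin n → k} (hy : Rep uy y)
    (h0 : ∀ m, uy (.inl m) = ev m) (h1 : uy (.inr 0) = 1)
    (ht : Rl ![y (.inl i), y (.inl j), y (.inr 1), y (.inr 2)] t) : y = ac hij t := by
  classical
  have ha := rep_ac hij s (k := k)
  have hM : ∀ {x : Fin n ⊕ Fin 5} {A : Finset (Fin n ⊕ Fin 5)},
      uc i j s x ∈ Submodule.span k (uc i j s '' A) → uy x ∈ Submodule.span k (uy '' A) :=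
    fun hx => mem_of_mt h ha hy hx
  -- the point `e_i + e_j`
  have p1 : ∃ c : k, uy (.inr 1) = c • (ev i + ev j) := by
    have m1 := hM (x := .inr 1) (A := {.inl i, .inl j}) (by
      change ev i + ev j ∈ _
      exact Submodule.add_mem _ (Submodule.subset_span ⟨.inl i, by simp, rfl⟩)
        (Submodule.subset_span ⟨.inl j, by simp, rfl⟩))
    have m2 := hM (x := .inr 1)
      (A := insert (.inr 0) ((Finset.univ.filter fun m : Fin n => m ≠ i ∧ m ≠ j).image .inl)) (by
      change ev i + ev j ∈ _
      have e : (ev i + ev j : Fin n → k) =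
          1 - ∑ m ∈ Finset.univ.filter (fun m : Fin n => m ≠ i ∧ m ≠ j), ev m := by
        rw [← sum_ev, eq_sub_iff_add_eq, ← Finset.sum_filter_add_sum_filter_not Finset.univ
          (fun m : Fin n => m ≠ i ∧ m ≠ j) (fun m => (ev m : Fin n → k)), add_comm]
        congr 1
        have : (Finset.univ.filter fun m : Fin n => ¬ (m ≠ i ∧ m ≠ j)) = {i, j} := by
          ext m
          simp only [Finset.mem_filter, Finset.mem_univ, true_and, Finset.mem_insert,
            Finset.mem_singleton]
          tauto
        rw [this, Finset.sum_pair hij]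
      rw [e]
      refine Submodule.sub_mem _ (Submodule.subset_span ⟨.inr 0, by simp, rfl⟩)
        (Submodule.sum_mem _ fun m hm => Submodule.subset_span ⟨.inl m, ?_, rfl⟩)
      simp only [Finset.mem_filter, Finset.mem_univ, true_and] at hm
      simp [hm])
    refine ⟨uy (.inr 1) i, ?_⟩
    have z1 : ∀ m, m ≠ i → m ≠ j → uy (.inr 1) m = 0 := by
      intro m hi hj
      refine fun_zero m1 (cf m) fun x hx => ?_
      simp only [Finset.mem_insert, Finset.mem_singleton] at hx
      rcases hx with rfl | rfl
      · rw [h0, cf_apply, ev_ne hi]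
      · rw [h0, cf_apply, ev_ne hj]
    have z2 : uy (.inr 1) i = uy (.inr 1) j := by
      have := fun_zero m2 (cf i - cf j) fun x hx => ?_
      · simpa [sub_eq_zero] using this
      · simp only [Finset.mem_insert, Finset.mem_image, Finset.mem_filter, Finset.mem_univ,
          true_and] at hx
        rcases hx with rfl | ⟨m, hm, rfl⟩
        · rw [h1]; simp
        · rw [h0, LinearMap.sub_apply, cf_apply, cf_apply, ev_ne hm.1.symm, ev_ne hm.2.symm,
            sub_self]
    funext m
    simp only [Pi.smul_apply, Pi.add_apply, smul_eq_mul]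
    by_cases hi : m = i
    · subst hi; rw [ev_self, ev_ne hij]; ring
    · by_cases hj : m = j
      · subst hj; rw [ev_self, ev_ne hij.symm, z2]; ring
      · rw [ev_ne hi, ev_ne hj, z1 m hi hj]; ring
  -- the point `s e_i + e_j`
  have p2 : ∃ c : k, uy (.inr 2) = c • (t • ev i + ev j) := by
    have m1 := hM (x := .inr 2) (A := {.inl i, .inl j}) (by
      change s • ev i + ev j ∈ _
      exact Submodule.add_mem _ (Submodule.smul_mem _ _
        (Submodule.subset_span ⟨.inl i, by simp, rfl⟩))
        (Submodule.subset_span ⟨.inl j, by simp, rfl⟩))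
    have z1 : ∀ m, m ≠ i → m ≠ j → uy (.inr 2) m = 0 := by
      intro m hi hj
      refine fun_zero m1 (cf m) fun x hx => ?_
      simp only [Finset.mem_insert, Finset.mem_singleton] at hx
      rcases hx with rfl | rfl
      · rw [h0, cf_apply, ev_ne hi]
      · rw [h0, cf_apply, ev_ne hj]
    have z2 : uy (.inr 2) j ≠ 0 := by
      intro hz
      have hI : LinearIndepOn k (uc i j s) (({.inl i, .inr 2} : Finset (Fin n ⊕ Fin 5)) :
          Set (Fin n ⊕ Fin 5)) := by
        rw [Finset.coe_insert, Finset.coe_singleton, LinearIndepOn.pair_iff _ (by simp)]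
        intro a b hab
        have e1 := congrFun hab i
        have e2 := congrFun hab j
        simp only [uc, Pi.add_apply, Pi.smul_apply, ev_self, ev_ne hij, ev_ne hij.symm,
          smul_eq_mul, Pi.zero_apply] at e1 e2
        have hb : b = 0 := by linear_combination e2
        subst hb
        exact ⟨by linear_combination e1, rfl⟩
      have hI' := indep_of_mt h ha hy hI
      rw [Finset.coe_insert, Finset.coe_singleton, LinearIndepOn.pair_iff _ (by simp)] at hI'
      have := hI' (uy (.inr 2) i) (-1) (by
        funext m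
        simp only [h0, Pi.add_apply, Pi.smul_apply, smul_eq_mul, Pi.zero_apply]
        by_cases hi : m = i
        · subst hi; rw [ev_self]; ring
        · by_cases hj : m = j
          · subst hj; rw [ev_ne hij.symm, hz]; ring
          · rw [ev_ne hi, z1 m hi hj]; ring)
      exact one_ne_zero (neg_eq_zero.1 this.2)
    have e : uy (.inr 2) = uy (.inr 2) j • ((uy (.inr 2) i / uy (.inr 2) j) • ev i + ev j) := by
      funext m
      simp only [Pi.smul_apply, Pi.add_apply, smul_eq_mul]
      by_cases hi : m = i
      · subst hi; rw [ev_self, ev_ne hij]; field_simp; ring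
      · by_cases hj : m = j
        · subst hj; rw [ev_self, ev_ne hij.symm]; ring
        · rw [ev_ne hi, ev_ne hj, z1 m hi hj]; ring
    have ht' : Rl ![y (.inl i), y (.inl j), y (.inr 1), y (.inr 2)]
        (uy (.inr 2) i / uy (.inr 2) j) := by
      obtain ⟨c1, hc1⟩ := p1
      have n3 : ((uy (.inr 2) i / uy (.inr 2) j) • ev i + ev j : Fin n → k) ≠ 0 := by
        intro h'
        have := congrFun h' j
        simp [ev_self, ev_ne hij.symm] at this
      refine ⟨ev i, ev j, uc_ne (k := k) hij s (.inl i), uc_ne (k := k) hij s (.inl j),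
        uc_ne (k := k) hij s (.inr 1), n3, ⟨(i, j), ?_⟩, ?_, ?_, ?_, ?_⟩
      · simp [mi, ev_self, ev_ne hij, ev_ne hij.symm]
      · obtain ⟨w1, w2⟩ := hy (.inl i)
        change y (.inl i) = _
        rw [w2]
        exact pj_smul_eq _ _ (c := 1) (by rw [one_smul, h0])
      · obtain ⟨w1, w2⟩ := hy (.inl j)
        change y (.inl j) = _
        rw [w2]
        exact pj_smul_eq _ _ (c := 1) (by rw [one_smul, h0])
      · obtain ⟨w1, w2⟩ := hy (.inr 1)
        change y (.inr 1) = _
        rw [w2]
        exact pj_smul_eq _ _ hc1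
      · obtain ⟨w1, w2⟩ := hy (.inr 2)
        change y (.inr 2) = _
        rw [w2]
        exact pj_smul_eq _ _ e
    rw [rl_uniq ht ht']
    exact ⟨_, e⟩
  -- the point `e - e_j`
  have p3 : ∃ c : k, uy (.inr 3) = c • (1 - ev j) := by
    have m1 := hM (x := .inr 3) (A := {.inr 0, .inl j}) (by
      change 1 - ev j ∈ _
      exact Submodule.sub_mem _ (Submodule.subset_span ⟨.inr 0, by simp, rfl⟩)
        (Submodule.subset_span ⟨.inl j, by simp, rfl⟩))
    have m2 := hM (x := .inr 3)
      (A := (Finset.univ.filter fun m : Fin n => m ≠ j).image .inl) (by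
      change 1 - ev j ∈ _
      have e : (1 - ev j : Fin n → k) =
          ∑ m ∈ Finset.univ.filter (fun m : Fin n => m ≠ j), ev m := by
        rw [← sum_ev, sub_eq_iff_eq_add, ← Finset.sum_filter_add_sum_filter_not Finset.univ
          (fun m : Fin n => m ≠ j) (fun m => (ev m : Fin n → k))]
        congr 1
        have : (Finset.univ.filter fun m : Fin n => ¬ (m ≠ j)) = {j} := by
          ext m
          simp
        rw [this, Finset.sum_singleton]
      rw [e]
      refine Submodule.sum_mem _ fun m hm => Submodule.subset_span ⟨.inl m, ?_, rfl⟩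
      simp only [Finset.mem_filter, Finset.mem_univ, true_and] at hm
      simp [hm])
    refine ⟨uy (.inr 3) i, ?_⟩
    have z1 : ∀ m, m ≠ j → uy (.inr 3) m = uy (.inr 3) i := by
      intro m hj
      have := fun_zero m1 (cf m - cf i) fun x hx => ?_
      · simpa [sub_eq_zero] using this
      · simp only [Finset.mem_insert, Finset.mem_singleton] at hx
        rcases hx with rfl | rfl
        · rw [h1]; simp
        · rw [h0, LinearMap.sub_apply, cf_apply, cf_apply, ev_ne hj, ev_ne hij, sub_self]
    have z2 : uy (.inr 3) j = 0 := by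
      refine fun_zero m2 (cf j) fun x hx => ?_
      simp only [Finset.mem_image, Finset.mem_filter, Finset.mem_univ, true_and] at hx
      obtain ⟨m, hm, rfl⟩ := hx
      rw [h0, cf_apply, ev_ne (Ne.symm hm)]
    funext m
    simp only [Pi.smul_apply, Pi.sub_apply, Pi.one_apply, smul_eq_mul]
    by_cases hj : m = j
    · subst hj; rw [ev_self, z2]; ring
    · rw [ev_ne hj, z1 m hj]; ring
  -- the point `e + s e_i`
  have p4 : ∃ c : k, uy (.inr 4) = c • (1 + t • ev i) := by
    have m1 := hM (x := .inr 4) (A := {.inr 0, .inl i}) (by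
      change 1 + s • ev i ∈ _
      exact Submodule.add_mem _ (Submodule.subset_span ⟨.inr 0, by simp, rfl⟩)
        (Submodule.smul_mem _ _ (Submodule.subset_span ⟨.inl i, by simp, rfl⟩)))
    have m2 := hM (x := .inr 4) (A := {.inr 2, .inr 3}) (by
      have e : uc i j s (.inr 4) = uc i j s (.inr 2) + uc i j s (.inr 3) := by
        simp only [uc]
        abel
      rw [e]
      exact Submodule.add_mem _ (Submodule.subset_span ⟨.inr 2, by simp, rfl⟩)
        (Submodule.subset_span ⟨.inr 3, by simp, rfl⟩))
    obtain ⟨c2, hc2⟩ := p2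
    obtain ⟨c3, hc3⟩ := p3
    refine ⟨uy (.inr 4) j, ?_⟩
    have z1 : ∀ m, m ≠ i → uy (.inr 4) m = uy (.inr 4) j := by
      intro m hi
      have := fun_zero m1 (cf m - cf j) fun x hx => ?_
      · simpa [sub_eq_zero] using this
      · simp only [Finset.mem_insert, Finset.mem_singleton] at hx
        rcases hx with rfl | rfl
        · rw [h1]; simp
        · rw [h0, LinearMap.sub_apply, cf_apply, cf_apply, ev_ne hi, ev_ne hij.symm, sub_self]
    have z2 : uy (.inr 4) i - t * uy (.inr 4) j - uy (.inr 4) l = 0 := by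
      have := fun_zero m2 (cf i - t • cf j - cf l) fun x hx => ?_
      · simpa using this
      · simp only [Finset.mem_insert, Finset.mem_singleton] at hx
        rcases hx with rfl | rfl
        · rw [hc2]
          simp only [LinearMap.sub_apply, LinearMap.smul_apply, cf_apply, Pi.smul_apply,
            Pi.add_apply, smul_eq_mul, ev_self, ev_ne hij, ev_ne hij.symm, ev_ne hli, ev_ne hlj]
          ring
        · rw [hc3]
          simp only [LinearMap.sub_apply, LinearMap.smul_apply, cf_apply, Pi.smul_apply,
            Pi.sub_apply, Pi.one_apply, smul_eq_mul, ev_self, ev_ne hij, ev_ne hlj]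
          ring
    funext m
    simp only [Pi.smul_apply, Pi.add_apply, Pi.one_apply, smul_eq_mul]
    by_cases hi : m = i
    · subst hi
      rw [ev_self]
      have := z1 l hli
      linear_combination z2 + this
    · rw [ev_ne hi, z1 m hi]; ring
  funext x
  obtain ⟨w1, w2⟩ := hy x
  rw [w2, ac]
  rcases x with m | x
  · exact pj_smul_eq _ _ (c := 1) (by rw [one_smul, h0]; rfl)
  · fin_cases x
    · exact pj_smul_eq _ _ (c := 1) (by rw [one_smul]; exact h1)
    · obtain ⟨c, hc⟩ := p1
      exact pj_smul_eq _ _ hc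
    · obtain ⟨c, hc⟩ := p2
      exact pj_smul_eq _ _ hc
    · obtain ⟨c, hc⟩ := p3
      exact pj_smul_eq _ _ hc
    · obtain ⟨c, hc⟩ := p4
      exact pj_smul_eq _ _ hc

end cfg

end Vale.Agent.P092.H375.Cls
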