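import Vale.Agent.P092.H375.ClsE

/-!
P092 (helper375), [N-CLS]/[U8]: invariance under linear maps and the general configuration.
-/

set_option linter.all false

namespace Vale.Agent.P092.H375.Cls

open Vale.Agent.P092.H820
open TopologicalSpace Set Matrix Module
open scoped LinearAlgebra.Projectivization Matrix

section inv

variable {k : Type} [NontriviallyNormedField k] {n : ℕ}
  {G : Type*} [Group G] [DistribMulAction G (Fin n → k)] [SMulCommClass G k (Fin n → k)]

theorem gsmul_ne (g : G) {v : Fin n → k} (h : v ≠ 0) : g • v ≠ 0 := (smul_ne_zero_iff_ne g).2 h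

theorem gsmul_pj (g : G) (v : Fin n → k) (h : v ≠ 0) :
    g • pj k (Fin n) ⟨v, h⟩ = pj k (Fin n) ⟨g • v, gsmul_ne g h⟩ := rfl

theorem Rep.gsmul {ι : Type*} {u : ι → Fin n → k} {z : ι → ℙ k (Fin n → k)} (h : Rep u z)
    (g : G) : Rep (fun i => g • u i) (fun i => g • z i) := fun i => by
  obtain ⟨h1, h2⟩ := h i
  refine ⟨gsmul_ne g h1, ?_⟩
  change g • z i = _
  rw [h2]; rfl

theorem rk_gsmul {ι : Type*} (z : ι → ℙ k (Fin n → k)) (g : G) (A : Finset ι) :
    rk (fun i => g • z i) A = rk z A := by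
  classical
  obtain ⟨u, hu⟩ := exists_rep z
  rw [(hu.gsmul g).rk, hu.rk]
  have e : (fun i => g • u i) '' (A : Set ι) =
      (DistribMulAction.toLinearEquiv k (Fin n → k) g) '' (u '' A) := by
    rw [image_image]; rfl
  rw [e, ← LinearEquiv.coe_coe, Submodule.span_image]
  exact LinearEquiv.finrank_map_eq _ _

theorem Mt.gsmul {ι : Type*} {a z : ι → ℙ k (Fin n → k)} (h : Mt a z) (g : G) :
    Mt a (fun i => g • z i) := fun A => by rw [rk_gsmul, h]

theorem mi_zero_iff (v w : Fin n → k) : (∃ p, mi p v w ≠ 0) ↔ LinearIndependent k ![v, w] :=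
  ⟨fun ⟨_, h⟩ => li_pair h, exists_mi⟩

theorem Rl.gsmul {z : Fin 4 → ℙ k (Fin n → k)} {t : k} (h : Rl z t) (g : G) :
    Rl (fun i => g • z i) t := by
  haveI : SMulCommClass k G (Fin n → k) := SMulCommClass.symm _ _ _
  obtain ⟨v0, v1, h0, h1, h2, h3, h4, z0, z1, z2, z3⟩ := h
  refine ⟨g • v0, g • v1, gsmul_ne g h0, gsmul_ne g h1, ?_, ?_, ?_, ?_, ?_, ?_, ?_⟩
  · rw [← smul_add]; exact gsmul_ne g h2
  · rw [smul_comm t g v0, ← smul_add]; exact gsmul_ne g h3
  · rw [mi_zero_iff] at h4 ⊢
    have h5 := h4.map' (DistribMulAction.toLinearEquiv k (Fin n → k) g).toLinearMap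
      (LinearEquiv.ker _)
    have e : (DistribMulAction.toLinearEquiv k (Fin n → k) g).toLinearMap ∘ ![v0, v1] =
        ![g • v0, g • v1] := by
      funext i
      fin_cases i <;> rfl
    rw [e] at h5
    exact h5
  · change g • z 0 = _
    rw [z0]; rfl
  · change g • z 1 = _
    rw [z1]; rfl
  · change g • z 2 = _
    rw [z2, gsmul_pj]
    congr 1
    exact Subtype.ext (smul_add _ _ _)
  · change g • z 3 = _
    rw [z3, gsmul_pj]
    congr 1
    exact Subtype.ext (by
      change g • (t • v0 + v1) = t • g • v0 + g • v1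
      rw [smul_add, smul_comm t g v0])

theorem cs_gsmul {z : Fin 4 → ℙ k (Fin n → k)} {A : Set k} (g : G) :
    (fun i => g • z i) ∈ CS A ↔ z ∈ CS A := by
  constructor
  · rintro ⟨t, ht, h⟩
    refine ⟨t, ht, ?_⟩
    have := h.gsmul g⁻¹
    simpa only [inv_smul_smul] using this
  · rintro ⟨t, ht, h⟩
    exact ⟨t, ht, h.gsmul g⟩

end inv

section cfg

variable {k : Type} [NontriviallyNormedField k] {n : ℕ} {i j l : Fin n} {s t : k}

theorem ev_indep : LinearIndependent k (fun m : Fin n => (ev m : Fin n → k)) := by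
  have := (Pi.basisFun k (Fin n)).linearIndependent
  convert this using 1
  funext m
  rw [Pi.basisFun_apply]
  rfl

/-- **the general configuration** -/
theorem exists_cfg (hij : i ≠ j) (hli : l ≠ i) (hlj : l ≠ j) {z : Fin n ⊕ Fin 5 → ℙ k (Fin n → k)}
    (h : Mt (ac hij s) z) (ht : Rl ![z (.inl i), z (.inl j), z (.inr 1), z (.inr 2)] t) :
    ∃ g : GL (Fin n) k, ∀ x, z x = g • ac hij t x := by
  classical
  obtain ⟨uz, hz⟩ := exists_rep z
  have ha := rep_ac hij s (k := k)
  -- the images of the basis vectors are independent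
  have hI : LinearIndependent k (fun m : Fin n => uz (.inl m)) := by
    have h1 : LinearIndepOn k (uc i j s) ((Finset.univ.image Sum.inl : Finset (Fin n ⊕ Fin 5)) :
        Set (Fin n ⊕ Fin 5)) := by
      rw [Finset.coe_image, Finset.coe_univ, image_univ]
      exact (linearIndepOn_range_iff Sum.inl_injective _).2 ev_indep
    have h2 := indep_of_mt h ha hz h1
    rw [Finset.coe_image, Finset.coe_univ, image_univ] at h2
    exact (linearIndepOn_range_iff Sum.inl_injective _).1 h2
  -- coordinates of the last point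
  have hcard : Fintype.card (Fin n) = finrank k (Fin n → k) := by simp
  obtain ⟨c, hc⟩ : ∃ c : Fin n → k, ∑ m, c m • uz (.inl m) = uz (.inr 0) := by
    have h1 : uz (.inr 0) ∈ Submodule.span k (range fun m : Fin n => uz (.inl m)) := by
      rw [hI.span_eq_top_of_card_eq_finrank' hcard]
      trivial
    exact (Submodule.mem_span_range_iff_exists_fun k).1 h1
  have hc0 : ∀ m, c m ≠ 0 := by
    intro m hm
    have h1 : uz (.inr 0) ∈ Submodule.span k (uz ''
        (((Finset.univ.filter fun m' : Fin n => m' ≠ m).image Sum.inl :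
          Finset (Fin n ⊕ Fin 5)) : Set (Fin n ⊕ Fin 5))) := by
      rw [← hc, ← Finset.sum_filter_add_sum_filter_not Finset.univ (fun m' : Fin n => m' ≠ m)]
      have e : ∑ x ∈ Finset.univ.filter (fun m' : Fin n => ¬ m' ≠ m), c x • uz (.inl x) = 0 := by
        refine Finset.sum_eq_zero fun x hx => ?_
        simp only [Finset.mem_filter, Finset.mem_univ, true_and, not_not] at hx
        rw [hx, hm, zero_smul]
      rw [e, add_zero]
      refine Submodule.sum_mem _ fun x hx => Submodule.smul_mem _ _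
        (Submodule.subset_span ⟨.inl x, ?_, rfl⟩)
      simp only [Finset.mem_filter, Finset.mem_univ, true_and] at hx
      simp [hx]
    have hsym : Mt z (ac hij s) := fun A => (h A).symm
    have h2 := mem_of_mt hsym hz ha h1
    have h3 := fun_zero h2 (cf m) fun x hx => by
      simp only [Finset.mem_image, Finset.mem_filter, Finset.mem_univ, true_and] at hx
      obtain ⟨m', hm', rfl⟩ := hx
      rw [cf_apply]
      exact ev_ne (Ne.symm hm')
    rw [cf_apply] at h3
    exact one_ne_zero h3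
  -- the matrix
  obtain ⟨M, hM⟩ : ∃ M : Matrix (Fin n) (Fin n) k, M = Matrix.of fun a m => c m * uz (.inl m) a :=
    ⟨_, rfl⟩
  have hcol : ∀ m, M *ᵥ (ev m) = c m • uz (.inl m) := by
    intro m
    rw [ev, Matrix.mulVec_single_one, hM]
    funext a
    rfl
  have hMu : IsUnit M := by
    rw [← Matrix.linearIndependent_cols_iff_isUnit]
    have e : M.col = fun m => c m • uz (.inl m) := by
      funext m a
      rw [hM]; rfl
    rw [e]
    exact hI.units_smul (fun m => Units.mk0 (c m) (hc0 m))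
  obtain ⟨g, hg⟩ := hMu
  have hgv : ∀ v : Fin n → k, g • v = M *ᵥ v := fun v => by rw [← hg]; rfl
  have hge : ∀ m, g • (ev m : Fin n → k) = c m • uz (.inl m) := fun m => by rw [hgv, hcol]
  have hg1 : g • (1 : Fin n → k) = uz (.inr 0) := by
    rw [← sum_ev, Finset.smul_sum, ← hc]
    exact Finset.sum_congr rfl fun m _ => hge m
  -- pull back
  obtain ⟨uy, huy⟩ : ∃ uy : Fin n ⊕ Fin 5 → Fin n → k, uy = Sum.elim (fun m => ev m)
    (fun x => g⁻¹ • uz (.inr x)) := ⟨_, rfl⟩
  have hy : Rep uy (fun x => g⁻¹ • z x) := by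
    intro x
    rcases x with m | x
    · refine ⟨by rw [huy]; exact uc_ne hij s (.inl m), ?_⟩
      obtain ⟨w1, w2⟩ := hz (.inl m)
      change g⁻¹ • z (.inl m) = _
      rw [w2, gsmul_pj]
      refine pj_smul_eq _ _ (c := (c m)⁻¹) ?_
      have e : uz (.inl m) = (c m)⁻¹ • g • (ev m : Fin n → k) := by
        rw [hge, smul_smul, inv_mul_cancel₀ (hc0 m), one_smul]
      rw [huy, e, smul_comm, inv_smul_smul]
      rfl
    · refine ⟨by rw [huy]; exact gsmul_ne _ (hz.ne _), ?_⟩
      obtain ⟨w1, w2⟩ := hz (.inr x)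
      change g⁻¹ • z (.inr x) = _
      rw [w2, gsmul_pj]
      refine pj_smul_eq _ _ (c := 1) ?_
      rw [one_smul, huy]; rfl
  have hn := norm_cfg hij hli hlj (h.gsmul g⁻¹) hy (fun m => by rw [huy]; rfl) (by
    rw [huy]
    change g⁻¹ • uz (.inr 0) = 1
    rw [← hg1, inv_smul_smul]) (t := t) (by
    have h1 := ht.gsmul g⁻¹
    convert h1 using 1
    funext x
    fin_cases x <;> rfl)
  refine ⟨g, fun x => ?_⟩
  have := congrFun hn x
  rw [← this, smul_inv_smul]

end cfg

end Vale.Agent.P092.H375.Cls
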