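import Vale.Agent.P092.H375.ClsG
import Vale.Agent.P092.H171.Cg
import Vale.Agent.P092.H35.Sig

/-!
P092 (helper375), [N-CLS]/[U8]: the calculus of `C₀(PGL_n(k))` of a commuting leg.
-/

set_option linter.all false

namespace Vale.Agent.P092.H375.Cls

open Vale.Agent.P092.H820 Vale.Agent.P092.H466
open Vale.Agent.P092.H171 (ext ext_apply ext_surj Qg Qg_apply Qg_nd Pos pos_uniq ae_of_pos co phi_congr_ae
  conj_eq hom_uniq ms_restr exists_joint comm_all ae_restr)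
open Vale.Agent.P092.H789 (cmap isOpenEmbedding_cmap range_cmap cmap_mul cmap_injective src GPos
  isOpen_gpos gpos_cmap cmap_apply mk_smul)
open Vale.Agent.P092.RC (PG YY GG)
open Vale.Agent.P092.H35 (sp mkP)
open TopologicalSpace Set MeasureTheory Matrix Module Topology Filter
open scoped LinearAlgebra.Projectivization Matrix InnerProductSpace ZeroAtInfty

section op

variable {k : Type} [NontriviallyNormedField k] [ProperSpace k] {m : ℕ} {H : Type} [Group H]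
  {K : Type} [NormedAddCommGroup K] [InnerProductSpace ℂ K] [CompleteSpace K]

/-- The random configuration `a` is a translate of the configuration `b`. -/
def Cf (E : YY k m → (C(YY k m, ℂ) →⋆ₐ[ℂ] (K →L[ℂ] K))) {ι : Type} [Fintype ι]
    (a b : ι → YY k m) : Prop :=
  ∀ Φ : C(ι → YY k m, ℂ) →⋆ₐ[ℂ] (K →L[ℂ] K), Jn E a Φ → ∀ ξ, ∀ᵐ z ∂(ms Φ ξ),
    ∃ x : PG k (m + 1), ∀ y, z y = x • b y

/-- the calculus on the group -/
noncomputable abbrev Qc (Φ : C(Fin (m + 2) → YY k m, ℂ) →⋆ₐ[ℂ] (K →L[ℂ] K)) :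
    C₀(PG k (m + 1), ℂ) →⋆ₙₐ[ℂ] (K →L[ℂ] K) := Qg isOpenEmbedding_cmap Φ

variable {E : YY k m → (C(YY k m, ℂ) →⋆ₐ[ℂ] (K →L[ℂ] K))} {ι : Type} [Fintype ι]
  {a b : ι → YY k m} {Φ₀ : C(Fin (m + 2) → YY k m, ℂ) →⋆ₐ[ℂ] (K →L[ℂ] K)}
  {Φ : C(ι → YY k m, ℂ) →⋆ₐ[ℂ] (K →L[ℂ] K)}

/-- the value of the calculus of the frame, read off in a larger configuration -/
theorem Qc_eq (hΦ₀ : Jn E (src k m) Φ₀) (hΦ : Jn E a Φ) {r : Fin (m + 2) → ι}
    (hr : ∀ i, src k m i = a (r i)) (ψ : C₀(PG k (m + 1), ℂ)) :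
    Qc Φ₀ ψ = Φ ((ext isOpenEmbedding_cmap ψ).comp ⟨fun z i => z (r i), by fun_prop⟩) :=
  Jn.comp hΦ hΦ₀ r hr _

/-- identities may be checked on configurations -/
theorem Cf.congr (h : Cf E a b) (hΦ : Jn E a Φ) {f f' : C(ι → YY k m, ℂ)}
    (hf : ∀ x : PG k (m + 1), f (fun y => x • b y) = f' (fun y => x • b y)) : Φ f = Φ f' := by
  refine phi_congr_ae Φ fun ξ => ?_
  filter_upwards [h Φ hΦ ξ] with z hz
  obtain ⟨x, hx⟩ := hz
  have : z = fun y => x • b y := funext hx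
  rw [this]
  exact hf x

theorem Cf.frame (h : Cf E a b) (hΦ₀ : Jn E (src k m) Φ₀) (hΦ : Jn E a Φ) {r : Fin (m + 2) → ι}
    (hr : ∀ i, src k m i = a (r i)) (hr' : ∀ i, src k m i = b (r i)) (ξ : K) :
    ∀ᵐ z ∂(ms Φ₀ ξ), z ∈ range (cmap k m) := by
  let R : C(ι → YY k m, Fin (m + 2) → YY k m) := ⟨fun z i => z (r i), by fun_prop⟩
  have e : Φ.comp (R.compStarAlgHom' ℂ ℂ) = Φ₀ := by
    refine hom_uniq fun i f => ?_
    rw [hΦ₀ i f, hr]
    exact hΦ (r i) f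
  have hm : MeasurableSet (range (cmap k m)) :=
    (isOpenEmbedding_cmap (k := k) (m := m)).isOpen_range.measurableSet
  rw [← e, ms_restr]
  refine (ae_map_iff R.continuous.measurable.aemeasurable hm).2 ?_
  filter_upwards [h Φ hΦ ξ] with z hz
  obtain ⟨x, hx⟩ := hz
  refine ⟨x, ?_⟩
  funext i
  rw [cmap_apply, hr' i]
  exact (hx (r i)).symm

theorem Cf.mulE (h : Cf E a b) (hΦ₀ : Jn E (src k m) Φ₀) (hΦ : Jn E a Φ) {r : Fin (m + 2) → ι}
    (hr : ∀ i, src k m i = a (r i)) (hr' : ∀ i, src k m i = b (r i)) (y : ι) :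
    Pos (Qc Φ₀) (E (a y)) fun x => x • b y := by
  intro f ψ ψ' hψ
  rw [Qc_eq hΦ₀ hΦ hr, Qc_eq hΦ₀ hΦ hr, ← hΦ y f, ← map_mul]
  refine h.congr hΦ fun x => ?_
  have e : (fun i => x • b (r i)) = cmap k m x := by
    funext i
    rw [← hr', cmap_apply]
  change f (x • b y) * ext isOpenEmbedding_cmap ψ (fun i => x • b (r i)) =
    ext isOpenEmbedding_cmap ψ' (fun i => x • b (r i))
  rw [e, ext_apply, ext_apply, hψ]

/-- right covariance -/
def Rt (π : H →* (K →L[ℂ] K)) (Q : C₀(PG k (m + 1), ℂ) →⋆ₙₐ[ℂ] (K →L[ℂ] K))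
    (h : H) (h' : PG k (m + 1)) : Prop :=
  ∀ ψ ψ' : C₀(PG k (m + 1), ℂ), (∀ x, ψ' x = ψ (x * h')) → π h * Q ψ * π h⁻¹ = Q ψ'

/-- right translation -/
noncomputable def rtr (h : PG k (m + 1)) (ψ : C₀(PG k (m + 1), ℂ)) : C₀(PG k (m + 1), ℂ) :=
  ψ.comp ⟨⟨fun g => g * h, continuous_mul_const h⟩,
    (Homeomorph.mulRight h).isClosedEmbedding.tendsto_cocompact⟩

theorem rtr_apply (h : PG k (m + 1)) (ψ : C₀(PG k (m + 1), ℂ)) (g : PG k (m + 1)) :
    rtr h ψ g = ψ (g * h) := rfl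

theorem Cf.right {α : H →* PG k (m + 1)} {π : H →* (K →L[ℂ] K)}
    (pE : ∀ e a f, π e * E a f * π e⁻¹ = E (α e • a) f) (h : Cf E a b)
    (hΦ₀ : Jn E (src k m) Φ₀) (hΦ : Jn E a Φ) {r s : Fin (m + 2) → ι}
    (hr : ∀ i, src k m i = a (r i)) (hr' : ∀ i, src k m i = b (r i)) {u : H}
    {u' : PG k (m + 1)}
    (hs : ∀ i, α u • src k m i = a (s i)) (hs' : ∀ i, u' • src k m i = b (s i)) :
    Rt π (Qc Φ₀) u u' := by
  intro ψ ψ' hψ
  have h1 := conj_eq Φ₀ (Φ.comp ((⟨fun z i => z (s i), by fun_prop⟩ :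
      C(ι → YY k m, Fin (m + 2) → YY k m)).compStarAlgHom' ℂ ℂ)) (ContinuousMap.id _)
    (U := π u) (V := π u⁻¹) (by rw [← map_mul, mul_inv_cancel, map_one])
    (by rw [← map_mul, inv_mul_cancel, map_one]) (by
      intro i f
      rw [hΦ₀ i f, pE, hs]
      change E (a (s i)) f = Φ (co (s i) f)
      rw [hΦ]) (ext isOpenEmbedding_cmap ψ)
  change π u * Qc Φ₀ ψ * π u⁻¹ = Φ ((ext isOpenEmbedding_cmap ψ).comp
    ⟨fun z i => z (s i), by fun_prop⟩) at h1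
  rw [h1, Qc_eq hΦ₀ hΦ hr]
  refine h.congr hΦ fun x => ?_
  have e : (fun i => x • b (r i)) = cmap k m x := by
    funext i
    rw [← hr', cmap_apply]
  have e' : (fun i => x • b (s i)) = cmap k m (x * u') := by
    funext i
    rw [← hs', cmap_apply, ← mul_smul]
  change ext isOpenEmbedding_cmap ψ (fun i => x • b (s i)) =
    ext isOpenEmbedding_cmap ψ' (fun i => x • b (r i))
  rw [e, e', ext_apply, ext_apply, hψ]

theorem Rt.mul {π : H →* (K →L[ℂ] K)} {Q : C₀(PG k (m + 1), ℂ) →⋆ₙₐ[ℂ] (K →L[ℂ] K)}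
    {g h : H} {g' h' : PG k (m + 1)} (hg : Rt π Q g g') (hh : Rt π Q h h') :
    Rt π Q (g * h) (g' * h') := by
  intro ψ ψ' hψ
  have h1 := hh ψ (rtr h' ψ) fun x => rfl
  have h2 := hg (rtr h' ψ) ψ' fun x => by rw [hψ, rtr_apply, mul_assoc]
  rw [← h2, ← h1, map_mul, _root_.mul_inv_rev, map_mul]
  simp only [mul_assoc]

/-- positions of conjugated points -/
theorem Rt.pos {α : H →* PG k (m + 1)} {π : H →* (K →L[ℂ] K)}
    (pE : ∀ e a f, π e * E a f * π e⁻¹ = E (α e • a) f)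
    {Q : C₀(PG k (m + 1), ℂ) →⋆ₙₐ[ℂ] (K →L[ℂ] K)} {h : H} {h' : PG k (m + 1)}
    (hh : Rt π Q h h') {p p' : YY k m} (hp : Pos Q (E p) fun x => x • p') :
    Pos Q (E (α h • p)) fun x => x • h' • p' := by
  intro f ψ ψ' e
  have u2 : π h⁻¹ * π h = 1 := by rw [← map_mul, inv_mul_cancel, map_one]
  have e1 := hh (rtr h'⁻¹ ψ) ψ fun g => by rw [rtr_apply, mul_assoc, mul_inv_cancel, mul_one]
  have e2 := hh (rtr h'⁻¹ ψ') ψ' fun g => by rw [rtr_apply, mul_assoc, mul_inv_cancel, mul_one]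
  have e3 := hp f (rtr h'⁻¹ ψ) (rtr h'⁻¹ ψ') fun g => by
    rw [rtr_apply, rtr_apply, e]
    change f ((g * h'⁻¹) • h' • p') * _ = _
    rw [← mul_smul, inv_mul_cancel_right]
  rw [← e1, ← e2, ← e3, ← pE]
  calc π h * E p f * π h⁻¹ * (π h * Q (rtr h'⁻¹ ψ) * π h⁻¹)
      = π h * E p f * (π h⁻¹ * π h) * Q (rtr h'⁻¹ ψ) * π h⁻¹ := by simp only [mul_assoc]
    _ = _ := by rw [u2, mul_one]; simp only [mul_assoc]

theorem cont_pt (p : YY k m) : Continuous fun x : PG k (m + 1) => x • p := by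
  have h : Continuous fun q : PG k (m + 1) × YY k m => q.1 • q.2 := continuous_smul
  exact h.comp (continuous_id.prodMk continuous_const)

/-- **uniqueness of the right translation** -/
theorem Rt.uniq [Nontrivial K] {α : H →* PG k (m + 1)} {π : H →* (K →L[ℂ] K)}
    (pE : ∀ e a f, π e * E a f * π e⁻¹ = E (α e • a) f)
    (hr : ∀ ξ, ∀ᵐ z ∂(ms Φ₀ ξ), z ∈ range (cmap k m))
    (hfr : ∀ i, Pos (Qc Φ₀) (E (src k m i)) fun x => x • src k m i)
    {h : H} {h' h'' : PG k (m + 1)} (h1 : Rt π (Qc Φ₀) h h') (h2 : Rt π (Qc Φ₀) h h'') :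
    h' = h'' := by
  refine cmap_injective (funext fun i => ?_)
  obtain ⟨g, hg⟩ := pos_uniq isOpenEmbedding_cmap hr (cont_pt _) (cont_pt _) (h1.pos pE (hfr i))
    (h2.pos pE (hfr i))
  rw [cmap_apply, cmap_apply]
  exact smul_left_cancel g hg

/-- **right covariance from positions** -/
theorem Rt.of_pos {α : H →* PG k (m + 1)} {π : H →* (K →L[ℂ] K)}
    (pE : ∀ e a f, π e * E a f * π e⁻¹ = E (α e • a) f)
    (hcom : ∀ a b f g, Commute (E a f) (E b g)) (hΦ₀ : Jn E (src k m) Φ₀)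
    (hr : ∀ ξ, ∀ᵐ z ∂(ms Φ₀ ξ), z ∈ range (cmap k m)) {e : H} {x : PG k (m + 1)}
    (hp : ∀ i, Pos (Qc Φ₀) (E (α e • src k m i)) fun y => (y * x) • src k m i) :
    Rt π (Qc Φ₀) e x := by
  obtain ⟨Ψ, hΨ⟩ := exists_joint (fun t : Fin (m + 2) ⊕ Fin (m + 2) =>
    E (Sum.elim (src k m) (fun i => α e • src k m i) t)) (fun t t' f g => hcom _ _ f g)
  let R1 : C(Fin (m + 2) ⊕ Fin (m + 2) → YY k m, Fin (m + 2) → YY k m) :=
    ⟨fun z i => z (.inl i), by fun_prop⟩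
  let R2 : C(Fin (m + 2) ⊕ Fin (m + 2) → YY k m, Fin (m + 2) → YY k m) :=
    ⟨fun z i => z (.inr i), by fun_prop⟩
  have e1 : Ψ.comp (R1.compStarAlgHom' ℂ ℂ) = Φ₀ := by
    refine hom_uniq fun i f => ?_
    rw [hΦ₀ i f]
    exact hΨ (.inl i) f
  have e2 : ∀ F, Φ₀ F = Ψ (F.comp R1) := fun F => by rw [← e1]; rfl
  intro ψ ψ' hψ
  have h3 := conj_eq Φ₀ (Ψ.comp (R2.compStarAlgHom' ℂ ℂ)) (ContinuousMap.id _)
    (U := π e) (V := π e⁻¹) (by rw [← map_mul, mul_inv_cancel, map_one])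
    (by rw [← map_mul, inv_mul_cancel, map_one]) (by
      intro i f
      rw [hΦ₀ i f, pE]
      exact (hΨ (.inr i) f).symm) (ext isOpenEmbedding_cmap ψ)
  rw [Qc, Qg_apply, Qg_apply, h3, e2]
  change Ψ ((ext isOpenEmbedding_cmap ψ).comp R2) = _
  refine phi_congr_ae Ψ fun ξ => ?_
  have h4 : ∀ᵐ z ∂(ms Ψ ξ), R1 z ∈ range (cmap k m) := by
    refine ae_restr Ψ R1 ξ (p := fun y => y ∈ range (cmap k m)) ?_
    rw [e1]
    exact hr ξ
  have h5 : ∀ᵐ z ∂(ms Ψ ξ), ∀ i, ∀ g, (∀ i', z (.inl i') = cmap k m g i') →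
      z (.inr i) = (g * x) • src k m i := by
    rw [ae_all_iff]
    intro i
    refine ae_of_pos isOpenEmbedding_cmap hr (r := Sum.inl) (Ψ := Ψ) (j := Sum.inr i)
      (φ := E (α e • src k m i)) (fun i' f => ?_) (fun f => hΨ (.inr i) f)
      ((cont_pt _).comp (continuous_mul_const x)) (hp i) ξ
    rw [hΦ₀ i' f]
    exact hΨ (.inl i') f
  filter_upwards [h4, h5] with z hz hz2
  obtain ⟨g, hg⟩ := hz
  have h6 : R2 z = cmap k m (g * x) := by
    funext i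
    rw [cmap_apply]
    exact hz2 i g fun i' => (congrFun hg i').symm
  rw [ContinuousMap.comp_apply, ContinuousMap.comp_apply, h6, ← hg, ext_apply, ext_apply, hψ]

end op

end Vale.Agent.P092.H375.Cls
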