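import Vale.Agent.P092.H375.ClsC
import Vale.Agent.P092.H375.ClsD
import Vale.Agent.P092.SD.Defs

/-!
P092 (helper375), D-ULTRA [U8]: matroids in the plane, and the matroids of a commuting quantum
plane.
-/

set_option linter.all false

namespace Vale.Agent.P092.H375.Cls

open Vale.Agent.P092.H820 Vale.Agent.P092.H466
open TopologicalSpace Set Matrix Module MeasureTheory Filter
open scoped LinearAlgebra.Projectivization Matrix InnerProductSpace

section plane

variable {k : Type} [NontriviallyNormedField k]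

/-- the functional of a line -/
def fw (w : Fin 3 → k) : (Fin 3 → k) →ₗ[k] k where
  toFun v := v ⬝ᵥ w
  map_add' v v' := add_dotProduct v v' w
  map_smul' c v := by rw [smul_dotProduct]; rfl

theorem fw_apply (w v : Fin 3 → k) : fw w v = v ⬝ᵥ w := rfl

theorem fw_ne {w : Fin 3 → k} (hw : w ≠ 0) : fw w ≠ 0 := by
  intro h
  apply hw
  funext i
  have := congrArg (fun f : (Fin 3 → k) →ₗ[k] k => f (Pi.single i 1)) h
  simpa [fw_apply] using this

theorem finrank_hp {w : Fin 3 → k} (hw : w ≠ 0) : finrank k (LinearMap.ker (fw w)) = 2 := by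
  have h := Module.Dual.finrank_ker_add_one_of_ne_zero (f := fw w) (fw_ne hw)
  have h2 : finrank k (Fin 3 → k) = 3 := by simp
  rw [h2] at h
  exact Nat.add_right_cancel (m := 1) (h.trans rfl)

theorem li_of_ne {v v' : Fin 3 → k} (hv : v ≠ 0) (hv' : v' ≠ 0)
    (h : pj k (Fin 3) ⟨v, hv⟩ ≠ pj k (Fin 3) ⟨v', hv'⟩) : LinearIndependent k ![v, v'] := by
  rw [LinearIndependent.pair_iff]
  intro s t e
  by_cases hs : s = 0
  · subst hs
    rw [zero_smul, zero_add] at e
    exact ⟨rfl, (smul_eq_zero.1 e).resolve_right hv'⟩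
  · exfalso
    apply h
    rw [pj_eq]
    have ht : -t / s ≠ 0 := by
      intro h0
      have ht0 : t = 0 := by
        rcases div_eq_zero_iff.1 h0 with h1 | h1
        · exact neg_eq_zero.1 h1
        · exact absurd h1 hs
      rw [ht0, zero_smul, add_zero] at e
      exact hs ((smul_eq_zero.1 e).resolve_right hv)
    refine ⟨Units.mk0 _ ht, ?_⟩
    change (-t / s) • v' = v
    have h1 : s • v = -(t • v') := eq_neg_of_add_eq_zero_left e
    rw [div_eq_inv_mul, mul_smul, neg_smul, ← h1, smul_smul, inv_mul_cancel₀ hs, one_smul]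

variable {ι : Type*} {z : ι → ℙ k (Fin 3 → k)} {A : Finset ι}

theorem rk_one {i : ι} (hi : i ∈ A) (h : ∀ j ∈ A, z j = z i) : rk z A = 1 := by
  have e : (⨆ j ∈ A, (z j).submodule : Submodule k (Fin 3 → k)) = (z i).submodule := by
    apply le_antisymm
    · exact iSup₂_le fun j hj => by rw [h j hj]
    · exact le_iSup₂_of_le i hi le_rfl
  rw [rk, e]
  exact Projectivization.finrank_submodule _

theorem rk_two {i j : ι} (hi : i ∈ A) (hj : j ∈ A) (hne : z i ≠ z j) {l : ℙ k (Fin 3 → k)}
    (h : ∀ x ∈ A, (z x, l) ∈ inc3) : rk z A = 2 := by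
  classical
  obtain ⟨u, hu⟩ := exists_rep z
  obtain ⟨w, rfl⟩ := pj_surj l
  rw [hu.rk]
  have hle : Submodule.span k (u '' (A : Set ι)) ≤ LinearMap.ker (fw w.1) := by
    rw [Submodule.span_le]
    rintro _ ⟨x, hx, rfl⟩
    obtain ⟨h1, h2⟩ := hu x
    have h3 := h x hx
    rw [h2] at h3
    exact h3
  have h1 : finrank k (Submodule.span k (u '' (A : Set ι))) ≤ 2 :=
    (Submodule.finrank_mono hle).trans (finrank_hp w.2).le
  have hli : LinearIndependent k ![u i, u j] := by
    obtain ⟨h1, h2⟩ := hu i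
    obtain ⟨h3, h4⟩ := hu j
    exact li_of_ne h1 h3 (by rw [← h2, ← h4]; exact hne)
  have h2 : finrank k (Submodule.span k (Set.range ![u i, u j])) = 2 := by
    rw [finrank_span_eq_card hli]; rfl
  have h3 : Submodule.span k (Set.range ![u i, u j]) ≤ Submodule.span k (u '' (A : Set ι)) := by
    refine Submodule.span_mono ?_
    rintro _ ⟨x, rfl⟩
    fin_cases x
    · exact ⟨i, hi, rfl⟩
    · exact ⟨j, hj, rfl⟩
  have h4 := Submodule.finrank_mono h3
  omega

theorem rk_three {i j x : ι} (hi : i ∈ A) (hj : j ∈ A) (hx : x ∈ A) (hne : z i ≠ z j)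
    {l : ℙ k (Fin 3 → k)} (hil : (z i, l) ∈ inc3) (hjl : (z j, l) ∈ inc3)
    (hxl : (z x, l) ∉ inc3) : rk z A = 3 := by
  classical
  obtain ⟨u, hu⟩ := exists_rep z
  obtain ⟨w, rfl⟩ := pj_surj l
  rw [hu.rk]
  have hli : LinearIndependent k ![u i, u j] := by
    obtain ⟨h1, h2⟩ := hu i
    obtain ⟨h3, h4⟩ := hu j
    exact li_of_ne h1 h3 (by rw [← h2, ← h4]; exact hne)
  have h2 : finrank k (Submodule.span k (Set.range ![u i, u j])) = 2 := by
    rw [finrank_span_eq_card hli]; rfl
  have h3 : Submodule.span k (Set.range ![u i, u j]) ≤ LinearMap.ker (fw w.1) := by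
    rw [Submodule.span_le]
    rintro _ ⟨y, rfl⟩
    fin_cases y
    · obtain ⟨h1, h2⟩ := hu i
      rw [h2] at hil
      exact hil
    · obtain ⟨h1, h2⟩ := hu j
      rw [h2] at hjl
      exact hjl
  have h4 : Submodule.span k (Set.range ![u i, u j]) = LinearMap.ker (fw w.1) :=
    Submodule.eq_of_le_of_finrank_eq h3 (h2.trans (finrank_hp w.2).symm)
  have h5 : LinearMap.ker (fw w.1) < Submodule.span k (u '' (A : Set ι)) := by
    refine lt_of_le_of_ne ?_ ?_
    · rw [← h4]
      refine Submodule.span_mono ?_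
      rintro _ ⟨y, rfl⟩
      fin_cases y
      · exact ⟨i, hi, rfl⟩
      · exact ⟨j, hj, rfl⟩
    · intro e
      have h6 : u x ∈ LinearMap.ker (fw w.1) := by
        rw [e]
        exact Submodule.subset_span ⟨x, hx, rfl⟩
      obtain ⟨h1, h2⟩ := hu x
      rw [h2] at hxl
      exact hxl h6
  have h6 := Submodule.finrank_lt_finrank_of_lt h5
  rw [finrank_hp w.2] at h6
  have h7 : finrank k (Submodule.span k (u '' (A : Set ι))) ≤ 3 := by
    have := Submodule.finrank_le (Submodule.span k (u '' (A : Set ι)))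
    simpa using this
  omega

/-- the line through two points -/
theorem exists_ln {x y : ℙ k (Fin 3 → k)} (h : x ≠ y) :
    ∃ l : ℙ k (Fin 3 → k), (x, l) ∈ inc3 ∧ (y, l) ∈ inc3 := by
  classical
  exact ⟨Projectivization.cross x y, Projectivization.orthogonal_cross_left h,
    Projectivization.orthogonal_cross_right h⟩

end plane

end Vale.Agent.P092.H375.Cls
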