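import Vale.Agent.P092.H375.ClsU1
import Vale.Agent.P092.H171.Zo

/-!
P092 (helper375), D-ULTRA [U8]: a commuting quantum plane preserves matroids.
-/

set_option linter.all false

namespace Vale.Agent.P092.H375.Cls

open Vale.Agent.P092.H820 Vale.Agent.P092.H466
open Vale.Agent.P092.H171 (co hom_uniq ms_restr exists_joint ae_ne ae_inc)
open Vale.Agent.P092.SD (Supp NInc CP PP)
open TopologicalSpace Set Matrix Module MeasureTheory Filter
open scoped LinearAlgebra.Projectivization Matrix InnerProductSpace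

section mp

variable {k : Type} [NontriviallyNormedField k] {ι : Type}

/-- collinear -/
def Col (z : ι → ℙ k (Fin 3 → k)) (i j x : ι) : Prop :=
  ∃ l, (z i, l) ∈ inc3 (k := k) ∧ (z j, l) ∈ inc3 (k := k) ∧ (z x, l) ∈ inc3 (k := k)

/-- same coincidences and same collinearities -/
structure Mp (a z : ι → ℙ k (Fin 3 → k)) : Prop where
  eq : ∀ i j, z i = z j ↔ a i = a j
  col : ∀ i j x, a i ≠ a j → (Col z i j x ↔ Col a i j x)

theorem Mp.mt {a z : ι → ℙ k (Fin 3 → k)} (h : Mp a z) : Mt a z := by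
  classical
  intro A
  rcases A.eq_empty_or_nonempty with rfl | ⟨i, hi⟩
  · have e : ∀ y : ι → ℙ k (Fin 3 → k), rk y (∅ : Finset ι) = 0 := by
      intro y
      simp [rk]
    rw [e, e]
  by_cases h1 : ∀ j ∈ A, a j = a i
  · rw [rk_one hi h1, rk_one hi fun j hj => (h.eq j i).2 (h1 j hj)]
  push Not at h1
  obtain ⟨j, hj, hji⟩ := h1
  have hzji : z j ≠ z i := fun e => hji ((h.eq j i).1 e)
  obtain ⟨l, hl1, hl2⟩ := exists_ln hji
  obtain ⟨m, hm1, hm2⟩ := exists_ln hzji
  -- collinear with `i, j` means on the line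
  have ha : ∀ x, Col a j i x ↔ (a x, l) ∈ inc3 (k := k) := by
    intro x
    constructor
    · rintro ⟨l', h1, h2, h3⟩
      have := inc3_uniq (a j) (a i) l' l hji h1 h2 hl1 hl2
      rw [← this]; exact h3
    · intro h3
      exact ⟨l, hl1, hl2, h3⟩
  have hz : ∀ x, Col z j i x ↔ (z x, m) ∈ inc3 (k := k) := by
    intro x
    constructor
    · rintro ⟨l', h1, h2, h3⟩
      have := inc3_uniq (z j) (z i) l' m hzji h1 h2 hm1 hm2
      rw [← this]; exact h3
    · intro h3
      exact ⟨m, hm1, hm2, h3⟩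
  by_cases h2 : ∀ x ∈ A, (a x, l) ∈ inc3 (k := k)
  · rw [rk_two hj hi hji h2, rk_two hj hi hzji (l := m) fun x hx => ?_]
    rw [← hz, h.col j i x hji, ha]
    exact h2 x hx
  · push Not at h2
    obtain ⟨x, hx, hxl⟩ := h2
    rw [rk_three hj hi hx hji hl1 hl2 hxl, rk_three hj hi hx hzji hm1 hm2]
    rw [← hz, h.col j i x hji, ha]
    exact hxl

variable [ProperSpace k]

theorem isClosed_col (i j x : ι) : IsClosed {z : ι → ℙ k (Fin 3 → k) | Col z i j x} := by
  have e : {z : ι → ℙ k (Fin 3 → k) | Col z i j x} = Prod.fst ''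
      {p : (ι → ℙ k (Fin 3 → k)) × ℙ k (Fin 3 → k) | (p.1 i, p.2) ∈ inc3 (k := k) ∧
        (p.1 j, p.2) ∈ inc3 (k := k) ∧ (p.1 x, p.2) ∈ inc3 (k := k)} := by
    ext z
    constructor
    · rintro ⟨l, h⟩
      exact ⟨(z, l), h, rfl⟩
    · rintro ⟨⟨z', l⟩, h, rfl⟩
      exact ⟨l, h⟩
  rw [e]
  refine isClosedMap_fst_of_compactSpace _ ?_
  have c : ∀ y : ι, IsClosed {p : (ι → ℙ k (Fin 3 → k)) × ℙ k (Fin 3 → k) |
      (p.1 y, p.2) ∈ inc3 (k := k)} := fun y =>
    inc3_closed.preimage (((continuous_apply y).comp continuous_fst).prodMk continuous_snd)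
  exact (c i).inter ((c j).inter (c x))

theorem measurableSet_iff {X : Type*} [MeasurableSpace X] {S : Set X} (hS : MeasurableSet S)
    (c : Prop) : MeasurableSet {x | x ∈ S ↔ c} := by
  by_cases hc : c
  · simpa [hc] using hS
  · have : {x | x ∈ S ↔ c} = Sᶜ := by
      ext x
      simp [hc]
    rw [this]
    exact hS.compl

theorem measurableSet_mp [Fintype ι] (a : ι → ℙ k (Fin 3 → k)) :
    MeasurableSet {z : ι → ℙ k (Fin 3 → k) | Mp a z} := by
  have e : {z : ι → ℙ k (Fin 3 → k) | Mp a z} =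
      (⋂ i, ⋂ j, {z | z ∈ {z : ι → ℙ k (Fin 3 → k) | z i = z j} ↔ a i = a j}) ∩
      ⋂ i, ⋂ j, ⋂ x, {z | a i ≠ a j → (z ∈ {z : ι → ℙ k (Fin 3 → k) | Col z i j x} ↔
        Col a i j x)} := by
    ext z
    simp only [mem_setOf_eq, mem_inter_iff, mem_iInter]
    exact ⟨fun h => ⟨h.eq, h.col⟩, fun h => ⟨h.1, h.2⟩⟩
  rw [e]
  refine MeasurableSet.inter ?_ ?_
  · refine MeasurableSet.iInter fun i => MeasurableSet.iInter fun j => ?_
    refine measurableSet_iff ?_ _
    exact (isClosed_eq (continuous_apply i) (continuous_apply j)).measurableSet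
  · refine MeasurableSet.iInter fun i => MeasurableSet.iInter fun j =>
      MeasurableSet.iInter fun x => ?_
    by_cases h : a i ≠ a j
    · simp only [h, ne_eq, not_false_eq_true, true_imp_iff]
      exact measurableSet_iff (isClosed_col i j x).measurableSet _
    · simp [h]

end mp

section qp

variable {k : Type} [NontriviallyNormedField k] [ProperSpace k] {K : Type}
  [NormedAddCommGroup K] [InnerProductSpace ℂ K] [CompleteSpace K]
  {E F : PP k → (CP k →⋆ₐ[ℂ] (K →L[ℂ] K))}

/-- **a commuting quantum plane preserves matroids** -/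
theorem mt_of_plane (hinc : ∀ a l, (a, l) ∈ inc3 (k := k) → Supp (E a) (F l))
    (agrE : ∀ a b, a ≠ b → ∀ ξ, (∀ f, E a f ξ = E b f ξ) → ξ = 0)
    (agrF : ∀ a b, a ≠ b → ∀ ξ, (∀ f, F a f ξ = F b f ξ) → ξ = 0)
    (cEE : ∀ a b f g, Commute (E a f) (E b g)) (cEF : ∀ a l f h, Commute (E a f) (F l h))
    (cFF : ∀ l l' f g, Commute (F l f) (F l' g)) {ι : Type} [Fintype ι] (a : ι → PP k)
    (Φ : C(ι → PP k, ℂ) →⋆ₐ[ℂ] (K →L[ℂ] K)) (hΦ : ∀ i f, Φ (co i f) = E (a i) f) (ξ : K) :
    ∀ᵐ z ∂(ms Φ ξ), Mt a z := by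
  classical
  -- the lines
  have hL : ∀ i j, ∃ l : PP k, a i ≠ a j → (a i, l) ∈ inc3 (k := k) ∧ (a j, l) ∈ inc3 (k := k) := by
    intro i j
    by_cases h : a i ≠ a j
    · obtain ⟨l, h1, h2⟩ := exists_ln h
      exact ⟨l, fun _ => ⟨h1, h2⟩⟩
    · exact ⟨a i, fun h' => absurd h' h⟩
  choose L hL using hL
  let lab : ι ⊕ ι × ι → (CP k →⋆ₐ[ℂ] (K →L[ℂ] K)) :=
    Sum.elim (fun i => E (a i)) (fun p => F (L p.1 p.2))
  obtain ⟨Ψ, hΨ⟩ := exists_joint lab (by
    rintro (i | p) (j | p') f g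
    · exact cEE _ _ f g
    · exact cEF _ _ f g
    · exact (cEF _ _ g f).symm
    · exact cFF _ _ f g)
  let R : C(ι ⊕ ι × ι → PP k, ι → PP k) := ⟨fun z i => z (.inl i), by fun_prop⟩
  have e1 : Ψ.comp (R.compStarAlgHom' ℂ ℂ) = Φ := by
    refine hom_uniq fun i f => ?_
    rw [hΦ i f]
    exact hΨ (.inl i) f
  have hmp : ∀ᵐ z ∂(ms Φ ξ), Mp a z := by
    rw [← e1, ms_restr]
    refine (ae_map_iff R.continuous.measurable.aemeasurable (measurableSet_mp a)).2 ?_
    have c1 : ∀ᵐ z ∂(ms Ψ ξ), ∀ i j, a i = a j → z (.inl i) = z (.inl j) := by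
      rw [ae_all_iff]; intro i
      rw [ae_all_iff]; intro j
      by_cases h : a i = a j
      · have := ae_inc (Φ := Ψ) (φ := lab) hΨ (i := .inl i) (j := .inl j)
          (I := {p : PP k × PP k | p.1 = p.2}) (isClosed_eq continuous_fst continuous_snd) (by
            intro u v huv
            change E (a i) u * E (a j) v = 0
            rw [h, ← map_mul]
            have : u * v = 0 := by
              ext x
              by_contra hx
              have hx' : u x * v x ≠ 0 := hx
              exact huv x (subset_tsupport _ (left_ne_zero_of_mul hx')) x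
                (subset_tsupport _ (right_ne_zero_of_mul hx')) rfl
            rw [this, map_zero]) ξ
        filter_upwards [this] with z hz _
        exact hz
      · exact Eventually.of_forall fun z h' => absurd h' h
    have c2 : ∀ᵐ z ∂(ms Ψ ξ), ∀ i j, a i ≠ a j → z (.inl i) ≠ z (.inl j) := by
      rw [ae_all_iff]; intro i
      rw [ae_all_iff]; intro j
      by_cases h : a i = a j
      · exact Eventually.of_forall fun z h' => absurd h h'
      · have := ae_ne (Φ := Ψ) (φ := lab) hΨ (i := .inl i) (j := .inl j)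
          (fun η hη => agrE (a i) (a j) h η hη) ξ
        filter_upwards [this] with z hz _
        exact hz
    have c3 : ∀ᵐ z ∂(ms Ψ ξ), ∀ x i j, (a x, L i j) ∈ inc3 (k := k) →
        (z (.inl x), z (.inr (i, j))) ∈ inc3 (k := k) := by
      rw [ae_all_iff]; intro x
      rw [ae_all_iff]; intro i
      rw [ae_all_iff]; intro j
      by_cases h : (a x, L i j) ∈ inc3 (k := k)
      · have := ae_inc (Φ := Ψ) (φ := lab) hΨ (i := .inl x) (j := .inr (i, j))
          (I := inc3 (k := k)) inc3_closed (fun u v huv => hinc _ _ h u v huv) ξ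
        filter_upwards [this] with z hz _
        exact hz
      · exact Eventually.of_forall fun z h' => absurd h' h
    have c4 : ∀ᵐ z ∂(ms Ψ ξ), ∀ p p' : ι × ι, L p.1 p.2 ≠ L p'.1 p'.2 →
        z (.inr p) ≠ z (.inr p') := by
      rw [ae_all_iff]; intro p
      rw [ae_all_iff]; intro p'
      by_cases h : L p.1 p.2 = L p'.1 p'.2
      · exact Eventually.of_forall fun z h' => absurd h h'
      · have := ae_ne (Φ := Ψ) (φ := lab) hΨ (i := .inr p) (j := .inr p')
          (fun η hη => agrF _ _ h η hη) ξ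
        filter_upwards [this] with z hz _
        exact hz
    filter_upwards [c1, c2, c3, c4] with z h1 h2 h3 h4
    refine ⟨fun i j => ⟨fun h => ?_, h1 i j⟩, fun i j x hij => ⟨?_, ?_⟩⟩
    · by_contra hne
      exact h2 i j hne h
    · -- collinear in the target implies collinear in the source
      rintro ⟨l, g1, g2, g3⟩
      obtain ⟨l1, l2⟩ := hL i j hij
      refine ⟨L i j, l1, l2, ?_⟩
      by_contra hx
      have e : l = z (.inr (i, j)) := inc3_uniq (z (.inl i)) (z (.inl j)) _ _ (h2 i j hij) g1 g2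
        (h3 i i j l1) (h3 j i j l2)
      have hxi : a x ≠ a i := fun e' => hx (by rw [e']; exact l1)
      obtain ⟨m1, m2⟩ := hL x i hxi
      have hne : L x i ≠ L i j := fun e' => hx (by rw [← e']; exact m1)
      refine h4 (x, i) (i, j) hne ?_
      refine inc3_uniq (z (.inl x)) (z (.inl i)) _ _ (h2 x i hxi) (h3 x x i m1) (h3 i x i m2) ?_
        (h3 i i j l1)
      rw [← e]
      exact g3
    · rintro ⟨l, g1, g2, g3⟩
      obtain ⟨l1, l2⟩ := hL i j hij
      have e : l = L i j := inc3_uniq (a i) (a j) _ _ hij g1 g2 l1 l2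
      rw [e] at g3
      exact ⟨z (.inr (i, j)), h3 i i j l1, h3 j i j l2, h3 x i j g3⟩
  filter_upwards [hmp] with z hz
  exact hz.mt

end qp

end Vale.Agent.P092.H375.Cls
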