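import Mathlib

/-!
P092 (helper375), team C, theorem RES (board 4063), part (B4): the counting.  Two commuting group
actions on a tower of finite transitive sets; if the second group acts with small kernels then the
tower is a torsor and the second action is given by an open subgroup of the first group.
-/

set_option linter.all false

namespace Vale.Agent.P092.H375

open MulAction

variable {G H Y : Type*} [Group G] [Group H] [MulAction G Y] [MulAction H Y] [SMulCommClass G H Y]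

theorem relIndex_stab (L : Subgroup G) (x : Y) :
    (stabilizer G x).relIndex L = (orbit L x).ncard := by
  rw [← index_stabilizer L x, Subgroup.relIndex]
  congr 1

theorem relIndex_chain_le {U : ℕ → Subgroup G} (hU : Antitone U) {q a : ℕ}
    (h : ∀ m, a ≤ m → (U (m + 1)).relIndex (U m) ≤ q) (k : ℕ) :
    (U (a + k)).relIndex (U a) ≤ q ^ k := by
  induction k with
  | zero => simp
  | succ k ih =>
    have h1 := Subgroup.relIndex_mul_relIndex (U (a + (k + 1))) (U (a + k)) (U a)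
      (hU (by omega)) (hU (by omega))
    rw [← h1, pow_succ, mul_comm (q ^ k)]
    exact Nat.mul_le_mul (h (a + k) (by omega)) ih

theorem relIndex_chain_ge {U : ℕ → Subgroup G} (hU : Antitone U) {q a : ℕ}
    (h : ∀ m, a ≤ m → q ≤ (U (m + 1)).relIndex (U m)) (k : ℕ) :
    q ^ k ≤ (U (a + k)).relIndex (U a) := by
  induction k with
  | zero => simp
  | succ k ih =>
    have h1 := Subgroup.relIndex_mul_relIndex (U (a + (k + 1))) (U (a + k)) (U a)
      (hU (by omega)) (hU (by omega))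
    rw [← h1, pow_succ, mul_comm (q ^ k)]
    exact Nat.mul_le_mul (h (a + k) (by omega)) ih

theorem relIndex_chain_ne {U : ℕ → Subgroup G} {a : ℕ}
    (h : ∀ m, a ≤ m → (U (m + 1)).relIndex (U m) ≠ 0) (k : ℕ) :
    (U (a + k)).relIndex (U a) ≠ 0 := by
  induction k with
  | zero => simp
  | succ k ih => exact Subgroup.relIndex_ne_zero_trans (h (a + k) (by omega)) ih

/-- `q ^ (i + 1) ≤ c * s ^ i` for all `i` and `s ≤ q` force `s = q`. -/
theorem eq_of_growth {s q c : ℕ} (hs : 0 < s) (hsq : s ≤ q) (h : ∀ i : ℕ, q ^ (i + 1) ≤ c * s ^ i) :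
    s = q := by
  by_contra hne
  have hlt : s < q := lt_of_le_of_ne hsq hne
  have hs' : (0 : ℝ) < s := by exact_mod_cast hs
  have h1 : (1 : ℝ) < (q : ℝ) / s := by
    rw [one_lt_div hs']
    exact_mod_cast hlt
  obtain ⟨i, hi⟩ := pow_unbounded_of_one_lt (c : ℝ) h1
  have h2 : ((q : ℝ)) ^ (i + 1) ≤ c * (s : ℝ) ^ i := by exact_mod_cast h i
  have h3 : (c : ℝ) * (s : ℝ) ^ i < (q : ℝ) ^ i := by
    rw [div_pow, lt_div_iff₀ (by positivity)] at hi
    exact hi
  have hq1 : (1 : ℝ) ≤ q := by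
    have : 1 ≤ q := by omega
    exact_mod_cast this
  have h4 : (q : ℝ) ^ i ≤ (q : ℝ) ^ (i + 1) := pow_le_pow_right₀ hq1 (Nat.le_succ i)
  linarith

/-- The data of (B4): `x m` is the base point of the `m`-th finite set. -/
structure Tower (U : ℕ → Subgroup G) (W : ℕ → Subgroup H) (x : ℕ → Y) (a n m0 s q : ℕ) :
    Prop where
  aU : Antitone U
  aW : Antitone W
  Uq : ∀ m, a ≤ m → (U (m + 1)).relIndex (U m) ≤ q
  U0 : ∀ m, a ≤ m → (U (m + 1)).relIndex (U m) ≠ 0
  Wq : ∀ j, n ≤ j → q ≤ (W (j + 1)).relIndex (W j)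
  sq : s ≤ q
  s0 : 0 < s
  fix : ∀ m, a ≤ m → ∀ u ∈ U m, u • x m = x m
  card : ∀ m, a ≤ m → (orbit (U a) (x m)).ncard = s ^ (m - a)
  WX : ∀ m, a ≤ m → ∀ w ∈ W n, ∃ u ∈ U a, w • x m = u • x m
  dec : ∀ m, a ≤ m → ∀ u ∈ U a, ∀ w ∈ W n, w • x (m + 1) = u • x (m + 1) → w • x m = u • x m
  am0 : a ≤ m0
  free : ∀ i, ∀ w ∈ W n, w • x (m0 + i) = x (m0 + i) → w ∈ W (n + 1 + i)

variable {U : ℕ → Subgroup G} {W : ℕ → Subgroup H} {x : ℕ → Y} {a n m0 s q : ℕ}

theorem Tower.orbit_fin (h : Tower U W x a n m0 s q) {m : ℕ} (hm : a ≤ m) :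
    (orbit (U a) (x m)).Finite := by
  refine Set.finite_of_ncard_ne_zero ?_
  rw [h.card m hm]
  exact (pow_pos h.s0 _).ne'

theorem Tower.sub (h : Tower U W x a n m0 s q) {m : ℕ} (hm : a ≤ m) {M : ℕ} (hM : n ≤ M) :
    orbit (W M) (x m) ⊆ orbit (U a) (x m) := by
  rintro _ ⟨⟨w, hw⟩, rfl⟩
  obtain ⟨u, hu, h1⟩ := h.WX m hm w (h.aW hM hw)
  exact ⟨⟨u, hu⟩, h1.symm⟩

theorem Tower.orbit_ge (h : Tower U W x a n m0 s q) {M : ℕ} (hM : n ≤ M) (i : ℕ)
    (hi : M ≤ n + 1 + i) :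
    q ^ (n + 1 + i - M) ≤ (orbit (W M) (x (m0 + i))).ncard := by
  have h1 : (orbit (W M) (x (m0 + i))).Finite :=
    (h.orbit_fin (le_trans h.am0 (Nat.le_add_right _ _))).subset
      (h.sub (le_trans h.am0 (Nat.le_add_right _ _)) hM)
  have h2 : (stabilizer H (x (m0 + i)) ⊓ W M).relIndex (W M) = (orbit (W M) (x (m0 + i))).ncard := by
    rw [Subgroup.inf_relIndex_right, relIndex_stab]
  have h3 : stabilizer H (x (m0 + i)) ⊓ W M ≤ W (n + 1 + i) := by
    intro w hw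
    exact h.free i w (h.aW hM hw.2) hw.1
  have h4 : (stabilizer H (x (m0 + i)) ⊓ W M).relIndex (W M) ≠ 0 := by
    rw [h2]
    exact ((Set.ncard_pos h1).2 ⟨_, mem_orbit_self _⟩).ne'
  have h5 := Subgroup.relIndex_le_of_le_left h3 h4
  rw [h2] at h5
  have h6 := relIndex_chain_ge h.aW (a := M) (q := q) (fun m hm => h.Wq m (le_trans hM hm))
    (n + 1 + i - M)
  rw [Nat.add_sub_cancel' hi] at h6
  exact h6.trans h5

theorem Tower.s_eq (h : Tower U W x a n m0 s q) : s = q := by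
  refine eq_of_growth (c := s ^ (m0 - a)) h.s0 h.sq fun i => ?_
  have h1 := h.orbit_ge le_rfl i (by omega)
  have h2 : n + 1 + i - n = i + 1 := by omega
  rw [h2] at h1
  have ha : a ≤ m0 + i := le_trans h.am0 (Nat.le_add_right _ _)
  have h3 := Set.ncard_le_ncard (h.sub ha (le_refl n)) (h.orbit_fin ha)
  rw [h.card _ ha] at h3
  have h4 : m0 + i - a = (m0 - a) + i := by have := h.am0; omega
  rw [h4, pow_add] at h3
  exact h1.trans h3

/-- (T1) the tower is a torsor. -/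
theorem Tower.torsor (h : Tower U W x a n m0 s q) {m : ℕ} (hm : a ≤ m) {u : G} (hu : u ∈ U a)
    (hux : u • x m = x m) : u ∈ U m := by
  have h1 : (U m).relIndex (U a) ≤ q ^ (m - a) := by
    have := relIndex_chain_le h.aU (a := a) (q := q) h.Uq (m - a)
    rwa [Nat.add_sub_cancel' hm] at this
  have h0 : (U m).relIndex (U a) ≠ 0 := by
    have := relIndex_chain_ne (U := U) (a := a) h.U0 (m - a)
    rwa [Nat.add_sub_cancel' hm] at this
  have h2 : (stabilizer G (x m)).relIndex (U a) = q ^ (m - a) := by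
    rw [relIndex_stab, h.card m hm, h.s_eq]
  have h3 : U m ≤ stabilizer G (x m) ⊓ U a := fun v hv => ⟨h.fix m hm v hv, h.aU hm hv⟩
  have h4 := Subgroup.relIndex_mul_relIndex (U m) (stabilizer G (x m) ⊓ U a) (U a) h3 inf_le_right
  rw [Subgroup.inf_relIndex_right, h2] at h4
  have hq : 0 < q := lt_of_lt_of_le h.s0 h.sq
  have h5 : (U m).relIndex (stabilizer G (x m) ⊓ U a) = 1 := by
    have hp : 0 < q ^ (m - a) := pow_pos hq _
    have h6 : (U m).relIndex (stabilizer G (x m) ⊓ U a) * q ^ (m - a) ≤ 1 * q ^ (m - a) := by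
      rw [h4, one_mul]; exact h1
    have h7 : (U m).relIndex (stabilizer G (x m) ⊓ U a) ≤ 1 := Nat.le_of_mul_le_mul_right h6 hp
    have h8 : (U m).relIndex (stabilizer G (x m) ⊓ U a) ≠ 0 := by
      intro h9
      rw [h9, zero_mul] at h4
      exact h0 h4.symm
    omega
  rw [Subgroup.relIndex_eq_one] at h5
  exact h5 ⟨hux, hu⟩

/-- the subgroup of `U a` which is induced by `W M` at level `m` -/
def Th (U : ℕ → Subgroup G) (W : ℕ → Subgroup H) (x : ℕ → Y) (a M m : ℕ) : Subgroup G where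
  carrier := {u | u ∈ U a ∧ ∃ w ∈ W M, w • x m = u • x m}
  mul_mem' := by
    rintro u v ⟨hu, w, hw, h1⟩ ⟨hv, w', hw', h2⟩
    refine ⟨mul_mem hu hv, w' * w, mul_mem hw' hw, ?_⟩
    rw [mul_smul, mul_smul, h1, ← smul_comm u w', h2]
  one_mem' := ⟨one_mem _, 1, one_mem _, by rw [one_smul, one_smul]⟩
  inv_mem' := by
    rintro u ⟨hu, w, hw, h1⟩
    refine ⟨inv_mem hu, w⁻¹, inv_mem hw, ?_⟩
    rw [inv_smul_eq_iff, ← smul_comm u⁻¹ w, h1, inv_smul_smul]

theorem Tower.Th_anti (h : Tower U W x a n m0 s q) {M : ℕ} (hM : n ≤ M) {m m' : ℕ} (hm : a ≤ m)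
    (hmm : m ≤ m') : Th U W x a M m' ≤ Th U W x a M m := by
  induction m', hmm using Nat.le_induction with
  | base => exact le_rfl
  | succ m' hm' ih =>
    refine le_trans ?_ ih
    rintro u ⟨hu, w, hw, h1⟩
    exact ⟨hu, w, hw, h.dec m' (hm.trans hm') u hu w (h.aW hM hw) h1⟩

theorem Tower.U_le_Th (h : Tower U W x a n m0 s q) {M m : ℕ} (hm : a ≤ m) :
    U m ≤ Th U W x a M m := fun u hu =>
  ⟨h.aU hm hu, 1, one_mem _, by rw [one_smul, h.fix m hm u hu]⟩

theorem Tower.Th_index (h : Tower U W x a n m0 s q) {M : ℕ} (hM : n ≤ M) (i : ℕ)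
    (hi : M ≤ n + 1 + i) :
    (Th U W x a M (m0 + i)).relIndex (U a) * q ^ (n + 1 + i - M) ≤ q ^ (m0 + i - a) := by
  have ha : a ≤ m0 + i := le_trans h.am0 (Nat.le_add_right _ _)
  set S := stabilizer G (x (m0 + i)) ⊓ U a with hS
  have h1 : S ≤ Th U W x a M (m0 + i) := fun u hu =>
    ⟨hu.2, 1, one_mem _, by rw [one_smul]; exact (show u • x (m0 + i) = x (m0 + i) from hu.1).symm⟩
  have h2 : Th U W x a M (m0 + i) ≤ U a := fun u hu => hu.1
  have h3 := Subgroup.relIndex_mul_relIndex S (Th U W x a M (m0 + i)) (U a) h1 h2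
  have h4 : S.relIndex (U a) = q ^ (m0 + i - a) := by
    rw [hS, Subgroup.inf_relIndex_right, relIndex_stab, h.card _ ha, h.s_eq]
  have h5 : S.relIndex (Th U W x a M (m0 + i)) =
      (orbit (Th U W x a M (m0 + i)) (x (m0 + i))).ncard := by
    have h6 : S ⊓ Th U W x a M (m0 + i) =
        stabilizer G (x (m0 + i)) ⊓ Th U W x a M (m0 + i) := by
      rw [hS, inf_assoc, inf_eq_right.2 h2]
    rw [← Subgroup.inf_relIndex_right, h6, Subgroup.inf_relIndex_right, relIndex_stab]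
  have h7 : orbit (W M) (x (m0 + i)) ⊆ orbit (Th U W x a M (m0 + i)) (x (m0 + i)) := by
    rintro _ ⟨⟨w, hw⟩, rfl⟩
    obtain ⟨u, hu, h8⟩ := h.WX _ ha w (h.aW hM hw)
    exact ⟨⟨u, hu, w, hw, h8⟩, h8.symm⟩
  have h8 : (orbit (Th U W x a M (m0 + i)) (x (m0 + i))).Finite := by
    refine (h.orbit_fin ha).subset ?_
    rintro _ ⟨⟨u, hu⟩, rfl⟩
    exact ⟨⟨u, hu.1⟩, rfl⟩
  have h9 := (h.orbit_ge hM i hi).trans (Set.ncard_le_ncard h7 h8)
  rw [h4, h5, mul_comm] at h3
  rw [← h3]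
  exact Nat.mul_le_mul_left _ h9

/-- (T3) an open subgroup of `U a` is induced by `W M`, at all levels. -/
theorem Tower.open_image (h : Tower U W x a n m0 s q) {M : ℕ} (hM : n ≤ M) :
    ∃ r, a ≤ r ∧ ∀ m, r ≤ m → ∀ u ∈ U r, ∃ w ∈ W M, w • x m = u • x m := by
  have hq : 0 < q := lt_of_lt_of_le h.s0 h.sq
  -- the index is bounded
  have h1 : ∀ i, M ≤ n + 1 + i → (Th U W x a M (m0 + i)).relIndex (U a) ≤ q ^ (m0 + M) := by
    intro i hi
    have h2 := h.Th_index hM i hi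
    have h3 : q ^ (m0 + i - a) ≤ q ^ (m0 + M) * q ^ (n + 1 + i - M) := by
      rw [← pow_add]
      exact Nat.pow_le_pow_right hq (by omega)
    exact Nat.le_of_mul_le_mul_right (h2.trans h3) (pow_pos hq _)
  have h0 : ∀ m, a ≤ m → (Th U W x a M m).relIndex (U a) ≠ 0 := by
    intro m hm h2
    have h3 : (U m).relIndex (U a) ≠ 0 := by
      have := relIndex_chain_ne (U := U) (a := a) h.U0 (m - a)
      rwa [Nat.add_sub_cancel' hm] at this
    exact h3 (Subgroup.relIndex_eq_zero_of_le_left (h.U_le_Th hm) h2)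
  -- take the largest index
  set f : ℕ → ℕ := fun i => (Th U W x a M (m0 + M + i)).relIndex (U a) with hf
  have hb : ∀ i, f i ≤ q ^ (m0 + M) := by
    intro i
    have := h1 (M + i) (by omega)
    rwa [← add_assoc] at this
  obtain ⟨i0, hi0⟩ : ∃ i0, ∀ i, f i ≤ f i0 := by
    have hfin : (Set.range f).Finite := (Set.finite_Iic (q ^ (m0 + M))).subset (by
      rintro _ ⟨i, rfl⟩; exact hb i)
    obtain ⟨_, ⟨i0, rfl⟩, h2⟩ := Set.exists_max_image (Set.range f) id hfin ⟨_, 0, rfl⟩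
    exact ⟨i0, fun i => h2 _ ⟨i, rfl⟩⟩
  have ham := h.am0
  refine ⟨m0 + M + i0, by omega, fun m hm u hu => ?_⟩
  have h2 : Th U W x a M (m0 + M + i0) ≤ Th U W x a M m := by
    rw [← Subgroup.relIndex_eq_one]
    have h3 := Subgroup.relIndex_mul_relIndex (Th U W x a M m) (Th U W x a M (m0 + M + i0)) (U a)
      (h.Th_anti hM (by omega) hm) (fun u hu => hu.1)
    have h4 := hi0 (m - (m0 + M))
    simp only [hf] at h4
    rw [Nat.add_sub_cancel' (by omega : m0 + M ≤ m), ← h3] at h4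
    have h5 := h0 (m0 + M + i0) (by omega)
    have h6 := h0 m (by omega)
    have h7 : (Th U W x a M m).relIndex (Th U W x a M (m0 + M + i0)) ≤ 1 := by
      refine Nat.le_of_mul_le_mul_right ?_ (Nat.pos_of_ne_zero h5)
      rw [one_mul]
      exact h4
    have h8 : (Th U W x a M m).relIndex (Th U W x a M (m0 + M + i0)) ≠ 0 := by
      intro h9
      rw [h9, zero_mul] at h3
      exact h6 h3.symm
    omega
  obtain ⟨-, w, hw, h3⟩ := h2 (h.U_le_Th (by omega) hu)
  exact ⟨w, hw, h3⟩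

end Vale.Agent.P092.H375
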