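import Vale.Agent.P092.H375.ResB1
import Vale.Agent.P092.H175.TOneF

/-!
P092 (helper375), team C, theorem RES (board 4063), parts (B5) and (B6).
-/

set_option linter.all false

namespace Vale.Agent.P092.H375

open Vale.Agent.P092.H175.T1

variable {𝔸 G H : Type} [Ring 𝔸] [StarRing 𝔸] [Algebra ℂ 𝔸] [StarModule ℂ 𝔸] [Group G] [Group H]

/-- Data of (B4)-(B6): `f` is an optimal minimal projection of level `a`, `x` a decreasing sequence
of atoms below `f`, and case (a) of the dichotomy. -/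
structure RB (α : G →* (𝔸 →⋆ₐ[ℂ] 𝔸)) (β : H →* (𝔸 →⋆ₐ[ℂ] 𝔸)) (P : NonUnitalStarSubalgebra ℂ 𝔸)
    (U : ℕ → Subgroup G) (W : ℕ → Subgroup H) (p q a n m0 : ℕ) (f : 𝔸) (x : ℕ → 𝔸) : Prop where
  sys : Sys α P U p
  opt : Opt α P U a f
  cm : ∀ g h b, α g (β h b) = β h (α g b)
  aG : ∀ g, ∀ b ∈ P, α g b ∈ P
  aH : ∀ w ∈ W n, ∀ b ∈ P, β w b ∈ P
  x_min : ∀ m, a ≤ m → MinP α P U m (x m)
  x_f : ∀ m, a ≤ m → f * x m = x m
  x_x : ∀ m, a ≤ m → x m * x (m + 1) = x (m + 1)
  wf : ∀ w ∈ W n, β w f = f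
  aW : Antitone W
  Uq : ∀ m, a ≤ m → (U (m + 1)).relIndex (U m) ≤ q
  Wq : ∀ j, n ≤ j → q ≤ (W (j + 1)).relIndex (W j)
  am0 : a ≤ m0
  free : ∀ i, ∀ w ∈ W n, β w (x (m0 + i)) = x (m0 + i) → w ∈ W (n + 1 + i)
  cpl : ∀ c : ℕ → G, (∀ N, c N ∈ U a) → (∀ N, a ≤ N → (c N)⁻¹ * c (N + 1) ∈ U N) →
    ∃ u ∈ U a, ∀ N, a ≤ N → (c N)⁻¹ * u ∈ U N
  inter : ∀ g, (∀ m, a ≤ m → g ∈ U m) → g = 1
  conj : ∀ g N, ∃ r, ∀ k ∈ U r, g⁻¹ * k * g ∈ U N
  cent : ∀ r g, (∀ k ∈ U r, k * g = g * k) → g = 1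
  smU : ∀ y ∈ P, ∃ m, ∀ u ∈ U m, α u y = y
  smW : ∀ y ∈ P, ∃ M, ∀ w ∈ W M, β w y = y

variable {α : G →* (𝔸 →⋆ₐ[ℂ] 𝔸)} {β : H →* (𝔸 →⋆ₐ[ℂ] 𝔸)} {P : NonUnitalStarSubalgebra ℂ 𝔸}
    {U : ℕ → Subgroup G} {W : ℕ → Subgroup H} {p q a n m0 : ℕ} {f : 𝔸} {x : ℕ → 𝔸}

namespace RB

variable (h : RB α β P U W p q a n m0 f x)
include h

theorem f_sa : star f = f := h.opt.1.sa
theorem f_idem : f * f = f := h.opt.1.idem

theorem x_mem {m : ℕ} (hm : a ≤ m) : x m ∈ atoms α P U f m := ⟨h.x_min m hm, h.x_f m hm⟩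

theorem beta_inv (w : H) (b : 𝔸) : β w⁻¹ (β w b) = b := by
  rw [← alpha_mul, inv_mul_cancel, map_one]; rfl

theorem beta_Qn {m : ℕ} {w : H} (hw : w ∈ W n) {b : 𝔸} (hb : b ∈ Qn α P U m) :
    β w b ∈ Qn α P U m :=
  ⟨h.aH w hw b hb.1, fun k hk => by rw [h.cm, hb.2 k hk]⟩

/-- `W n` permutes the atoms. -/
theorem beta_atoms {m : ℕ} {w : H} (hw : w ∈ W n) {y : 𝔸} (hy : y ∈ atoms α P U f m) :
    β w y ∈ atoms α P U f m := by
  obtain ⟨hy, hfy⟩ := hy
  refine ⟨⟨h.beta_Qn hw hy.mem, by rw [← map_star, hy.sa], by rw [← map_mul, hy.idem],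
    fun h0 => hy.ne (by rw [← h.beta_inv w y, h0, map_zero]), fun b hb => ?_⟩, ?_⟩
  · have hw' : w⁻¹ ∈ W n := inv_mem hw
    have h1 : β w (β w⁻¹ b) = b := by
      rw [← alpha_mul, mul_inv_cancel, map_one]; rfl
    have h2 : β w⁻¹ b ∈ Cor α P U m y := by
      refine ⟨h.beta_Qn hw' hb.1, ?_, ?_⟩
      · have h3 := congrArg (β w⁻¹) hb.2.1
        rwa [map_mul, h.beta_inv] at h3
      · have h3 := congrArg (β w⁻¹) hb.2.2
        rwa [map_mul, h.beta_inv] at h3
    obtain ⟨c, hc⟩ := hy.scal _ h2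
    exact ⟨c, by rw [← h1, hc, map_smul]⟩
  · have h1 := congrArg (β w) hfy
    rwa [map_mul, h.wf w hw] at h1

/-- all elements of `fPf` commute -/
theorem fcomm {y z : 𝔸} (hy : y ∈ P) (hz : z ∈ P) (hfy : f * y = y) (hyf : y * f = y)
    (hfz : f * z = z) (hzf : z * f = z) : y * z = z * y := by
  obtain ⟨m1, h1⟩ := h.smU y hy
  obtain ⟨m2, h2⟩ := h.smU z hz
  refine comm_all h.sys h.opt (max m1 m2) y ⟨⟨hy, fun u hu => h1 u ?_⟩, hfy, hyf⟩ z
    ⟨⟨hz, fun u hu => h2 u ?_⟩, hfz, hzf⟩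
  · exact h.sys.chain.mono (le_max_left _ _) hu
  · exact h.sys.chain.mono (le_max_right _ _) hu

theorem cor_comm (m : ℕ) : ∀ y ∈ Cor α P U m f, ∀ z ∈ Cor α P U m f, y * z = z * y :=
  comm_all h.sys h.opt m

/-- an atom of a finer level below an atom of a coarser level -/
theorem dom {N M : ℕ} (hN : a ≤ N) (hNM : N ≤ M) {y y' t : 𝔸} (hy : y ∈ atoms α P U f N)
    (hy' : y' ∈ atoms α P U f M) (ht : t ≠ 0) (h1 : y * t = t) (h2 : y' * t = t) :
    y * y' = y' := by
  have hyC : y ∈ Cor α P U M f := Cor_mono h.sys.chain hNM (atoms_cor h.f_sa hy)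
  have hyC' : y' ∈ Cor α P U M f := atoms_cor h.f_sa hy'
  have hc := h.cor_comm M y hyC y' hyC'
  have h3 : y * y' ∈ Cor α P U M y' := by
    refine ⟨Qn_mul hyC.1 hyC'.1, ?_, ?_⟩
    · rw [hc, ← mul_assoc, hy'.1.idem]
    · rw [mul_assoc, hy'.1.idem]
  obtain ⟨c, hc1⟩ := hy'.1.scal _ h3
  have h4 : t = c • t := by
    conv_lhs => rw [← h1, ← h2, ← mul_assoc, hc1, smul_mul_assoc, h2]
  have h5 : c = 1 := by
    have h6 : (1 : ℂ) • t = c • t := by rw [one_smul]; exact h4
    exact (smul_left_injective ℂ ht h6).symm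
  rw [hc1, h5, one_smul]

theorem dom_eq {N : ℕ} (hN : a ≤ N) {y y' t : 𝔸} (hy : y ∈ atoms α P U f N)
    (hy' : y' ∈ atoms α P U f N) (ht : t ≠ 0) (h1 : y * t = t) (h2 : y' * t = t) : y = y' := by
  have h3 := h.dom hN le_rfl hy hy' ht h1 h2
  have h4 := h.dom hN le_rfl hy' hy ht h2 h1
  rw [← h4, h.cor_comm N _ (atoms_cor h.f_sa hy') _ (atoms_cor h.f_sa hy), h3]

theorem x_le {N M : ℕ} (hN : a ≤ N) (hNM : N ≤ M) : x N * x M = x M := by
  induction M, hNM using Nat.le_induction with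
  | base => exact (h.x_min N hN).idem
  | succ M hM ih => rw [← h.x_x M (hN.trans hM), ← mul_assoc, ih]

/-- the tower of (B4) -/
theorem tower_ab :
    (∀ m, a ≤ m → ∀ u ∈ U a, α u (x m) = x m → u ∈ U m) ∧
    (∀ M, n ≤ M → ∃ r, a ≤ r ∧ ∀ m, r ≤ m → ∀ u ∈ U r, ∃ w ∈ W M, β w (x m) = α u (x m)) := by
  classical
  letI iG : MulAction G 𝔸 :=
    { smul := fun g b => α g b
      one_smul := fun b => by change α 1 b = b; rw [map_one]; rfl
      mul_smul := fun g g' b => alpha_mul g g' b }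
  letI iH : MulAction H 𝔸 :=
    { smul := fun g b => β g b
      one_smul := fun b => by change β 1 b = b; rw [map_one]; rfl
      mul_smul := fun g g' b => alpha_mul g g' b }
  haveI : SMulCommClass G H 𝔸 := ⟨fun g k b => h.cm g k b⟩
  have horb : ∀ m, a ≤ m → MulAction.orbit (U a) (x m) = atoms α P U f m := by
    intro m hm
    ext y
    constructor
    · rintro ⟨⟨u, hu⟩, rfl⟩
      exact atoms_act h.sys h.opt.1 (h.x_mem hm) hu
    · intro hy
      obtain ⟨u, hu, h1⟩ := atoms_trans h.sys h.opt.1 hm (h.cor_comm m) (h.x_mem hm) hy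
      exact ⟨⟨u, hu⟩, h1⟩
  have hT : Tower U W x a n m0 (Sg α P U f a).ncard q := by
    refine ⟨fun i j hij => h.sys.chain.mono hij, h.aW, h.Uq, fun m _ => h.sys.chain.fin m, h.Wq,
      ?_, ?_, fun m hm u hu => (h.x_min m hm).mem.2 u hu, ?_, ?_, ?_, h.am0, h.free⟩
    · exact (Sg_card_le h.sys).trans (h.Uq a le_rfl)
    · have h1 := card_atoms h.sys h.opt (Nat.le_succ a)
      have h2 : (atoms α P U f (a + 1)).ncard ≠ 0 := by
        have h3 : (atoms α P U f (a + 1)).Finite :=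
          atoms_finite h.sys h.opt.1 (Nat.le_succ a) (h.cor_comm _)
        exact ((Set.ncard_pos h3).2 ⟨_, h.x_mem (Nat.le_succ a)⟩).ne'
      rw [h1] at h2
      by_contra h0
      have h3 : (Sg α P U f a).ncard = 0 := by omega
      rw [h3, (by omega : a.succ - a = 1), pow_one] at h2
      exact h2 rfl
    · intro m hm
      rw [horb m hm]
      exact card_atoms h.sys h.opt hm
    · intro m hm w hw
      obtain ⟨u, hu, h1⟩ := atoms_trans h.sys h.opt.1 hm (h.cor_comm m) (h.x_mem hm)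
        (h.beta_atoms hw (h.x_mem hm))
      exact ⟨u, hu, h1.symm⟩
    · intro m hm u hu w hw h1
      have h1' : β w (x (m + 1)) = α u (x (m + 1)) := h1
      change β w (x m) = α u (x m)
      refine h.dom_eq hm (h.beta_atoms hw (h.x_mem hm))
        (atoms_act h.sys h.opt.1 (h.x_mem hm) hu) (t := α u (x (m + 1)))
        (fun h0 => (h.x_min (m + 1) (by omega)).ne (alpha_inj h0)) ?_ ?_
      · rw [← h1', ← map_mul, h.x_x m hm]
      · rw [← map_mul, h.x_x m hm]
  exact ⟨fun m hm u hu h1 => hT.torsor hm hu h1, fun M hM => hT.open_image hM⟩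

/-- (B5) for a normalised element. -/
theorem b5_aux {g : G} {m : ℕ} (hm : a ≤ m) {v : 𝔸} (hv : v ∈ Qn α P U m) (hv0 : v ≠ 0)
    (hxv : x m * v = v) (hvF : v * α g f = v) : g ∈ U a := by
  classical
  obtain ⟨hT1, hT3⟩ := h.tower_ab
  have hxm := h.x_min m hm
  set F := α g f with hF
  have hFsa : star F = F := by rw [hF, ← map_star, h.f_sa]
  have hFv : F * star v = star v := by
    have h1 := congrArg star hvF
    rwa [star_mul, hFsa] at h1
  have hvx : star v * x m = star v := by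
    have h1 := congrArg star hxv
    rwa [star_mul, hxm.sa] at h1
  -- v v* is a multiple of x_m
  obtain ⟨c, hc⟩ := hxm.scal (v * star v) ⟨Qn_mul hv (Qn_star hv), by
    rw [← mul_assoc, hxv], by rw [mul_assoc, hvx]⟩
  have hc0 : c ≠ 0 := by
    rintro rfl
    have h1 := star_mul_self_ne h.sys (a := star v) (star_ne_zero.2 hv0)
    rw [star_star, hc, zero_smul] at h1
    exact h1 rfl
  have hvP : v ∈ P := hv.1
  -- the maps
  set φ : 𝔸 → 𝔸 := fun y => c⁻¹ • (star v * y * v) with hφ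
  have hφmul : ∀ y y', x m * y' = y' → φ y * φ y' = φ (y * y') := by
    intro y y' hy'
    simp only [hφ]
    rw [smul_mul_smul_comm]
    have h1 : star v * y * v * (star v * y' * v) = c • (star v * (y * y') * v) := by
      calc star v * y * v * (star v * y' * v) = star v * y * (v * star v) * y' * v := by
            simp only [mul_assoc]
        _ = c • (star v * (y * y') * v) := by
            rw [hc]
            simp only [mul_smul_comm, smul_mul_assoc, mul_assoc]
            rw [← mul_assoc (x m) y' v, hy']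
    rw [h1, smul_smul]
    congr 1
    field_simp
  -- t_N = translate of φ (x_N)
  set t : ℕ → 𝔸 := fun N => α g⁻¹ (φ (x N)) with ht
  have hgg : ∀ b, α g (α g⁻¹ b) = b := by
    intro b
    rw [← alpha_mul, mul_inv_cancel, map_one]; rfl
  have htg : ∀ N, α g (t N) = φ (x N) := fun N => hgg _
  have hFφ : ∀ y, F * φ y = φ y := by
    intro y
    simp only [hφ]
    rw [mul_smul_comm, ← mul_assoc, ← mul_assoc, hFv]
  have hφF : ∀ y, φ y * F = φ y := by
    intro y
    simp only [hφ]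
    rw [smul_mul_assoc, mul_assoc, hvF]
  have hft : ∀ N, f * t N = t N := by
    intro N
    have h1 := congrArg (α g⁻¹) (hFφ (x N))
    rw [map_mul, hF, alpha_inv] at h1
    exact h1
  have htf : ∀ N, t N * f = t N := by
    intro N
    have h1 := congrArg (α g⁻¹) (hφF (x N))
    rw [map_mul, hF, alpha_inv] at h1
    exact h1
  have hxP : ∀ N, m ≤ N → x N ∈ P := fun N hN => (h.x_min N (hm.trans hN)).mem.1
  have hφP : ∀ N, m ≤ N → φ (x N) ∈ P := fun N hN =>
    SMulMemClass.smul_mem _ (mul_mem (mul_mem (star_mem hvP) (hxP N hN)) hvP)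
  have htP : ∀ N, m ≤ N → t N ∈ P := fun N hN => h.aG _ _ (hφP N hN)
  have htt : ∀ N M, m ≤ N → N ≤ M → t N * t M = t M := by
    intro N M hN hNM
    simp only [ht]
    rw [← map_mul, hφmul _ _ (h.x_le hm (hN.trans hNM)), h.x_le (hm.trans hN) hNM]
  have ht0 : ∀ N, m ≤ N → t N ≠ 0 := by
    intro N hN h0
    have h1 : φ (x N) = 0 := by rw [← htg N, h0, map_zero]
    have h2 : v * φ (x N) * star v = c • x N := by
      simp only [hφ]
      calc v * (c⁻¹ • (star v * x N * v)) * star v = c⁻¹ • ((v * star v) * x N * (v * star v)) := by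
            simp only [mul_smul_comm, smul_mul_assoc, mul_assoc]
        _ = c • x N := by
            rw [hc]
            simp only [mul_smul_comm, smul_mul_assoc, smul_smul]
            have h3 : x N * x m = x N := by
              have h4 := congrArg star (h.x_le hm hN)
              rwa [star_mul, hxm.sa, (h.x_min N (hm.trans hN)).sa] at h4
            rw [h.x_le hm hN, h3]
            congr 1
            field_simp
    rw [h1, mul_zero, zero_mul] at h2
    exact (h.x_min N (hm.trans hN)).ne ((smul_eq_zero.1 h2.symm).resolve_left hc0)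
  -- elements of level `N` of the corner act on `t M` by scalars
  have hlam : ∀ N, ∃ r, m ≤ r ∧ ∀ y ∈ Cor α P U N f, ∃ l : ℂ, y * t r = l • t r := by
    intro N
    obtain ⟨r, hr⟩ := h.conj g N
    refine ⟨max r m, le_max_right _ _, fun y hy => ?_⟩
    set M := max r m with hM
    have hmM : m ≤ M := le_max_right _ _
    have hyP : y ∈ P := hy.1.1
    have hcomm : y * t M = t M * y :=
      h.fcomm hyP (htP M hmM) hy.2.1 hy.2.2 (hft M) (htf M)
    set b := α g y with hb
    have hbP : b ∈ P := h.aG _ _ hyP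
    have hbfix : ∀ k ∈ U M, α k b = b := by
      intro k hk
      have h1 : k * g = g * (g⁻¹ * k * g) := by group
      rw [hb, ← alpha_mul, h1, alpha_mul,
        hy.1.2 _ (hr k (h.sys.chain.mono (le_max_left _ _) hk))]
    have hvM : v ∈ Qn α P U M := Qn_mono h.sys.chain hmM hv
    have hxM := h.x_min M (hm.trans hmM)
    obtain ⟨l, hl⟩ := hxM.scal (x M * (v * b * star v) * x M) ⟨Qn_mul (Qn_mul hxM.mem
      (Qn_mul (Qn_mul hvM ⟨hbP, hbfix⟩) (Qn_star hvM))) hxM.mem, by
        rw [← mul_assoc, ← mul_assoc, hxM.idem], by rw [mul_assoc, hxM.idem]⟩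
    have h1 : φ (x M) * b * φ (x M) = (c⁻¹ * l) • φ (x M) := by
      simp only [hφ]
      calc c⁻¹ • (star v * x M * v) * b * c⁻¹ • (star v * x M * v)
          = (c⁻¹ * c⁻¹) • (star v * (x M * (v * b * star v) * x M) * v) := by
            simp only [mul_smul_comm, smul_mul_assoc, mul_assoc, smul_smul]
        _ = (c⁻¹ * l) • (c⁻¹ • (star v * x M * v)) := by
            rw [hl]
            simp only [mul_smul_comm, smul_mul_assoc, smul_smul]
            congr 1
            ring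
    have h2 : t M * y * t M = (c⁻¹ * l) • t M := by
      have h3 := congrArg (α g⁻¹) h1
      rw [map_mul, map_mul, hb, alpha_inv] at h3
      have h4 : (α g⁻¹) ((c⁻¹ * l) • φ (x M)) = (c⁻¹ * l) • t M := map_smul _ _ _
      rw [h4] at h3
      exact h3
    refine ⟨c⁻¹ * l, ?_⟩
    have h3 : t M * t M = t M := htt M M hmM le_rfl
    calc y * t M = y * (t M * t M) := by rw [h3]
      _ = t M * y * t M := by rw [← mul_assoc, hcomm]
      _ = _ := h2
  -- the atom above the point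
  have hatom : ∀ N, a ≤ N → ∃ y, y ∈ atoms α P U f N ∧ ∃ r, m ≤ r ∧ ∀ M, r ≤ M →
      y * t M = t M := by
    intro N hN
    obtain ⟨r, hmr, hr⟩ := hlam N
    obtain ⟨X, hX, -, hXs⟩ := exists_atoms h.sys h.opt.1 hN (h.cor_comm N)
    have h1 : ∃ y ∈ X, y * t r ≠ 0 := by
      by_contra hcon
      push Not at hcon
      have h2 : f * t r = 0 := by
        rw [← hXs, Finset.sum_mul]
        exact Finset.sum_eq_zero hcon
      rw [hft] at h2
      exact ht0 r hmr h2
    obtain ⟨y, hyX, hy0⟩ := h1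
    have hy := (hX y).1 hyX
    obtain ⟨l, hl⟩ := hr y (atoms_cor h.f_sa hy)
    have hl0 : l ≠ 0 := by
      rintro rfl
      rw [zero_smul] at hl
      exact hy0 hl
    have h2 : y * t r = t r := by
      have h3 : y * (y * t r) = y * t r := by rw [← mul_assoc, hy.1.idem]
      rw [hl, mul_smul_comm, hl] at h3
      have h4 : l • (l • t r) = l • ((1 : ℂ) • t r) := by rw [one_smul]; exact h3
      have h5 := smul_right_injective 𝔸 hl0 h4
      have h6 : l = 1 := smul_left_injective ℂ (ht0 r hmr) h5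
      rw [hl, h6, one_smul]
    refine ⟨y, hy, r, hmr, fun M hM => ?_⟩
    rw [← htt r M hmr hM, ← mul_assoc, h2]
  choose! y hy rr hmr hrr using hatom
  -- the elements c N
  have hcN : ∀ N, a ≤ N → ∃ u ∈ U a, α u (x N) = y N := fun N hN =>
    atoms_trans h.sys h.opt.1 hN (h.cor_comm N) (h.x_mem hN) (hy N hN)
  choose! cc hccU hccx using hcN
  set c' : ℕ → G := fun N => if a ≤ N then cc N else 1 with hc'
  have hc'e : ∀ N, a ≤ N → c' N = cc N := fun N hN => if_pos hN
  obtain ⟨u, huU, hu⟩ := h.cpl c' (fun N => by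
      by_cases hN : a ≤ N
      · rw [hc'e N hN]; exact hccU N hN
      · simp only [hc', if_neg hN]; exact one_mem _) (fun N hN => by
      rw [hc'e N hN, hc'e (N + 1) (by omega)]
      refine hT1 N hN _ (mul_mem (inv_mem (hccU N hN)) (hccU (N + 1) (by omega))) ?_
      rw [alpha_mul]
      have h1 : α (cc (N + 1)) (x N) = α (cc N) (x N) := by
        rw [hccx N hN]
        set M := max (rr N) (rr (N + 1)) with hM
        refine h.dom_eq hN (atoms_act h.sys h.opt.1 (h.x_mem hN) (hccU (N + 1) (by omega)))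
          (hy N hN) (t := y (N + 1)) (hy (N + 1) (by omega)).1.ne ?_ ?_
        · rw [← hccx (N + 1) (by omega), ← map_mul, h.x_x N hN]
        · exact h.dom hN (Nat.le_succ N) (hy N hN) (hy (N + 1) (by omega)) (t := t M)
            (ht0 M ((hmr N hN).trans (le_max_left _ _))) (hrr N hN M (le_max_left _ _))
            (hrr (N + 1) (by omega) M (le_max_right _ _))
      rw [h1, alpha_inv])
  have hux : ∀ N, a ≤ N → α u (x N) = y N := by
    intro N hN
    have h1 := hu N hN
    rw [hc'e N hN] at h1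
    have h2 : u = cc N * ((cc N)⁻¹ * u) := by group
    rw [h2, alpha_mul, (h.x_min N hN).mem.2 _ h1, hccx N hN]
  -- the final computation
  obtain ⟨M1, hM1⟩ := h.smW v hvP
  obtain ⟨r0, har0, hr0⟩ := hT3 (max n M1) (le_max_left _ _)
  obtain ⟨r1, hr1⟩ := h.conj g a
  have hkey : ∀ k ∈ U (max (max r0 m) r1), k * (g * u) = (g * u) * k := by
    intro k hk
    have hkr0 : k ∈ U r0 :=
      h.sys.chain.mono ((le_max_left _ _).trans (le_max_left _ _)) hk
    have hkm : k ∈ U m := h.sys.chain.mono ((le_max_right _ _).trans (le_max_left _ _)) hk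
    have hkr1 : k ∈ U r1 := h.sys.chain.mono (le_max_right _ _) hk
    have hka : k ∈ U a := h.sys.chain.mono hm hkm
    have hk' : g⁻¹ * k * g ∈ U a := hr1 k hkr1
    have h1 : (u * k)⁻¹ * ((g⁻¹ * k * g) * u) = 1 := by
      refine h.inter _ fun N hN => ?_
      refine hT1 N hN _ (mul_mem (inv_mem (mul_mem huU hka)) (mul_mem hk' huU)) ?_
      rw [alpha_mul]
      have h2 : α ((g⁻¹ * k * g) * u) (x N) = α (u * k) (x N) := by
        set M := max (max (rr N) N) r0 with hM
        have hNM : N ≤ M := (le_max_right _ _).trans (le_max_left _ _)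
        have hrM : rr N ≤ M := (le_max_left _ _).trans (le_max_left _ _)
        have hmM : m ≤ M := (hmr N hN).trans hrM
        obtain ⟨w, hw, hwx⟩ := hr0 M (le_max_right _ _) k hkr0
        have hwn : w ∈ W n := h.aW (le_max_left _ _) hw
        have hwv : β w v = v := hM1 w (h.aW (le_max_right _ _) hw)
        have hkv : α k v = v := hv.2 k hkm
        have h3 : β w (φ (x M)) = α k (φ (x M)) := by
          simp only [hφ]
          rw [map_smul, map_smul, map_mul, map_mul, map_mul, map_mul, map_star, map_star, hwv, hkv,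
            hwx]
        have h4 : β w (t M) = α (g⁻¹ * k * g) (t M) := by
          simp only [ht]
          rw [← h.cm, h3, ← alpha_mul, ← alpha_mul]
          congr 2
          group
        have h5 : β w (x N) = α k (x N) := by
          refine h.dom_eq hN (h.beta_atoms hwn (h.x_mem hN))
            (atoms_act h.sys h.opt.1 (h.x_mem hN) hka) (t := α k (x M))
            (fun h0 => (h.x_min M (hN.trans hNM)).ne (alpha_inj h0)) ?_ ?_
          · rw [← hwx, ← map_mul, h.x_le hN hNM]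
          · rw [← map_mul, h.x_le hN hNM]
        refine h.dom_eq hN (atoms_act h.sys h.opt.1 (h.x_mem hN) (mul_mem hk' huU))
          (atoms_act h.sys h.opt.1 (h.x_mem hN) (mul_mem huU hka))
          (t := α (g⁻¹ * k * g) (t M)) (fun h0 => ht0 M hmM (alpha_inj h0)) ?_ ?_
        · rw [alpha_mul, hux N hN, ← map_mul, hrr N hN M hrM]
        · have h6 : α (u * k) (x N) = β w (y N) := by
            rw [alpha_mul, ← h5, h.cm, hux N hN]
          rw [h6, ← h4, ← map_mul, hrr N hN M hrM]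
      rw [h2, alpha_inv]
    have h2 : g⁻¹ * k * g * u = u * k := by
      have h3 := congrArg (fun z => (u * k) * z) h1
      simp only [mul_inv_cancel_left, mul_one] at h3
      exact h3
    calc k * (g * u) = g * (g⁻¹ * k * g * u) := by group
      _ = (g * u) * k := by rw [h2]; group
  have h1 := h.cent _ _ hkey
  have h2 : g = u⁻¹ := eq_inv_of_mul_eq_one_left h1
  rw [h2]
  exact inv_mem huU

/-- (B5) -/
theorem b5 {g : G} (hg : g ∉ U a) {y : 𝔸} (hy : y ∈ P) : f * y * α g f = 0 := by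
  by_contra h0
  set v := f * y * α g f with hv
  have hfP : f ∈ P := h.opt.1.mem.1
  have hvP : v ∈ P := mul_mem (mul_mem hfP hy) (h.aG _ _ hfP)
  obtain ⟨m', hm'⟩ := h.smU v hvP
  set m := max a m' with hm
  have ham : a ≤ m := le_max_left _ _
  have hvm : v ∈ Qn α P U m := ⟨hvP, fun u hu => hm' u (h.sys.chain.mono (le_max_right _ _) hu)⟩
  obtain ⟨X, hX, -, hXs⟩ := exists_atoms h.sys h.opt.1 ham (h.cor_comm m)
  have hfv : f * v = v := by rw [hv, ← mul_assoc, ← mul_assoc, h.f_idem]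
  have h1 : ∃ z ∈ X, z * v ≠ 0 := by
    by_contra hcon
    push Not at hcon
    have h2 : f * v = 0 := by
      rw [← hXs, Finset.sum_mul]
      exact Finset.sum_eq_zero hcon
    rw [hfv] at h2
    exact h0 h2
  obtain ⟨z, hzX, hz0⟩ := h1
  have hz := (hX z).1 hzX
  obtain ⟨k, hk, hkz⟩ := atoms_trans h.sys h.opt.1 ham (h.cor_comm m) hz (h.x_mem ham)
  have hk0 : k ∈ U 0 := h.sys.chain.mono (Nat.zero_le a) hk
  have h2 : k * g ∈ U a := by
    refine h.b5_aux ham (v := α k (z * v)) (act_Qn h.sys hk0 (Qn_mul hz.1.mem hvm))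
      (fun h3 => hz0 (alpha_inj h3)) ?_ ?_
    · rw [← hkz, ← map_mul, ← mul_assoc, hz.1.idem]
    · rw [alpha_mul, ← map_mul, mul_assoc, hv, mul_assoc (f * y), ← map_mul, h.f_idem]
  have h3 : g = k⁻¹ * (k * g) := by group
  apply hg
  rw [h3]
  exact mul_mem (inv_mem hk) h2

/-- (B6): with (E prime), the algebra is commutative. -/
theorem b6 (hE : ∀ y ∈ P, (∀ g, y * α g f = 0) → y = 0) : ∀ y ∈ P, ∀ z ∈ P, y * z = z * y := by
  have hfP : f ∈ P := h.opt.1.mem.1
  have h1 : ∀ y ∈ P, f * y = f * y * f := by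
    intro y hy
    rw [← sub_eq_zero]
    refine hE _ (sub_mem (mul_mem hfP hy) (mul_mem (mul_mem hfP hy) hfP)) fun g => ?_
    by_cases hg : g ∈ U a
    · rw [h.opt.1.mem.2 g hg, sub_mul, mul_assoc (f * y) f f, h.f_idem, sub_self]
    · rw [sub_mul, h.b5 hg hy, mul_assoc f y f, h.b5 hg (mul_mem hy hfP), sub_zero]
  have h2 : ∀ y ∈ P, f * y = y * f := by
    intro y hy
    have h3 := congrArg star (h1 (star y) (star_mem hy))
    simp only [star_mul, star_star, h.f_sa] at h3
    rw [h3, h1 y hy, mul_assoc]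
  intro y hy z hz
  rw [← sub_eq_zero]
  refine hE _ (sub_mem (mul_mem hy hz) (mul_mem hz hy)) fun g => ?_
  set y' := α g⁻¹ y with hy'
  set z' := α g⁻¹ z with hz'
  have hyP : y' ∈ P := h.aG _ _ hy
  have hzP : z' ∈ P := h.aG _ _ hz
  have hgg : ∀ b, α g (α g⁻¹ b) = b := by
    intro b
    rw [← alpha_mul, mul_inv_cancel, map_one]; rfl
  have h3 : (y' * z' - z' * y') * f = 0 := by
    have h4 : (y' * f) * (z' * f) = (z' * f) * (y' * f) := by
      refine h.fcomm (mul_mem hyP hfP) (mul_mem hzP hfP) ?_ ?_ ?_ ?_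
      · rw [← mul_assoc, h2 y' hyP, mul_assoc, h.f_idem]
      · rw [mul_assoc, h.f_idem]
      · rw [← mul_assoc, h2 z' hzP, mul_assoc, h.f_idem]
      · rw [mul_assoc, h.f_idem]
    have h5 : ∀ b ∈ P, ∀ b', b' * f * (b * f) = b' * b * f := by
      intro b hb b'
      rw [mul_assoc, ← mul_assoc f b f, h2 b hb, mul_assoc b f f, h.f_idem, mul_assoc]
    rw [h5 z' hzP, h5 y' hyP] at h4
    rw [sub_mul, h4, sub_self]
  have h4 := congrArg (α g) h3
  rw [map_mul, map_sub, map_mul, map_mul, hy', hz', hgg, hgg, map_zero] at h4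
  exact h4

end RB

end Vale.Agent.P092.H375
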