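import Vale.Agent.P092.H375.UVec

/-!
P092 (helper375), D-ULTRA, block DU-KAK: balls and anisotropic cells in the projective plane over a
nonarchimedean local field.
-/

set_option linter.all false

namespace Vale.Agent.P092.H375.Ultra

open Vale.Agent.P092.H820 TopologicalSpace
open scoped LinearAlgebra.Projectivization Matrix

variable {k : Type*} [NontriviallyNormedField k] [IsUltrametricDist k]

theorem exists_unit (x : ℙ k (Fin 3 → k)) :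
    ∃ v : {v : Fin 3 → k // v ≠ 0}, ‖v.1‖ = 1 ∧ pj k (Fin 3) v = x := by
  obtain ⟨v, rfl⟩ := pj_surj x
  obtain ⟨i, hi⟩ := Finite.exists_max fun i => ‖v.1 i‖
  have hn : ‖v.1‖ = ‖v.1 i‖ := le_antisymm ((pi_norm_le_iff_of_nonneg (norm_nonneg _)).2 hi)
    (norm_le_pi_norm v.1 i)
  have hvi : v.1 i ≠ 0 := by
    intro h
    rw [h, norm_zero] at hn
    exact v.2 (norm_eq_zero.1 hn)
  refine ⟨⟨(v.1 i)⁻¹ • v.1, smul_ne_zero (inv_ne_zero hvi) v.2⟩, ?_, ?_⟩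
  · rw [norm_smul, norm_inv, hn, inv_mul_cancel₀]
    exact norm_ne_zero_iff.2 hvi
  · exact (pj_eq _ _).2 ⟨Units.mk0 (v.1 i)⁻¹ (inv_ne_zero hvi), rfl⟩

/-- a unit representative -/
noncomputable def nv (x : ℙ k (Fin 3 → k)) : Fin 3 → k := (exists_unit x).choose.1

theorem norm_nv (x : ℙ k (Fin 3 → k)) : ‖nv x‖ = 1 := (exists_unit x).choose_spec.1

theorem nv_ne (x : ℙ k (Fin 3 → k)) : nv x ≠ 0 := (exists_unit x).choose.2

theorem pj_nv (x : ℙ k (Fin 3 → k)) : pj k (Fin 3) ⟨nv x, nv_ne x⟩ = x :=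
  (exists_unit x).choose_spec.2

theorem nv_pj (v : {v : Fin 3 → k // v ≠ 0}) : ∃ c : k, c ≠ 0 ∧ c • v.1 = nv (pj k (Fin 3) v) := by
  obtain ⟨c, hc⟩ := (pj_eq _ _).1 (pj_nv (pj k (Fin 3) v))
  exact ⟨c, c.ne_zero, hc⟩

theorem ne_zero_of_unit {v : Fin 3 → k} (hv : ‖v‖ = 1) : v ≠ 0 := by
  rintro rfl
  rw [norm_zero] at hv
  exact zero_ne_one hv

/-- the projective point of a unit vector -/
noncomputable def up (v : Fin 3 → k) (hv : ‖v‖ = 1) : ℙ k (Fin 3 → k) :=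
  pj k (Fin 3) ⟨v, ne_zero_of_unit hv⟩

theorem nv_up {v : Fin 3 → k} (hv : ‖v‖ = 1) : ∃ c : k, ‖c‖ = 1 ∧ c • v = nv (up v hv) := by
  obtain ⟨c, hc0, hc⟩ := nv_pj (⟨v, ne_zero_of_unit hv⟩ : {v : Fin 3 → k // v ≠ 0})
  refine ⟨c, ?_, hc⟩
  have h1 := norm_nv (up v hv)
  rw [up, ← hc, norm_smul, hv, mul_one] at h1
  exact h1

theorem up_nv (x : ℙ k (Fin 3 → k)) : up (nv x) (norm_nv x) = x := pj_nv x

/-- unit invariant sets -/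
def UInv (S : Set (Fin 3 → k)) : Prop := ∀ c : k, ‖c‖ = 1 → ∀ v ∈ S, c • v ∈ S

theorem unit_inv {c : k} (hc : ‖c‖ = 1) : ‖c⁻¹‖ = 1 := by rw [norm_inv, hc, inv_one]

theorem unit_ne {c : k} (hc : ‖c‖ = 1) : c ≠ 0 := by
  rintro rfl
  rw [norm_zero] at hc
  exact zero_ne_one hc

theorem UInv.compl {S : Set (Fin 3 → k)} (h : UInv S) : UInv Sᶜ := fun c hc v hv hcv => hv (by
  have := h c⁻¹ (unit_inv hc) _ hcv
  rwa [inv_smul_smul₀ (unit_ne hc)] at this)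

theorem isOpen_cs {S : Set (Fin 3 → k)} (hS : IsOpen S) (hu : UInv S) :
    IsOpen {x : ℙ k (Fin 3 → k) | nv x ∈ S} := by
  rw [← (pj_oq (k := k) (ι := Fin 3)).isQuotientMap.isOpen_preimage, isOpen_iff_mem_nhds]
  intro v0 hv0
  have hv0' : nv (pj k (Fin 3) v0) ∈ S := hv0
  obtain ⟨c, hc0, hc⟩ := nv_pj v0
  have hn0 : 0 < ‖v0.1‖ := norm_pos_iff.2 v0.2
  have hcn : ‖c‖ * ‖v0.1‖ = 1 := by
    rw [← norm_smul, hc, norm_nv]
  have h1 : ∀ᶠ v : {v : Fin 3 → k // v ≠ 0} in nhds v0, ‖v.1‖ = ‖v0.1‖ := by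
    have : (fun z : {v : Fin 3 → k // v ≠ 0} => z.1) ⁻¹' (Metric.sphere 0 ‖v0.1‖) ∈ nhds v0 :=
      (IsOpen.preimage continuous_subtype_val
        (IsUltrametricDist.isOpen_sphere _ hn0.ne')).mem_nhds (by simp)
    filter_upwards [this] with z hz
    simpa using hz
  have h2 : ∀ᶠ v : {v : Fin 3 → k // v ≠ 0} in nhds v0, c • v.1 ∈ S := by
    have hcont : Continuous fun v : {v : Fin 3 → k // v ≠ 0} => c • v.1 :=
      (continuous_const_smul c).comp continuous_subtype_val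
    refine (hS.preimage hcont).mem_nhds ?_
    change c • v0.1 ∈ S
    rw [hc]
    exact hv0'
  filter_upwards [h1, h2] with v hv1 hv2
  change nv (pj k (Fin 3) v) ∈ S
  obtain ⟨d, hd0, hd⟩ := nv_pj v
  have hdn : ‖d‖ * ‖v0.1‖ = 1 := by
    rw [← hv1, ← norm_smul, hd, norm_nv]
  have hdc : ‖d / c‖ = 1 := by
    rw [norm_div]
    have hcn0 : ‖c‖ ≠ 0 := norm_ne_zero_iff.2 hc0
    rw [div_eq_one_iff_eq hcn0]
    exact mul_right_cancel₀ hn0.ne' (hdn.trans hcn.symm)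
  have := hu _ hdc _ hv2
  rwa [smul_smul, div_mul_cancel₀ d hc0, hd] at this

/-- the clopen set of the projective plane given by a clopen unit invariant set of vectors -/
def cs (S : Set (Fin 3 → k)) (hS : IsClopen S) (hu : UInv S) : Clopens (ℙ k (Fin 3 → k)) :=
  ⟨{x | nv x ∈ S}, ⟨isOpen_cs hS.compl.isOpen hu.compl⟩, isOpen_cs hS.isOpen hu⟩

theorem mem_cs {S : Set (Fin 3 → k)} {hS : IsClopen S} {hu : UInv S} {x : ℙ k (Fin 3 → k)} :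
    x ∈ cs S hS hu ↔ nv x ∈ S := Iff.rfl

theorem isClopen_of_inv {S : Set (Fin 3 → k)} {ρ : ℝ} (hρ : 0 < ρ)
    (h : ∀ v ∈ S, ∀ w, ‖w‖ ≤ ρ → v + w ∈ S) : IsClopen S := by
  have h1 : ∀ T : Set (Fin 3 → k), (∀ v ∈ T, ∀ w, ‖w‖ ≤ ρ → v + w ∈ T) → IsOpen T := by
    intro T hT
    rw [Metric.isOpen_iff]
    intro v hv
    refine ⟨ρ, hρ, fun w hw => ?_⟩
    have := hT v hv (w - v) (by rw [← dist_eq_norm]; exact (Metric.mem_ball.1 hw).le)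
    rwa [add_sub_cancel] at this
  refine ⟨?_, h1 S h⟩
  rw [← isOpen_compl_iff]
  refine h1 _ fun v hv w hw hvw => hv ?_
  have := h _ hvw (-w) (by rwa [norm_neg])
  rwa [add_neg_cancel_right] at this

/-! ### balls -/

/-- the ball of radius `δ` around the unit vector `y` -/
def Bal (y : Fin 3 → k) (δ : ℝ) (hy : ‖y‖ ≤ 1) (hδ : 0 < δ) : Clopens (ℙ k (Fin 3 → k)) :=
  cs {v | ‖wd v y‖ ≤ δ} (isClopen_of_inv hδ fun v hv w hw => by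
    have h1 : wd (v + w) y = wd v y + wd w y := by
      ext p; simp only [wd, Pi.add_apply]; ring
    change ‖wd (v + w) y‖ ≤ δ
    rw [h1]
    refine (nadd_le _ _).trans (max_le hv ((norm_wd_le w y).trans ?_))
    calc ‖w‖ * ‖y‖ ≤ δ * 1 := mul_le_mul hw hy (norm_nonneg _) hδ.le
      _ = δ := mul_one δ)
    (fun c hc v hv => by
      change ‖wd (c • v) y‖ ≤ δ
      rw [wd_smul_left, norm_smul, hc, one_mul]
      exact hv)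

variable {y y' : Fin 3 → k} {δ δ' : ℝ}

theorem mem_Bal {hy : ‖y‖ ≤ 1} {hδ : 0 < δ} {x : ℙ k (Fin 3 → k)} :
    x ∈ Bal y δ hy hδ ↔ ‖wd (nv x) y‖ ≤ δ := Iff.rfl

theorem Bal_eq (hy : ‖y‖ = 1) (hy' : ‖y'‖ = 1) (hδ : 0 < δ) (h : ‖wd y y'‖ ≤ δ) :
    Bal y δ hy.le hδ = Bal y' δ hy'.le hδ := by
  ext x
  change ‖wd (nv x) y‖ ≤ δ ↔ ‖wd (nv x) y'‖ ≤ δ
  have h1 := wd_tri (norm_nv x).le hy hy'.le
  have h2 := wd_tri (norm_nv x).le hy' hy.le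
  rw [wd_swap y' y] at h2
  exact ⟨fun h3 => h1.trans (max_le h3 h), fun h3 => h2.trans (max_le h3 h)⟩

theorem Bal_disj (hy : ‖y‖ = 1) (hy' : ‖y'‖ = 1) (hδ : 0 < δ) (h : ¬ ‖wd y y'‖ ≤ δ) :
    Disjoint (Bal y δ hy.le hδ) (Bal y' δ hy'.le hδ) := by
  rw [disjoint_iff_inf_le]
  rintro x ⟨h1, h2⟩
  apply h
  have h3 : ‖wd (nv x) y‖ ≤ δ := h1
  have h4 : ‖wd (nv x) y'‖ ≤ δ := h2
  have h5 := wd_tri hy.le (norm_nv x) hy'.le
  rw [wd_swap y (nv x)] at h5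
  exact h5.trans (max_le h3 h4)

theorem wd_of_Bal_eq (hy : ‖y‖ = 1) (hy' : ‖y'‖ = 1) (hδ : 0 < δ)
    (h : Bal y δ hy.le hδ = Bal y' δ hy'.le hδ) : ‖wd y y'‖ ≤ δ := by
  by_contra hne
  have h1 := Bal_disj hy hy' hδ hne
  rw [← h] at h1
  have h2 : up y hy ∈ Bal y δ hy.le hδ := by
    obtain ⟨c, hc, h3⟩ := nv_up hy
    change ‖wd (nv (up y hy)) y‖ ≤ δ
    rw [← h3, wd_smul_left, wd_self, smul_zero, norm_zero]
    exact hδ.le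
  have h3 : up y hy ∈ (⊥ : Clopens (ℙ k (Fin 3 → k))) := h1.le_bot ⟨h2, h2⟩
  exact h3

theorem Bal_top (hy : ‖y‖ ≤ 1) (hδ : 0 < δ) (h : 1 ≤ δ) : Bal y δ hy hδ = ⊤ := by
  rw [eq_top_iff]
  intro x _
  change ‖wd (nv x) y‖ ≤ δ
  refine (norm_wd_le _ _).trans (le_trans ?_ h)
  rw [norm_nv, one_mul]
  exact hy

theorem Bal_mono (hy : ‖y‖ ≤ 1) (hδ : 0 < δ) (hδ' : 0 < δ') (h : δ ≤ δ') :
    Bal y δ hy hδ ≤ Bal y δ' hy hδ' := fun x hx => le_trans (show ‖wd (nv x) y‖ ≤ δ from hx) h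

/-! ### cells -/

/-- the relation defining the cells -/
def Rl (y : Fin 3 → k) (δ₁ δ₂ : ℝ) (v v' : Fin 3 → k) : Prop :=
  ∃ c : k, ‖c‖ = 1 ∧ ‖v - c • v'‖ ≤ δ₁ ∧ ‖dt y (v - c • v')‖ ≤ δ₂

variable {δ₁ δ₂ : ℝ} {v v' v'' : Fin 3 → k}

theorem Rl.refl (h1 : 0 < δ₁) (h2 : 0 < δ₂) : Rl y δ₁ δ₂ v v := by
  refine ⟨1, norm_one, ?_, ?_⟩
  · rw [one_smul, sub_self, norm_zero]; exact h1.le
  · rw [one_smul, sub_self]
    have : dt y (0 : Fin 3 → k) = 0 := by simp [dt]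
    rw [this, norm_zero]; exact h2.le

theorem Rl.symm (h : Rl y δ₁ δ₂ v v') : Rl y δ₁ δ₂ v' v := by
  obtain ⟨c, hc, h1, h2⟩ := h
  have e : v' - c⁻¹ • v = (-c⁻¹) • (v - c • v') := by
    rw [smul_sub, smul_smul, neg_mul, inv_mul_cancel₀ (unit_ne hc), neg_smul, neg_smul, one_smul]
    abel
  refine ⟨c⁻¹, unit_inv hc, ?_, ?_⟩
  · rw [e, norm_smul, norm_neg, unit_inv hc, one_mul]; exact h1
  · rw [e, dt_smul, norm_mul, norm_neg, unit_inv hc, one_mul]; exact h2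

theorem Rl.trans (h : Rl y δ₁ δ₂ v v') (h' : Rl y δ₁ δ₂ v' v'') : Rl y δ₁ δ₂ v v'' := by
  obtain ⟨c, hc, h1, h2⟩ := h
  obtain ⟨d, hd, g1, g2⟩ := h'
  have e : v - (c * d) • v'' = (v - c • v') + c • (v' - d • v'') := by
    rw [smul_sub, smul_smul]; abel
  refine ⟨c * d, by rw [norm_mul, hc, hd, one_mul], ?_, ?_⟩
  · rw [e]
    refine (nadd_le _ _).trans (max_le h1 ?_)
    rw [norm_smul, hc, one_mul]; exact g1
  · rw [e, dt_add, dt_smul]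
    refine (nadd_le _ _).trans (max_le h2 ?_)
    rw [norm_mul, hc, one_mul]; exact g2

theorem Rl.mono {δ₁' δ₂' : ℝ} (h : Rl y δ₁ δ₂ v v') (h1 : δ₁ ≤ δ₁') (h2 : δ₂ ≤ δ₂') :
    Rl y δ₁' δ₂' v v' := by
  obtain ⟨c, hc, g1, g2⟩ := h
  exact ⟨c, hc, g1.trans h1, g2.trans h2⟩

/-- the cell of `v` -/
def Cel (y : Fin 3 → k) (δ₁ δ₂ : ℝ) (hy : ‖y‖ ≤ 1) (h1 : 0 < δ₁) (h2 : 0 < δ₂) (v : Fin 3 → k) :
    Clopens (ℙ k (Fin 3 → k)) :=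
  cs {z | Rl y δ₁ δ₂ z v} (isClopen_of_inv (ρ := min δ₁ δ₂) (lt_min h1 h2) fun z hz w hw => by
    obtain ⟨c, hc, g1, g2⟩ := hz
    have e : z + w - c • v = (z - c • v) + w := by abel
    refine ⟨c, hc, ?_, ?_⟩
    · rw [e]
      exact (nadd_le _ _).trans (max_le g1 (hw.trans (min_le_left _ _)))
    · rw [e, dt_add]
      refine (nadd_le _ _).trans (max_le g2 ((norm_dt_le y w).trans ?_))
      calc ‖y‖ * ‖w‖ ≤ 1 * min δ₁ δ₂ := mul_le_mul hy hw (norm_nonneg _) zero_le_one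
        _ ≤ δ₂ := by rw [one_mul]; exact min_le_right _ _)
    (fun c hc z hz => by
      obtain ⟨d, hd, g1, g2⟩ := hz
      have e : c • z - (c * d) • v = c • (z - d • v) := by rw [smul_sub, smul_smul]
      refine ⟨c * d, by rw [norm_mul, hc, hd, one_mul], ?_, ?_⟩
      · rw [e, norm_smul, hc, one_mul]; exact g1
      · rw [e, dt_smul, norm_mul, hc, one_mul]; exact g2)

variable {hy : ‖y‖ ≤ 1} {h1 : 0 < δ₁} {h2 : 0 < δ₂}

theorem mem_Cel {x : ℙ k (Fin 3 → k)} : x ∈ Cel y δ₁ δ₂ hy h1 h2 v ↔ Rl y δ₁ δ₂ (nv x) v := Iff.rfl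

theorem Cel_eq (h : Rl y δ₁ δ₂ v v') : Cel y δ₁ δ₂ hy h1 h2 v = Cel y δ₁ δ₂ hy h1 h2 v' := by
  ext x
  change Rl y δ₁ δ₂ (nv x) v ↔ Rl y δ₁ δ₂ (nv x) v'
  exact ⟨fun g => g.trans h, fun g => g.trans h.symm⟩

theorem Cel_eq_of_mem {x : ℙ k (Fin 3 → k)} (h : x ∈ Cel y δ₁ δ₂ hy h1 h2 v) :
    Cel y δ₁ δ₂ hy h1 h2 v = Cel y δ₁ δ₂ hy h1 h2 (nv x) := Cel_eq (Rl.symm h)

theorem Rl_of_Cel_eq (hv : ‖v‖ = 1)
    (h : Cel y δ₁ δ₂ hy h1 h2 v = Cel y δ₁ δ₂ hy h1 h2 v') : Rl y δ₁ δ₂ v v' := by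
  have h3 : up v hv ∈ Cel y δ₁ δ₂ hy h1 h2 v' := by
    rw [← h]
    obtain ⟨c, hc, h4⟩ := nv_up hv
    change Rl y δ₁ δ₂ (nv (up v hv)) v
    rw [← h4]
    refine ⟨c, hc, ?_, ?_⟩
    · rw [sub_self, norm_zero]; exact h1.le
    · rw [sub_self]
      have : dt y (0 : Fin 3 → k) = 0 := by simp [dt]
      rw [this, norm_zero]; exact h2.le
  obtain ⟨c, hc, h4⟩ := nv_up hv
  have h5 : Rl y δ₁ δ₂ (nv (up v hv)) v' := h3
  have h6 : Rl y δ₁ δ₂ (nv (up v hv)) v := by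
    rw [← h4]
    refine ⟨c, hc, ?_, ?_⟩
    · rw [sub_self, norm_zero]; exact h1.le
    · rw [sub_self]
      have : dt y (0 : Fin 3 → k) = 0 := by simp [dt]
      rw [this, norm_zero]; exact h2.le
  exact h6.symm.trans h5

theorem Cel_disj (h : Cel y δ₁ δ₂ hy h1 h2 v ≠ Cel y δ₁ δ₂ hy h1 h2 v') :
    Disjoint (Cel y δ₁ δ₂ hy h1 h2 v) (Cel y δ₁ δ₂ hy h1 h2 v') := by
  rw [disjoint_iff_inf_le]
  rintro x ⟨g1, g2⟩
  exact absurd ((Cel_eq_of_mem g1).trans (Cel_eq_of_mem g2).symm) h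

/-- there are only finitely many cells -/
theorem finite_Cel [ProperSpace k] (y : Fin 3 → k) (δ₁ δ₂ : ℝ) (hy : ‖y‖ ≤ 1) (h1 : 0 < δ₁)
    (h2 : 0 < δ₂) : (Set.range fun x : ℙ k (Fin 3 → k) => Cel y δ₁ δ₂ hy h1 h2 (nv x)).Finite := by
  have hcov : (Set.univ : Set (ℙ k (Fin 3 → k))) ⊆
      ⋃ x : ℙ k (Fin 3 → k), (Cel y δ₁ δ₂ hy h1 h2 (nv x) : Set (ℙ k (Fin 3 → k))) := by
    intro x _
    exact Set.mem_iUnion.2 ⟨x, Rl.refl h1 h2⟩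
  obtain ⟨t, ht⟩ := isCompact_univ.elim_finite_subcover _
    (fun x => (Cel y δ₁ δ₂ hy h1 h2 (nv x)).isClopen.isOpen) hcov
  refine (t.finite_toSet.image fun x => Cel y δ₁ δ₂ hy h1 h2 (nv x)).subset ?_
  rintro _ ⟨x, rfl⟩
  obtain ⟨z, hz, hxz⟩ := Set.mem_iUnion₂.1 (ht (Set.mem_univ x))
  exact ⟨z, hz, Cel_eq_of_mem hxz⟩

/-! ### uniform nets -/

theorem exists_code [ProperSpace k] {η : ℝ} (hη : 0 < η) : ∃ M : ℕ, ∀ δ : ℝ, 0 < δ →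
    ∃ code : k → Fin M, ∀ s t, ‖s‖ ≤ δ → ‖t‖ ≤ δ → code s = code t → ‖s - t‖ ≤ η * δ := by
  classical
  obtain ⟨a, ha⟩ := NormedField.exists_one_lt_norm k
  have ha0 : 0 < ‖a‖ := zero_lt_one.trans ha
  have hcomp : IsCompact (Metric.closedBall (0 : k) 1) := isCompact_closedBall _ _
  obtain ⟨T, hT1, hT2⟩ := (Metric.totallyBounded_iff.1 hcomp.totallyBounded) (η / ‖a‖)
    (by positivity)
  set TT : Finset k := insert 0 hT1.toFinset with hTT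
  have hcov : ∀ s : k, ‖s‖ ≤ 1 → ∃ t ∈ TT, ‖s - t‖ ≤ η / ‖a‖ := by
    intro s hs
    obtain ⟨t, ht, hst⟩ := Set.mem_iUnion₂.1 (hT2 (show s ∈ Metric.closedBall (0 : k) 1 by simpa using hs))
    exact ⟨t, Finset.mem_insert_of_mem (hT1.mem_toFinset.2 ht), by
      rw [← dist_eq_norm]; exact (Metric.mem_ball.1 hst).le⟩
  refine ⟨TT.card, fun δ hδ => ?_⟩
  obtain ⟨n, hn1, hn2⟩ := exists_mem_Ico_zpow hδ ha
  set β : k := a ^ (n + 1) with hβ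
  have hβn : ‖β‖ = ‖a‖ ^ (n + 1) := by rw [hβ, norm_zpow]
  have hβδ : δ < ‖β‖ := by rw [hβn]; exact hn2
  have hβ0 : 0 < ‖β‖ := hδ.trans hβδ
  have hβ1 : ‖β‖ ≤ ‖a‖ * δ := by
    rw [hβn, zpow_add₀ ha0.ne', zpow_one, mul_comm]
    exact mul_le_mul_of_nonneg_left hn1 ha0.le
  have hne : ∀ s : k, ∃ t : TT, ‖s‖ ≤ δ → ‖s / β - t‖ ≤ η / ‖a‖ := by
    intro s
    by_cases hs : ‖s‖ ≤ δ
    · obtain ⟨t, ht, h⟩ := hcov (s / β) (by
        rw [norm_div, div_le_one hβ0]; exact hs.trans hβδ.le)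
      exact ⟨⟨t, ht⟩, fun _ => h⟩
    · exact ⟨⟨0, Finset.mem_insert_self _ _⟩, fun h => absurd h hs⟩
  choose g hg using hne
  refine ⟨fun s => TT.equivFin (g s), fun s t hs ht hst => ?_⟩
  have hgs : g s = g t := TT.equivFin.injective hst
  have e1 := hg s hs
  have e2 := hg t ht
  rw [hgs] at e1
  have e3 : ‖s / β - t / β‖ ≤ η / ‖a‖ := by
    have e4 : s / β - t / β = (s / β - g t) - (t / β - g t) := by ring
    rw [e4]
    exact (nsub_le _ _).trans (max_le e1 e2)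
  have e5 : s - t = (s / β - t / β) * β := by
    have hβ0' : β ≠ 0 := norm_pos_iff.1 hβ0
    field_simp
  rw [e5, norm_mul]
  calc ‖s / β - t / β‖ * ‖β‖ ≤ (η / ‖a‖) * (‖a‖ * δ) := mul_le_mul e3 hβ1 hβ0.le (by positivity)
    _ = η * δ := by field_simp

end Vale.Agent.P092.H375.Ultra
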