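import Vale.Agent.P092.H175.Opp

/-!
P092 (helper375), D-ULTRA (board 4628, 4720, 4721, 4789), block DU-KAK, abstract part: the Kakeya
estimate over a nonarchimedean field as a finite sum over an arbitrary finite set of indices.
-/

set_option linter.all false

namespace Vale.Agent.P092.H375.Ultra

open TopologicalSpace Vale.Agent.P092.H820 Vale.Agent.P092.H175.Opp

section Insert

variable {X : Type*} [TopologicalSpace X] [CompactSpace X] [T2Space X]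
  [TotallyDisconnectedSpace X] {Y : Type*} [TopologicalSpace Y] [CompactSpace Y] [T2Space Y]
  [TotallyDisconnectedSpace Y]

variable {𝔸 : Type*} [Ring 𝔸] [StarRing 𝔸]

/-- tube lemma, clopen form, for a fixed line -/
theorem tubeL {I : Set (X × Y)} (hI : IsClosed I) (V : Clopens X) {b : Y}
    (h : ∀ x ∈ V, (x, b) ∉ I) : ∃ B : Clopens Y, b ∈ B ∧ NonInc I V B := by
  refine clopen_ind (Y := X) (A := V) (fun V => ∃ B : Clopens Y, b ∈ B ∧ NonInc I V B) ?_ ?_ ?_ ?_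
  · exact ⟨⊤, trivial, fun a ha => absurd ha id⟩
  · rintro U V hUV ⟨B, h1, h2⟩
    exact ⟨B, h1, h2.mono hUV le_rfl⟩
  · rintro U V ⟨B, h1, h2⟩ ⟨C, g1, g2⟩
    refine ⟨B ⊓ C, ⟨h1, g1⟩, ?_⟩
    rintro a (ha | ha) y hy
    · exact h2 a ha y hy.1
    · exact g2 a ha y hy.2
  · intro x hx
    obtain ⟨U, N, h1, h2, h3⟩ := exists_nonInc hI (h x hx)
    exact ⟨U, h1, N, h2, h3⟩

/-- tube lemma, clopen form, for a fixed point -/
theorem tubeP {I : Set (X × Y)} (hI : IsClosed I) (B : Clopens Y) {z : X}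
    (h : ∀ y ∈ B, (z, y) ∉ I) : ∃ V : Clopens X, z ∈ V ∧ NonInc I V B := by
  refine clopen_ind (A := B) (fun B => ∃ V : Clopens X, z ∈ V ∧ NonInc I V B) ?_ ?_ ?_ ?_
  · exact ⟨⊤, trivial, fun a ha b hb => absurd hb id⟩
  · rintro U V hUV ⟨B, h1, h2⟩
    exact ⟨B, h1, h2.mono le_rfl hUV⟩
  · rintro U V ⟨B, h1, h2⟩ ⟨C, g1, g2⟩
    refine ⟨B ⊓ C, ⟨h1, g1⟩, ?_⟩
    rintro a ha y (hy | hy)
    · exact h2 a ha.1 y hy
    · exact g2 a ha.2 y hy
  · intro y hy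
    obtain ⟨U, N, h1, h2, h3⟩ := exists_nonInc hI (h y hy)
    exact ⟨N, h2, U, h1, h3⟩

/-- Two point measures `Pb`, `Pc` and two line measures `Lm`, `Ll`; the source points `b`, `c` are
on the source line `l`, and `c` is on `m`. -/
structure Quad (I : Set (X × Y)) (Pb Pc : Clopens X → 𝔸) (Lm Ll : Clopens Y → 𝔸) : Prop where
  cl : IsClosed I
  hPb : Cpv Pb
  hPc : Cpv Pc
  hLm : Cpv Lm
  hLl : Cpv Ll
  hbl : ∀ U A, NonInc I U A → Pb U * Ll A = 0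
  hcl : ∀ U A, NonInc I U A → Pc U * Ll A = 0
  hcm : ∀ U A, NonInc I U A → Pc U * Lm A = 0
  cbl : ∀ U A, Pb U * Ll A = Ll A * Pb U
  ccm : ∀ U A, Pc U * Lm A = Lm A * Pc U

variable {I : Set (X × Y)} {Pb Pc : Clopens X → 𝔸} {Lm Ll : Clopens Y → 𝔸}

/-- **Insertion lemma**: vanishing of the middle product. -/
theorem Quad.insert_zero (q : Quad I Pb Pc Lm Ll) {B N : Clopens Y} {V Z : Clopens X}
    (h : ∀ x ∈ V, ∀ ν ∈ N, ∀ z ∈ Z, ∀ ν' ∈ B, (x, ν) ∈ I → (z, ν) ∈ I → (z, ν') ∈ I → False) :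
    Lm B * (Pc Z * (Ll N * Pb V)) = 0 := by
  have hmc : ∀ U A, NonInc I U A → Lm A * Pc U = 0 := fun U A hUA => by
    rw [← q.ccm, q.hcm U A hUA]
  have hlb : ∀ U A, NonInc I U A → Ll A * Pb U = 0 := fun U A hUA => by
    rw [← q.cbl, q.hbl U A hUA]
  -- monotonicity
  have mono : ∀ (Z Z' : Clopens X) (N N' : Clopens Y), Z' ≤ Z → N' ≤ N →
      Lm B * (Pc Z * (Ll N * Pb V)) = 0 → Lm B * (Pc Z' * (Ll N' * Pb V)) = 0 := by
    intro Z Z' N N' hZ hN h0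
    calc Lm B * (Pc Z' * (Ll N' * Pb V))
        = Lm B * (Pc Z' * Pc Z * ((Ll N * Ll N') * Pb V)) := by
          rw [q.hPc.le_left hZ, q.hLl.le_right hN]
      _ = (Lm B * Pc Z') * Pc Z * Ll N * (Ll N' * Pb V) := by simp only [mul_assoc]
      _ = Pc Z' * (Lm B * (Pc Z * (Ll N * Pb V))) * Ll N' := by
          rw [← q.ccm, ← q.cbl]; simp only [mul_assoc]
      _ = 0 := by rw [h0, mul_zero, zero_mul]
  -- fix `z`
  have step : ∀ z ∈ Z, ∃ Z' : Clopens X, z ∈ Z' ∧ Lm B * (Pc Z' * (Ll N * Pb V)) = 0 := by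
    intro z hz
    by_cases hzB : ∀ ν' ∈ B, (z, ν') ∉ I
    · obtain ⟨Z', h1, h2⟩ := tubeP q.cl B hzB
      exact ⟨Z', h1, by rw [← mul_assoc, hmc _ _ h2, zero_mul]⟩
    push Not at hzB
    obtain ⟨ν', hν', hzν'⟩ := hzB
    refine clopen_ind (A := N) (fun N => ∃ Z' : Clopens X, z ∈ Z' ∧
      Lm B * (Pc Z' * (Ll N * Pb V)) = 0) ?_ ?_ ?_ ?_
    · exact ⟨⊤, trivial, by rw [q.hLl.bot, zero_mul, mul_zero, mul_zero]⟩
    · rintro U W hUW ⟨Z', h1, h2⟩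
      exact ⟨Z', h1, mono _ _ _ _ le_rfl hUW h2⟩
    · rintro U W ⟨Z', h1, h2⟩ ⟨Z'', g1, g2⟩
      refine ⟨Z' ⊓ Z'', ⟨h1, g1⟩, ?_⟩
      have e1 := mono _ (Z' ⊓ Z'') _ U inf_le_left le_rfl h2
      have e2 := mono _ (Z' ⊓ Z'') _ W inf_le_right le_rfl g2
      have e3 := mono _ (Z' ⊓ Z'') _ (U ⊓ W) inf_le_left inf_le_left h2
      rw [q.hLl.inf] at e3
      rw [q.hLl.sup, sub_mul, add_mul, mul_sub, mul_sub, mul_add, mul_add, e1, e2, e3, add_zero,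
        sub_zero]
    · intro ν hν
      by_cases hzν : (z, ν) ∈ I
      · obtain ⟨N', h1, h2⟩ := tubeL q.cl V (b := ν) fun x hx hxν =>
          h x hx ν hν z hz ν' hν' hxν hzν hzν'
        exact ⟨N', h1, ⊤, trivial, by rw [hlb _ _ h2, mul_zero, mul_zero]⟩
      · obtain ⟨Z', N', h1, h2, h3⟩ := exists_nonInc q.cl hzν
        exact ⟨N', h2, Z', h1, by rw [← mul_assoc (Pc Z'), q.hcl _ _ h3, zero_mul, mul_zero]⟩
  refine clopen_ind (Y := X) (A := Z) (fun Z => Lm B * (Pc Z * (Ll N * Pb V)) = 0) ?_ ?_ ?_ ?_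
  · rw [q.hPc.bot, zero_mul, mul_zero]
  · intro U W hUW h0
    exact mono _ _ _ _ hUW le_rfl h0
  · intro U W h0 g0
    have e3 := mono _ (U ⊓ W) _ N inf_le_left le_rfl h0
    rw [q.hPc.sup, sub_mul, add_mul, mul_sub, mul_add, h0, g0, ← q.hPc.inf, e3, add_zero, sub_zero]
  · intro z hz
    obtain ⟨Z', h1, h2⟩ := step z hz
    exact ⟨Z', h1, h2⟩

/-- **Insertion lemma**: `Pc Q` may be inserted. -/
theorem Quad.insert (q : Quad I Pb Pc Lm Ll) {B N : Clopens Y} {V Q : Clopens X}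
    (h : ∀ x ∈ V, ∀ ν ∈ N, ∀ z, ∀ ν' ∈ B, (x, ν) ∈ I → (z, ν) ∈ I → (z, ν') ∈ I → z ∈ Q) :
    Lm B * (Pb V * Ll N) = Pc Q * (Lm B * (Pb V * Ll N)) := by
  have h0 := q.insert_zero (B := B) (N := N) (V := V) (Z := Qᶜ) fun x hx ν hν z hz ν' hν' h1 h2 h3 =>
    hz (h x hx ν hν z ν' hν' h1 h2 h3)
  rw [q.hPc.compl, sub_mul, one_mul, mul_sub, sub_eq_zero, ← q.cbl] at h0
  rw [← mul_assoc (Pc Q), q.ccm, mul_assoc]
  exact h0

end Insert

section Norm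

variable {X : Type*} [TopologicalSpace X] {E : Type*} [NormedAddCommGroup E]
  [InnerProductSpace ℂ E] [CompleteSpace E] {P : Clopens X → E →L[ℂ] E}

open scoped InnerProductSpace

theorem inner_disj (h : Cpv P) {U V : Clopens X} (hd : Disjoint U V) (x y : E) :
    ⟪P U x, P V y⟫_ℂ = 0 := by
  have h1 : ⟪P U x, P V y⟫_ℂ = ⟪x, (P U * P V) y⟫_ℂ := by
    have h2 : ContinuousLinearMap.adjoint (P U) = P U := by
      have := h.sa U
      rwa [ContinuousLinearMap.star_eq_adjoint] at this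
    conv_lhs => rw [← h2]
    rw [ContinuousLinearMap.adjoint_inner_left]
    rfl
  rw [h1, h.disj hd]
  simp

/-- orthogonality of the pieces -/
theorem norm_sum_sq (h : Cpv P) {ι : Type*} (s : Finset ι) (U : ι → Clopens X)
    (hd : ∀ i ∈ s, ∀ j ∈ s, i ≠ j → Disjoint (U i) (U j)) (x : ι → E) :
    ‖∑ i ∈ s, P (U i) (x i)‖ ^ 2 = ∑ i ∈ s, ‖P (U i) (x i)‖ ^ 2 := by
  classical
  induction s using Finset.induction_on with
  | empty => simp
  | insert a s ha ih =>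
    rw [Finset.sum_insert ha, Finset.sum_insert ha, ← ih fun i hi j hj =>
      hd i (Finset.mem_insert_of_mem hi) j (Finset.mem_insert_of_mem hj)]
    have h0 : ⟪P (U a) (x a), ∑ i ∈ s, P (U i) (x i)⟫_ℂ = 0 := by
      rw [inner_sum]
      refine Finset.sum_eq_zero fun i hi => inner_disj h (hd a (Finset.mem_insert_self _ _) i
        (Finset.mem_insert_of_mem hi) fun e => ha (e ▸ hi)) _ _
    have h1 := norm_add_sq_eq_norm_sq_add_norm_sq_of_inner_eq_zero _ _ h0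
    rw [pow_two, h1, pow_two, pow_two]

theorem norm_le (h : Cpv P) (U : Clopens X) (x : E) : ‖P U x‖ ≤ ‖x‖ := by
  have h0 : ⟪P U x, P Uᶜ x⟫_ℂ = 0 := inner_disj h disjoint_compl_right _ _
  have h1 := norm_add_sq_eq_norm_sq_add_norm_sq_of_inner_eq_zero _ _ h0
  have h2 : P U x + P Uᶜ x = x := by
    rw [h.compl]; simp
  rw [h2] at h1
  nlinarith [norm_nonneg x, norm_nonneg (P U x), norm_nonneg (P Uᶜ x),
    mul_self_nonneg ‖P Uᶜ x‖]

/-- Bessel -/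
theorem sum_le (h : Cpv P) {ι : Type*} (s : Finset ι) (U : ι → Clopens X)
    (hd : ∀ i ∈ s, ∀ j ∈ s, i ≠ j → Disjoint (U i) (U j)) (x : E) :
    ∑ i ∈ s, ‖P (U i) x‖ ^ 2 ≤ ‖x‖ ^ 2 := by
  rw [← norm_sum_sq h s U hd fun _ => x]
  have h1 : ∑ i ∈ s, P (U i) x = P (s.sup U) x := by
    rw [h.finset_sup s U hd]; simp
  rw [h1]
  exact pow_le_pow_left₀ (norm_nonneg _) (norm_le h _ _) 2

/-- capacity: if among the `U i` two are equal or disjoint and each value is taken at most `C`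
times then `∑ ‖P (U i) x‖ ^ 2 ≤ C ‖x‖ ^ 2`. -/
theorem sum_le_mult (h : Cpv P) {ι : Type*} (s : Finset ι) (U : ι → Clopens X) (C : ℕ)
    (hd : ∀ i ∈ s, ∀ j ∈ s, U i = U j ∨ Disjoint (U i) (U j))
    (hC : ∀ i ∈ s, ∀ t ⊆ s, (∀ j ∈ t, U j = U i) → t.card ≤ C) (x : E) :
    ∑ i ∈ s, ‖P (U i) x‖ ^ 2 ≤ C * ‖x‖ ^ 2 := by
  classical
  rw [← Finset.sum_fiberwise_of_maps_to (t := s.image U)
    fun i hi => Finset.mem_image_of_mem U hi]
  have h1 : ∀ V ∈ s.image U, ∑ i ∈ s with U i = V, ‖P (U i) x‖ ^ 2 ≤ C * ‖P V x‖ ^ 2 := by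
    intro V hV
    obtain ⟨i, hi, rfl⟩ := Finset.mem_image.1 hV
    rw [Finset.sum_congr rfl (g := fun _ => ‖P (U i) x‖ ^ 2) fun j hj => by
      rw [(Finset.mem_filter.1 hj).2], Finset.sum_const, nsmul_eq_mul]
    refine mul_le_mul_of_nonneg_right ?_ (by positivity)
    exact_mod_cast hC i hi _ (Finset.filter_subset _ _) fun j hj => (Finset.mem_filter.1 hj).2
  refine (Finset.sum_le_sum h1).trans ?_
  rw [← Finset.mul_sum]
  refine mul_le_mul_of_nonneg_left ?_ (Nat.cast_nonneg C)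
  refine sum_le h (s.image U) (fun V => V) ?_ x
  intro V hV W hW hne
  obtain ⟨i, hi, rfl⟩ := Finset.mem_image.1 hV
  obtain ⟨j, hj, rfl⟩ := Finset.mem_image.1 hW
  exact (hd i hi j hj).resolve_left hne

end Norm

section Kakeya

variable {X : Type*} [TopologicalSpace X] [CompactSpace X] [T2Space X]
  [TotallyDisconnectedSpace X] {Y : Type*} [TopologicalSpace Y] [CompactSpace Y] [T2Space Y]
  [TotallyDisconnectedSpace Y] {E : Type*} [NormedAddCommGroup E] [InnerProductSpace ℂ E]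
  [CompleteSpace E] {I : Set (X × Y)} {Pb Pc : Clopens X → E →L[ℂ] E}
  {Lm Ll : Clopens Y → E →L[ℂ] E} {ι : Type*}

theorem norm_sum_sq_le {α : Type*} (s : Finset α) (v : α → E) (m : ℕ) (hm : s.card ≤ m) :
    ‖∑ i ∈ s, v i‖ ^ 2 ≤ m * ∑ i ∈ s, ‖v i‖ ^ 2 := by
  have h1 : ‖∑ i ∈ s, v i‖ ^ 2 ≤ (∑ i ∈ s, ‖v i‖) ^ 2 :=
    pow_le_pow_left₀ (norm_nonneg _) (norm_sum_le _ _) 2
  refine h1.trans ((sq_sum_le_card_mul_sum_sq (s := s) (f := fun i => ‖v i‖)).trans ?_)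
  refine mul_le_mul_of_nonneg_right ?_ (Finset.sum_nonneg fun i _ => by positivity)
  exact_mod_cast hm

/-- One scale. -/
theorem Quad.one_scale (q : Quad I Pb Pc Lm Ll) (ℱ : Finset (Clopens X))
    (par : Clopens X → Clopens X) (m0 : ℕ)
    (hF : ∀ F ∈ ℱ, ∀ F' ∈ ℱ, F ≠ F' → Disjoint F F')
    (hp : ∀ F ∈ ℱ, ∀ F' ∈ ℱ, par F ≠ par F' → Disjoint (par F) (par F'))
    (hm : ∀ F ∈ ℱ, ∀ t ⊆ ℱ, (∀ F' ∈ t, par F' = par F) → t.card ≤ m0)
    (S : Finset ι) (B : ι → Clopens Y) (Xk : ι → Clopens X) (J : ι → Finset (Clopens X))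
    (hJ : ∀ k ∈ S, J k ⊆ ℱ) (hX : ∀ k ∈ S, Xk k = (J k).sup id) (N : Clopens Y)
    (hG : ∀ k ∈ S, ∀ F ∈ J k, ∀ x ∈ F, ∀ ν ∈ N, ∀ z, ∀ ν' ∈ B k,
      (x, ν) ∈ I → (z, ν) ∈ I → (z, ν') ∈ I → z ∈ par F)
    (C0 : ℝ) (hcap : ∀ ζ, ∑ k ∈ S, ‖Lm (B k) ζ‖ ^ 2 ≤ C0 * ‖ζ‖ ^ 2) (hC0 : 0 ≤ C0) (ξ : E) :
    ∑ k ∈ S, ‖Lm (B k) (Pb (Xk k) (Ll N ξ))‖ ^ 2 ≤ m0 * C0 * ‖Ll N ξ‖ ^ 2 := by
  classical
  set w : ι → Clopens X → E := fun k F => Lm (B k) (Pb F (Ll N ξ)) with hw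
  -- one index
  have h1 : ∀ k ∈ S, ‖Lm (B k) (Pb (Xk k) (Ll N ξ))‖ ^ 2 ≤ m0 * ∑ F ∈ ℱ, ‖w k F‖ ^ 2 := by
    intro k hk
    have e1 : Pb (Xk k) = ∑ F ∈ J k, Pb F := by
      rw [hX k hk]
      exact q.hPb.finset_sup (J k) id fun i hi j hj hne => hF i (hJ k hk hi) j (hJ k hk hj) hne
    have e2 : ∀ F ∈ J k, w k F = Pc (par F) (w k F) := by
      intro F hFJ
      have := q.insert (B := B k) (N := N) (V := F) (Q := par F) (hG k hk F hFJ)
      have h3 := congrArg (fun T : E →L[ℂ] E => T ξ) this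
      exact h3
    have e3 : Lm (B k) (Pb (Xk k) (Ll N ξ)) =
        ∑ a ∈ (J k).image par, Pc a (∑ F ∈ J k with par F = a, w k F) := by
      rw [e1]
      simp only [ContinuousLinearMap.sum_apply, map_sum]
      change ∑ F ∈ J k, w k F = _
      rw [← Finset.sum_fiberwise_of_maps_to (t := (J k).image par)
        fun i hi => Finset.mem_image_of_mem par hi]
      refine Finset.sum_congr rfl fun a ha => ?_
      refine Finset.sum_congr rfl fun F hF' => ?_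
      obtain ⟨h3, h4⟩ := Finset.mem_filter.1 hF'
      rw [← h4]
      exact e2 F h3
    rw [e3, norm_sum_sq q.hPc _ (fun a => a) ?_ (fun a => ∑ F ∈ J k with par F = a, w k F)]
    · calc ∑ a ∈ (J k).image par, ‖Pc a (∑ F ∈ J k with par F = a, w k F)‖ ^ 2
          ≤ ∑ a ∈ (J k).image par, (m0 : ℝ) * ∑ F ∈ J k with par F = a, ‖w k F‖ ^ 2 := by
            refine Finset.sum_le_sum fun a ha => ?_
            refine (pow_le_pow_left₀ (norm_nonneg _) (norm_le q.hPc _ _) 2).trans ?_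
            refine norm_sum_sq_le _ _ _ ?_
            obtain ⟨F, hFJ, rfl⟩ := Finset.mem_image.1 ha
            exact hm F (hJ k hk hFJ) _ ((Finset.filter_subset _ _).trans (hJ k hk))
              fun F' hF' => (Finset.mem_filter.1 hF').2
        _ = m0 * ∑ F ∈ J k, ‖w k F‖ ^ 2 := by
            rw [← Finset.mul_sum]
            congr 1
            exact Finset.sum_fiberwise_of_maps_to (t := (J k).image par)
              (fun i hi => Finset.mem_image_of_mem par hi) _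
        _ ≤ m0 * ∑ F ∈ ℱ, ‖w k F‖ ^ 2 := by
            refine mul_le_mul_of_nonneg_left ?_ (Nat.cast_nonneg _)
            exact Finset.sum_le_sum_of_subset_of_nonneg (hJ k hk) fun _ _ _ => by positivity
    · intro a ha a' ha' hne
      obtain ⟨F, hFJ, rfl⟩ := Finset.mem_image.1 ha
      obtain ⟨F', hFJ', rfl⟩ := Finset.mem_image.1 ha'
      exact hp F (hJ k hk hFJ) F' (hJ k hk hFJ') hne
  calc ∑ k ∈ S, ‖Lm (B k) (Pb (Xk k) (Ll N ξ))‖ ^ 2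
      ≤ ∑ k ∈ S, (m0 : ℝ) * ∑ F ∈ ℱ, ‖w k F‖ ^ 2 := Finset.sum_le_sum h1
    _ = m0 * ∑ F ∈ ℱ, ∑ k ∈ S, ‖w k F‖ ^ 2 := by rw [← Finset.mul_sum, Finset.sum_comm]
    _ ≤ m0 * ∑ F ∈ ℱ, C0 * ‖Pb F (Ll N ξ)‖ ^ 2 := by
        refine mul_le_mul_of_nonneg_left ?_ (Nat.cast_nonneg _)
        exact Finset.sum_le_sum fun F _ => hcap _
    _ = m0 * C0 * ∑ F ∈ ℱ, ‖Pb F (Ll N ξ)‖ ^ 2 := by rw [← Finset.mul_sum]; ring
    _ ≤ m0 * C0 * ‖Ll N ξ‖ ^ 2 := by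
        refine mul_le_mul_of_nonneg_left ?_ (by positivity)
        exact sum_le q.hPb ℱ (fun F => F) hF _

/-- All scales. -/
theorem Quad.kak_abs (q : Quad I Pb Pc Lm Ll) (S : Finset ι) (B : ι → Clopens Y)
    (Xk : ι → Clopens X) (J : ℕ) (G : ℕ → ι → Clopens Y) (h0 : ∀ k ∈ S, G 0 k = ⊤)
    (hle : ∀ j < J, ∀ k ∈ S, G (j + 1) k ≤ G j k)
    (hG2 : ∀ j ≤ J, ∀ k ∈ S, ∀ k' ∈ S, G j k = G j k' ∨ Disjoint (G j k) (G j k'))
    (hGG : ∀ j < J, ∀ k ∈ S, ∀ k' ∈ S, G (j + 1) k = G (j + 1) k' → G j k = G j k')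
    (C1 : ℕ) (hG3 : ∀ j < J, ∀ k0 ∈ S, ∀ t ⊆ S, (∀ k ∈ t, G j k = G j k0) →
      Set.InjOn (G (j + 1)) t → t.card ≤ C1)
    (D : ℝ) (hD : 0 ≤ D)
    (hone : ∀ j < J, ∀ k0 ∈ S, ∀ T ⊆ S, (∀ k ∈ T, G (j + 1) k = G (j + 1) k0) → ∀ ξ : E,
      ∑ k ∈ T, ‖Lm (B k) (Pb (Xk k) (Ll (G j k0 ⊓ (G (j + 1) k0)ᶜ) ξ))‖ ^ 2 ≤
        D * ‖Ll (G j k0 ⊓ (G (j + 1) k0)ᶜ) ξ‖ ^ 2)
    (C0 : ℝ) (hlast : ∀ ξ : E, ∑ k ∈ S, ‖Ll (G J k) ξ‖ ^ 2 ≤ C0 * ‖ξ‖ ^ 2) (ξ : E) :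
    ∑ k ∈ S, ‖Lm (B k) (Pb (Xk k) ξ)‖ ^ 2 ≤ (J + 1) * (J * (D * C1) + C0) * ‖ξ‖ ^ 2 := by
  classical
  rcases S.eq_empty_or_nonempty with rfl | ⟨k1, hk1S⟩
  · have := hlast ξ
    simp only [Finset.sum_empty] at this ⊢
    nlinarith [mul_nonneg (Nat.cast_nonneg (α := ℝ) J) this, sq_nonneg ‖ξ‖,
      mul_nonneg (mul_nonneg (Nat.cast_nonneg (α := ℝ) J) (Nat.cast_nonneg (α := ℝ) J))
        (mul_nonneg (mul_nonneg hD (Nat.cast_nonneg (α := ℝ) C1)) (sq_nonneg ‖ξ‖)),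
      mul_nonneg (Nat.cast_nonneg (α := ℝ) J)
        (mul_nonneg (mul_nonneg hD (Nat.cast_nonneg (α := ℝ) C1)) (sq_nonneg ‖ξ‖))]
  haveI : Nonempty ι := ⟨k1⟩
  set N : ℕ → ι → Clopens Y := fun j k => G j k ⊓ (G (j + 1) k)ᶜ with hN
  -- telescope
  have htel : ∀ k ∈ S, ∀ i ≤ J, ξ = ∑ j ∈ Finset.range i, Ll (N j k) ξ + Ll (G i k) ξ := by
    intro k hk i
    induction i with
    | zero =>
      intro _
      rw [Finset.range_zero, Finset.sum_empty, zero_add, h0 k hk, q.hLl.top]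
      rfl
    | succ i ih =>
      intro hi
      have e1 : Ll (G i k) = Ll (N i k) + Ll (G (i + 1) k) := by
        have e2 : G i k = N i k ⊔ G (i + 1) k := by
          rw [hN, sup_inf_right, compl_sup_eq_top, inf_top_eq, sup_eq_left.2 (hle i (by omega) k hk)]
        conv_lhs => rw [e2]
        exact q.hLl.add (disjoint_compl_left.mono inf_le_right le_rfl)
      conv_lhs => rw [ih (by omega), e1]
      rw [Finset.sum_range_succ, ContinuousLinearMap.add_apply, add_assoc]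
  -- one index
  have h1 : ∀ k ∈ S, ‖Lm (B k) (Pb (Xk k) ξ)‖ ^ 2 ≤ (J + 1 : ℝ) *
      (∑ j ∈ Finset.range J, ‖Lm (B k) (Pb (Xk k) (Ll (N j k) ξ))‖ ^ 2 + ‖Ll (G J k) ξ‖ ^ 2) := by
    intro k hk
    set v : ℕ → E := fun j => if j < J then Lm (B k) (Pb (Xk k) (Ll (N j k) ξ)) else
      Lm (B k) (Pb (Xk k) (Ll (G J k) ξ)) with hv
    have e1 : Lm (B k) (Pb (Xk k) ξ) = ∑ j ∈ Finset.range (J + 1), v j := by
      conv_lhs => rw [htel k hk J le_rfl]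
      rw [map_add, map_add, map_sum, map_sum, Finset.sum_range_succ]
      congr 1
      · refine Finset.sum_congr rfl fun j hj => ?_
        rw [hv]
        simp only [if_pos (Finset.mem_range.1 hj)]
      · rw [hv]
        simp only [lt_irrefl, if_false]
    rw [e1]
    refine (norm_sum_sq_le _ v (J + 1) (by rw [Finset.card_range])).trans ?_
    push_cast
    refine mul_le_mul_of_nonneg_left ?_ (by positivity)
    rw [Finset.sum_range_succ]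
    refine add_le_add (le_of_eq (Finset.sum_congr rfl fun j hj => ?_)) ?_
    · rw [hv]
      simp only [if_pos (Finset.mem_range.1 hj)]
    · rw [hv]
      simp only [lt_irrefl, if_false]
      refine pow_le_pow_left₀ (norm_nonneg _) ?_ 2
      exact (norm_le q.hLm _ _).trans (norm_le q.hPb _ _)
  -- one scale
  have h2 : ∀ j ∈ Finset.range J,
      ∑ k ∈ S, ‖Lm (B k) (Pb (Xk k) (Ll (N j k) ξ))‖ ^ 2 ≤ D * C1 * ‖ξ‖ ^ 2 := by
    intro j hj
    have hjJ := Finset.mem_range.1 hj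
    -- choose a representative for each value of `G (j+1)`
    have hrep : ∀ V ∈ S.image (G (j + 1)), ∃ k0 ∈ S, G (j + 1) k0 = V := fun V hV =>
      Finset.mem_image.1 hV
    choose! rp hrp hrpV using hrep
    rw [← Finset.sum_fiberwise_of_maps_to (t := S.image (G (j + 1)))
      fun i hi => Finset.mem_image_of_mem _ hi]
    have h3 : ∀ V ∈ S.image (G (j + 1)),
        ∑ k ∈ S with G (j + 1) k = V, ‖Lm (B k) (Pb (Xk k) (Ll (N j k) ξ))‖ ^ 2 ≤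
          D * ‖Ll (G j (rp V)) ξ‖ ^ 2 := by
      intro V hV
      have e1 : ∀ k ∈ S.filter (fun k => G (j + 1) k = V), N j k =
          G j (rp V) ⊓ (G (j + 1) (rp V))ᶜ := by
        intro k hk
        obtain ⟨hk1, hk2⟩ := Finset.mem_filter.1 hk
        rw [hN]
        simp only
        rw [hGG j hjJ k hk1 (rp V) (hrp V hV) (by rw [hk2, hrpV V hV]), hk2, hrpV V hV]
      rw [Finset.sum_congr rfl fun k hk => by rw [e1 k hk]]
      refine (hone j hjJ (rp V) (hrp V hV) _ (Finset.filter_subset _ _) (fun k hk => by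
        rw [(Finset.mem_filter.1 hk).2, hrpV V hV]) ξ).trans ?_
      refine mul_le_mul_of_nonneg_left (pow_le_pow_left₀ (norm_nonneg _) ?_ 2) hD
      have e2 : Ll (G j (rp V) ⊓ (G (j + 1) (rp V))ᶜ) ξ =
          Ll ((G (j + 1) (rp V))ᶜ) (Ll (G j (rp V)) ξ) := by
        rw [inf_comm, q.hLl.inf]; rfl
      rw [e2]
      exact norm_le q.hLl _ _
    refine (Finset.sum_le_sum h3).trans ?_
    rw [← Finset.mul_sum, mul_assoc]
    refine mul_le_mul_of_nonneg_left ?_ hD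
    refine sum_le_mult q.hLl _ (fun V => G j (rp V)) C1 ?_ ?_ ξ
    · intro V hV W hW
      exact hG2 j hjJ.le _ (hrp V hV) _ (hrp W hW)
    · intro V hV t ht ht2
      have e1 : t.card = (t.image rp).card := by
        rw [Finset.card_image_of_injOn]
        intro V hV W hW hVW
        rw [← hrpV V (ht hV), ← hrpV W (ht hW), hVW]
      rw [e1]
      refine hG3 j hjJ (rp V) (hrp V hV) _ ?_ ?_ ?_
      · intro k hk
        obtain ⟨W, hW, rfl⟩ := Finset.mem_image.1 hk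
        exact hrp W (ht hW)
      · intro k hk
        obtain ⟨W, hW, rfl⟩ := Finset.mem_image.1 hk
        exact ht2 W hW
      · intro k hk k' hk' hkk
        obtain ⟨W, hW, rfl⟩ := Finset.mem_image.1 (Finset.mem_coe.1 hk)
        obtain ⟨W', hW', rfl⟩ := Finset.mem_image.1 (Finset.mem_coe.1 hk')
        rw [hrpV W (ht hW), hrpV W' (ht hW')] at hkk
        rw [hkk]
  calc ∑ k ∈ S, ‖Lm (B k) (Pb (Xk k) ξ)‖ ^ 2
      ≤ ∑ k ∈ S, (J + 1 : ℝ) * (∑ j ∈ Finset.range J,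
        ‖Lm (B k) (Pb (Xk k) (Ll (N j k) ξ))‖ ^ 2 + ‖Ll (G J k) ξ‖ ^ 2) := Finset.sum_le_sum h1
    _ = (J + 1 : ℝ) * (∑ j ∈ Finset.range J, ∑ k ∈ S,
        ‖Lm (B k) (Pb (Xk k) (Ll (N j k) ξ))‖ ^ 2 + ∑ k ∈ S, ‖Ll (G J k) ξ‖ ^ 2) := by
        rw [← Finset.mul_sum, Finset.sum_add_distrib, Finset.sum_comm]
    _ ≤ (J + 1 : ℝ) * (∑ j ∈ Finset.range J, D * C1 * ‖ξ‖ ^ 2 + C0 * ‖ξ‖ ^ 2) := by
        refine mul_le_mul_of_nonneg_left (add_le_add (Finset.sum_le_sum h2) (hlast ξ))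
          (by positivity)
    _ = _ := by
        rw [Finset.sum_const, Finset.card_range, nsmul_eq_mul]; ring

end Kakeya

end Vale.Agent.P092.H375.Ultra
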