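import Vale.Agent.P092.H375.UCell
import Vale.Agent.P092.H375.UKak

/-!
P092 (helper375), D-ULTRA, block DU-KAK: the Kakeya estimate in the projective plane over a
nonarchimedean local field of any characteristic.
-/

set_option linter.all false

namespace Vale.Agent.P092.H375.Ultra

open Vale.Agent.P092.H820 TopologicalSpace Vale.Agent.P092.H175.Opp
open scoped LinearAlgebra.Projectivization Matrix

universe u v

variable {k : Type*} [NontriviallyNormedField k] [IsUltrametricDist k] [ProperSpace k]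

theorem mem_inc3 (x ν : ℙ k (Fin 3 → k)) : (x, ν) ∈ inc3 (k := k) ↔ dt (nv ν) (nv x) = 0 := by
  conv_lhs => rw [← pj_nv x, ← pj_nv ν]
  rw [orthogonal_iff, dt_comm, dt_eq]

/-- change of the reference line -/
theorem dt_change {y y₀ w : Fin 3 → k} {ρ A : ℝ} (hy : ‖y‖ = 1) (hy₀ : ‖y₀‖ = 1)
    (h : ‖wd y y₀‖ ≤ ρ) (hw : ‖dt y₀ w‖ ≤ A) (hρ : ρ * ‖w‖ ≤ A) : ‖dt y w‖ ≤ A := by
  obtain ⟨c, hc, h1⟩ := exists_close hy hy₀ h
  have e : dt y w = dt (y - c • y₀) w + c * dt y₀ w := by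
    rw [sub_dt, smul_dt]; ring
  rw [e]
  refine (nadd_le _ _).trans (max_le ?_ ?_)
  · exact (norm_dt_le _ _).trans ((mul_le_mul_of_nonneg_right h1 (norm_nonneg _)).trans hρ)
  · rw [norm_mul, hc, one_mul]; exact hw

/-- Counting fine cells in a coarse cell. -/
theorem card_cells {M : ℕ} {η : ℝ}
    (hM : ∀ δ : ℝ, 0 < δ → ∃ code : k → Fin M, ∀ s t, ‖s‖ ≤ δ → ‖t‖ ≤ δ → code s = code t →
      ‖s - t‖ ≤ η * δ) {y : Fin 3 → k} {a₁ a₂ b₁ b₂ : ℝ} (ha₁ : 0 < a₁) (ha₂ : 0 < a₂)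
    (h1 : η * a₁ ≤ b₁) (h2 : η * a₂ ≤ b₂) {ι : Type*} (t : Finset ι) (V : ι → Fin 3 → k)
    (v₀ : Fin 3 → k) (hV : ∀ i ∈ t, Rl y a₁ a₂ (V i) v₀)
    (hinj : ∀ i ∈ t, ∀ j ∈ t, Rl y b₁ b₂ (V i) (V j) → i = j) : t.card ≤ M ^ 4 := by
  classical
  obtain ⟨g₁, hg₁⟩ := hM a₁ ha₁
  obtain ⟨g₂, hg₂⟩ := hM a₂ ha₂
  have hex : ∀ i, ∃ c : k, i ∈ t → ‖c‖ = 1 ∧ ‖V i - c • v₀‖ ≤ a₁ ∧ ‖dt y (V i - c • v₀)‖ ≤ a₂ := by
    intro i
    by_cases hi : i ∈ t
    · obtain ⟨c, hc⟩ := hV i hi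
      exact ⟨c, fun _ => hc⟩
    · exact ⟨0, fun h => absurd h hi⟩
  choose c hc using hex
  set w : ι → Fin 3 → k := fun i => (c i)⁻¹ • (V i - c i • v₀) with hw
  have hw1 : ∀ i ∈ t, ‖w i‖ ≤ a₁ := fun i hi => by
    rw [hw]; simp only
    rw [norm_smul, unit_inv (hc i hi).1, one_mul]; exact (hc i hi).2.1
  have hw2 : ∀ i ∈ t, ‖dt y (w i)‖ ≤ a₂ := fun i hi => by
    rw [hw]; simp only
    rw [dt_smul, norm_mul, unit_inv (hc i hi).1, one_mul]; exact (hc i hi).2.2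
  have key : t.card ≤ (Finset.univ : Finset (Fin M × Fin M × Fin M × Fin M)).card := by
    refine Finset.card_le_card_of_injOn
      (fun i => (g₁ (w i 0), g₁ (w i 1), g₁ (w i 2), g₂ (dt y (w i)))) (fun _ _ => Finset.mem_coe.2
        (Finset.mem_univ _)) ?_
    intro i hi j hj hij
    simp only [Prod.mk.injEq] at hij
    obtain ⟨e0, e1, e2, e3⟩ := hij
    have hi' := Finset.mem_coe.1 hi
    have hj' := Finset.mem_coe.1 hj
    have hwi := hw1 i hi'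
    have hwj := hw1 j hj'
    have hd : ‖w i - w j‖ ≤ b₁ := by
      have hη : 0 ≤ η * a₁ := (norm_nonneg _).trans
        (hg₁ _ _ ((norm_le_pi_norm (w i) 0).trans hwi) ((norm_le_pi_norm (w j) 0).trans hwj) e0)
      rw [pi_norm_le_iff_of_nonneg (hη.trans h1)]
      intro a
      fin_cases a
      · exact (hg₁ _ _ ((norm_le_pi_norm (w i) 0).trans hwi) ((norm_le_pi_norm (w j) 0).trans hwj)
          e0).trans h1
      · exact (hg₁ _ _ ((norm_le_pi_norm (w i) 1).trans hwi) ((norm_le_pi_norm (w j) 1).trans hwj)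
          e1).trans h1
      · exact (hg₁ _ _ ((norm_le_pi_norm (w i) 2).trans hwi) ((norm_le_pi_norm (w j) 2).trans hwj)
          e2).trans h1
    have hd2 : ‖dt y (w i - w j)‖ ≤ b₂ := by
      rw [dt_sub]
      exact (hg₂ _ _ (hw2 i hi') (hw2 j hj') e3).trans h2
    apply hinj i hi' j hj'
    -- (c i)⁻¹ V i - (c j)⁻¹ V j = w i - w j
    have e : V i - (c i * (c j)⁻¹) • V j = c i • (w i - w j) := by
      rw [hw]; simp only
      rw [smul_sub, smul_smul, smul_smul, mul_inv_cancel₀ (unit_ne (hc i hi').1), one_smul,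
        smul_sub (c i * (c j)⁻¹), smul_smul, mul_assoc, inv_mul_cancel₀ (unit_ne (hc j hj').1),
        mul_one]
      abel
    refine ⟨c i * (c j)⁻¹, by rw [norm_mul, (hc i hi').1, unit_inv (hc j hj').1, one_mul], ?_, ?_⟩
    · rw [e, norm_smul, (hc i hi').1, one_mul]; exact hd
    · rw [e, dt_smul, norm_mul, (hc i hi').1, one_mul]; exact hd2
  refine key.trans (le_of_eq ?_)
  simp only [Finset.card_univ, Fintype.card_prod, Fintype.card_fin]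
  ring

/-- the data of the Kakeya estimate -/
structure KD {ι : Type v} (C ε r : ℝ) (C0 : ℕ) (S : Finset ι) (y : ι → Fin 3 → k)
    (Xk : ι → Clopens (ℙ k (Fin 3 → k))) : Prop where
  r0 : 0 < r
  r1 : r ≤ 1
  y1 : ∀ i, ‖y i‖ = 1
  strip : ∀ i ∈ S, ∀ v : {v : Fin 3 → k // v ≠ 0}, ‖v.1‖ = 1 → pj k (Fin 3) v ∈ Xk i →
    ‖dt (y i) v.1‖ ≤ C * r
  lc : ∀ i ∈ S, ∀ v w : {v : Fin 3 → k // v ≠ 0}, ‖v.1‖ = 1 → ‖w.1‖ = 1 → pj k (Fin 3) v ∈ Xk i →
    ‖v.1 - w.1‖ ≤ ε → ‖dt (y i) (v.1 - w.1)‖ ≤ ε * r → pj k (Fin 3) w ∈ Xk i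
  cap : ∀ i ∈ S, ∀ t ⊆ S, (∀ j ∈ t, ‖wd (y j) (y i)‖ ≤ C * r) → t.card ≤ C0

namespace KD

variable {ι : Type v} {C ε r : ℝ} {C0 : ℕ} {S : Finset ι} {y : ι → Fin 3 → k}
    {Xk : ι → Clopens (ℙ k (Fin 3 → k))}

theorem strip' (h : KD C ε r C0 S y Xk) {i : ι} (hi : i ∈ S) {x : ℙ k (Fin 3 → k)}
    (hx : x ∈ Xk i) : ‖dt (y i) (nv x)‖ ≤ C * r :=
  h.strip i hi ⟨nv x, nv_ne x⟩ (norm_nv x) (by rw [pj_nv]; exact hx)

theorem lc' (h : KD C ε r C0 S y Xk) {i : ι} (hi : i ∈ S) {x x' : ℙ k (Fin 3 → k)}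
    (hx : x ∈ Xk i) {c : k} (hc : ‖c‖ = 1) (h1 : ‖nv x' - c • nv x‖ ≤ ε)
    (h2 : ‖dt (y i) (nv x' - c • nv x)‖ ≤ ε * r) : x' ∈ Xk i := by
  have hcx : c • nv x ≠ 0 := smul_ne_zero (unit_ne hc) (nv_ne x)
  have e1 : pj k (Fin 3) ⟨c • nv x, hcx⟩ = x := by
    conv_rhs => rw [← pj_nv x]
    exact (pj_eq _ _).2 ⟨Units.mk0 c (unit_ne hc), rfl⟩
  have h3 := h.lc i hi ⟨c • nv x, hcx⟩ ⟨nv x', nv_ne x'⟩ (by
    change ‖c • nv x‖ = 1
    rw [norm_smul, hc, norm_nv, one_mul]) (norm_nv x') (by rw [e1]; exact hx) (by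
    change ‖c • nv x - nv x'‖ ≤ ε
    rw [norm_sub_rev]; exact h1) (by
    change ‖dt (y i) (c • nv x - nv x')‖ ≤ ε * r
    have : c • nv x - nv x' = (-1 : k) • (nv x' - c • nv x) := by
      rw [neg_one_smul]; abel
    rw [this, dt_smul, norm_mul, norm_neg, norm_one, one_mul]; exact h2)
  rw [pj_nv] at h3
  exact h3

end KD

/-- the one-scale estimate -/
theorem one_scale_P {C ε : ℝ} (hC : 1 ≤ C) (hε : 0 < ε) (hε1 : ε ≤ 1) {M : ℕ}
    (hM : ∀ δ : ℝ, 0 < δ → ∃ code : k → Fin M, ∀ s t, ‖s‖ ≤ δ → ‖t‖ ≤ δ → code s = code t →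
      ‖s - t‖ ≤ (ε / (2 * C)) * δ) {C0 : ℕ} {E : Type u} [NormedAddCommGroup E]
    [InnerProductSpace ℂ E] [CompleteSpace E] {Pb Pc Lm Ll : Clopens (ℙ k (Fin 3 → k)) → E →L[ℂ] E}
    (q : Quad inc3 Pb Pc Lm Ll) {r : ℝ} {ι : Type v} {S : Finset ι} {y : ι → Fin 3 → k}
    {Xk : ι → Clopens (ℙ k (Fin 3 → k))} (h : KD C ε r C0 S y Xk) (hCr : 0 < C * r) {ρ : ℝ}
    (hρ : r < ρ) (hρ1 : ρ ≤ 1) {k0 : ι} (hk0 : k0 ∈ S) (hρ0 : 0 < ρ) (hρ20 : 0 < ρ / 2)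
    (T : Finset ι) (hT : T ⊆ S)
    (hTG : ∀ i ∈ T, Bal (y i) (ρ / 2) (h.y1 i).le hρ20 = Bal (y k0) (ρ / 2) (h.y1 k0).le hρ20)
    (ξ : E) :
    ∑ i ∈ T, ‖Lm (Bal (y i) (C * r) (h.y1 i).le hCr) (Pb (Xk i)
      (Ll (Bal (y k0) ρ (h.y1 k0).le hρ0 ⊓ (Bal (y k0) (ρ / 2) (h.y1 k0).le hρ20)ᶜ) ξ))‖ ^ 2 ≤
      ((M ^ 4 : ℕ) : ℝ) * C0 *
        ‖Ll (Bal (y k0) ρ (h.y1 k0).le hρ0 ⊓ (Bal (y k0) (ρ / 2) (h.y1 k0).le hρ20)ᶜ) ξ‖ ^ 2 := by
  classical
  have hr := h.r0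
  have hC0' : 0 < C := zero_lt_one.trans_le hC
  -- radii of the cells
  set a₁ : ℝ := C * r / (ρ / 2) with ha₁
  set a₂ : ℝ := C * r with ha₂
  set b₁ : ℝ := ε * r / ρ with hb₁
  set b₂ : ℝ := ε * r with hb₂
  have ha₁0 : 0 < a₁ := by positivity
  have hb₁0 : 0 < b₁ := by positivity
  have hb₂0 : 0 < b₂ := by positivity
  have hba₁ : b₁ ≤ a₁ := by
    rw [ha₁, hb₁, div_le_div_iff₀ hρ0 hρ20]
    have : ε * r * (ρ / 2) ≤ C * r * ρ := by
      have e1 : ε * r ≤ C * r := mul_le_mul_of_nonneg_right (hε1.trans hC) hr.le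
      nlinarith [mul_nonneg hr.le hρ0.le]
    exact this
  have hba₂ : b₂ ≤ a₂ := mul_le_mul_of_nonneg_right (hε1.trans hC) hr.le
  have hη1 : ε / (2 * C) * a₁ ≤ b₁ := by
    rw [ha₁, hb₁]
    have : ε / (2 * C) * (C * r / (ρ / 2)) = ε * r / ρ := by field_simp
    rw [this]
  have hη2 : ε / (2 * C) * a₂ ≤ b₂ := by
    rw [ha₂, hb₂]
    have : ε / (2 * C) * (C * r) = ε * r / 2 := by field_simp
    rw [this]
    have : 0 < ε * r := by positivity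
    linarith
  have hy0 := (h.y1 k0).le
  set CF : ℙ k (Fin 3 → k) → Clopens (ℙ k (Fin 3 → k)) :=
    fun x => Cel (y k0) b₁ b₂ hy0 hb₁0 hb₂0 (nv x) with hCF
  set CC : ℙ k (Fin 3 → k) → Clopens (ℙ k (Fin 3 → k)) :=
    fun x => Cel (y k0) a₁ a₂ hy0 ha₁0 hCr (nv x) with hCC
  have hfin : (Set.range CF).Finite := finite_Cel (y k0) b₁ b₂ hy0 hb₁0 hb₂0
  set ℱ : Finset (Clopens (ℙ k (Fin 3 → k))) := hfin.toFinset with hℱ
  have hmemF : ∀ F, F ∈ ℱ ↔ ∃ x, CF x = F := fun F => by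
    rw [hℱ, Set.Finite.mem_toFinset]; rfl
  set par : Clopens (ℙ k (Fin 3 → k)) → Clopens (ℙ k (Fin 3 → k)) :=
    fun F => if hF : ∃ x, CF x = F then CC hF.choose else ⊤ with hpar
  have hparE : ∀ x, par (CF x) = CC x := by
    intro x
    have hex : ∃ x', CF x' = CF x := ⟨x, rfl⟩
    rw [hpar]
    simp only
    rw [dif_pos hex]
    have h1 : Rl (y k0) b₁ b₂ (nv hex.choose) (nv x) := Rl_of_Cel_eq (norm_nv _) hex.choose_spec
    exact Cel_eq (h1.mono hba₁ hba₂)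
  -- the distance of the reference lines
  have hclose : ∀ i ∈ T, ‖wd (y i) (y k0)‖ ≤ ρ / 2 := fun i hi =>
    wd_of_Bal_eq (h.y1 i) (h.y1 k0) hρ20 (hTG i hi)
  refine q.one_scale ℱ par (M ^ 4) ?_ ?_ ?_ T _ Xk (fun i => ℱ.filter fun F => F ≤ Xk i)
    (fun i _ => Finset.filter_subset _ _) ?_ _ ?_ C0 ?_ (Nat.cast_nonneg _) ξ
  · -- fine cells are disjoint
    intro F hF F' hF' hne
    obtain ⟨x, rfl⟩ := (hmemF F).1 hF
    obtain ⟨x', rfl⟩ := (hmemF F').1 hF'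
    exact Cel_disj hne
  · -- coarse cells
    intro F hF F' hF' hne
    obtain ⟨x, rfl⟩ := (hmemF F).1 hF
    obtain ⟨x', rfl⟩ := (hmemF F').1 hF'
    rw [hparE, hparE] at hne ⊢
    exact Cel_disj hne
  · -- counting
    intro F hF t ht htF
    obtain ⟨x0, rfl⟩ := (hmemF F).1 hF
    have hex : ∀ F' : Clopens (ℙ k (Fin 3 → k)), ∃ x, F' ∈ t → CF x = F' := by
      intro F'
      by_cases hF' : F' ∈ t
      · obtain ⟨x, hx⟩ := (hmemF F').1 (ht hF')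
        exact ⟨x, fun _ => hx⟩
      · exact ⟨x0, fun h => absurd h hF'⟩
    choose pt hpt using hex
    refine card_cells hM ha₁0 hCr hη1 hη2 t (fun F' => nv (pt F')) (nv x0) ?_ ?_ (y := y k0)
    · intro F' hF'
      have h1 := htF F' hF'
      rw [← hpt F' hF', hparE, hparE] at h1
      exact Rl_of_Cel_eq (norm_nv _) h1
    · intro F1 hF1 F2 hF2 h12
      rw [← hpt F1 hF1, ← hpt F2 hF2]
      exact Cel_eq h12
  · -- `X i` is a union of fine cells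
    intro i hi
    apply le_antisymm
    · intro x hx
      have hle : CF x ≤ Xk i := by
        intro x' hx'
        obtain ⟨c, hc, g1, g2⟩ := (show Rl (y k0) b₁ b₂ (nv x') (nv x) from hx')
        have hb1ε : b₁ ≤ ε := by
          rw [hb₁, div_le_iff₀ hρ0]
          exact mul_le_mul_of_nonneg_left hρ.le hε.le
        refine h.lc' (hT hi) hx hc (g1.trans hb1ε) ?_
        refine dt_change (h.y1 i) (h.y1 k0) (hclose i hi) g2 ?_
        calc ρ / 2 * ‖nv x' - c • nv x‖ ≤ ρ / 2 * b₁ := mul_le_mul_of_nonneg_left g1 hρ20.le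
          _ = ε * r / 2 := by
              show ρ / 2 * (ε * r / ρ) = ε * r / 2
              field_simp
          _ ≤ ε * r := by
              have : 0 < ε * r := by positivity
              linarith
      have hmem : CF x ∈ ℱ.filter (fun F => F ≤ Xk i) :=
        Finset.mem_filter.2 ⟨(hmemF _).2 ⟨x, rfl⟩, hle⟩
      exact (Finset.le_sup (f := id) hmem) (show x ∈ CF x from Rl.refl hb₁0 hb₂0)
    · refine Finset.sup_le fun F hF => (Finset.mem_filter.1 hF).2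
  · -- the geometric condition
    intro i hi F hF x hx ν hν z ν' hν' hxν hzν hzν'
    obtain ⟨hF1, hF2⟩ := Finset.mem_filter.1 hF
    obtain ⟨x0, rfl⟩ := (hmemF F).1 hF1
    have hFx : CF x0 = CF x := Cel_eq_of_mem hx
    rw [hFx, hparE]
    have hxX : x ∈ Xk i := hF2 hx
    rw [mem_inc3] at hxν hzν hzν'
    -- `z` is almost on `y i`
    have hz1 : ‖dt (y i) (nv z)‖ ≤ C * r :=
      dt_le_of_wd (norm_nv ν') (norm_nv z).le (mem_Bal.1 hν') hzν'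
    have hx1 : ‖dt (y i) (nv x)‖ ≤ C * r := h.strip' (hT hi) hxX
    -- `ν` is far from `y i`
    have hνi : ρ / 2 < ‖wd (nv ν) (y i)‖ := by
      have h1 : ν ∉ Bal (y k0) (ρ / 2) (h.y1 k0).le hρ20 := hν.2
      rw [← hTG i hi] at h1
      exact not_le.1 h1
    have hxz : ‖wd (nv z) (nv x)‖ ≤ a₁ := by
      have h1 := wd_mul_wd_le (norm_nv x).le (norm_nv z).le (norm_nv ν).le hxν hzν hx1 hz1
      rw [wd_swap, ha₁, le_div_iff₀ hρ20]
      exact (mul_le_mul_of_nonneg_left hνi.le (norm_nonneg _)).trans h1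
    obtain ⟨c, hc, g1⟩ := exists_close (norm_nv z) (norm_nv x) hxz
    change Rl (y k0) a₁ a₂ (nv z) (nv x)
    refine ⟨c, hc, g1, ?_⟩
    refine dt_change (ρ := ρ / 2) (h.y1 k0) (h.y1 i) (by rw [wd_swap]; exact hclose i hi) ?_ ?_
    · rw [dt_sub, dt_smul]
      refine (nsub_le _ _).trans (max_le hz1 ?_)
      rw [norm_mul, hc, one_mul]; exact hx1
    · calc ρ / 2 * ‖nv z - c • nv x‖ ≤ ρ / 2 * a₁ := mul_le_mul_of_nonneg_left g1 hρ20.le
        _ = C * r := by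
            show ρ / 2 * (C * r / (ρ / 2)) = C * r
            field_simp
  · -- capacity
    intro ζ
    refine sum_le_mult q.hLm T _ C0 ?_ ?_ ζ
    · intro i _ j _
      by_cases hij : ‖wd (y i) (y j)‖ ≤ C * r
      · exact Or.inl (Bal_eq (h.y1 i) (h.y1 j) hCr hij)
      · exact Or.inr (Bal_disj (h.y1 i) (h.y1 j) hCr hij)
    · intro i hi t ht hti
      exact h.cap i (hT hi) t (ht.trans hT) fun j hj =>
        wd_of_Bal_eq (h.y1 j) (h.y1 i) hCr (hti j hj)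

/-- the number of scales -/
theorem exists_scale {r : ℝ} (hr : 0 < r) (hr1 : r ≤ 1) : ∃ J : ℕ, (1 / 2 : ℝ) ^ J ≤ r ∧
    (∀ j < J, r < (1 / 2 : ℝ) ^ j) ∧ (J : ℝ) ≤ 1 + 2 * Real.log (1 / r) := by
  classical
  have hex : ∃ J : ℕ, (1 / 2 : ℝ) ^ J ≤ r := by
    obtain ⟨n, hn⟩ := exists_pow_lt_of_lt_one hr (by norm_num : (1 / 2 : ℝ) < 1)
    exact ⟨n, hn.le⟩
  refine ⟨Nat.find hex, Nat.find_spec hex, fun j hj => not_le.1 (Nat.find_min hex hj), ?_⟩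
  have hlog : 0 ≤ Real.log (1 / r) := Real.log_nonneg (by rw [le_div_iff₀ hr]; linarith)
  rcases Nat.eq_zero_or_pos (Nat.find hex) with h0 | h0
  · rw [h0]; push_cast; linarith
  · have h1 : r < (1 / 2 : ℝ) ^ (Nat.find hex - 1) := not_le.1 (Nat.find_min hex (by omega))
    have h2 : Real.log r < Real.log ((1 / 2 : ℝ) ^ (Nat.find hex - 1)) := Real.log_lt_log hr h1
    have h3 := Real.log_two_gt_d9
    have h4 : ((Nat.find hex - 1 : ℕ) : ℝ) = (Nat.find hex : ℝ) - 1 := by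
      rw [Nat.cast_sub (by omega)]; norm_num
    have h5 : (1 : ℝ) ≤ (Nat.find hex : ℝ) := by exact_mod_cast h0
    have h6 : Real.log (1 / 2 : ℝ) = -Real.log 2 := by rw [one_div, Real.log_inv]
    have h7 : Real.log (1 / r) = -Real.log r := by rw [one_div, Real.log_inv]
    rw [Real.log_pow, h6, h4] at h2
    rw [h7]
    nlinarith

/-- **The Kakeya estimate** in the projective plane over a nonarchimedean local field. -/
theorem kak {C ε : ℝ} (hC : 1 ≤ C) (hε : 0 < ε) (hε1 : ε ≤ 1) (C0 : ℕ) :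
    ∃ K : ℝ, 0 ≤ K ∧ ∀ (E : Type u) [NormedAddCommGroup E] [InnerProductSpace ℂ E]
      [CompleteSpace E] (Pb Pc Lm Ll : Clopens (ℙ k (Fin 3 → k)) → E →L[ℂ] E),
      Quad inc3 Pb Pc Lm Ll → ∀ (r : ℝ) (ι : Type v) (S : Finset ι) (y : ι → Fin 3 → k)
      (Xk : ι → Clopens (ℙ k (Fin 3 → k))) (h : KD C ε r C0 S y Xk) (hCr : 0 < C * r) (ξ : E),
      ∑ i ∈ S, ‖Lm (Bal (y i) (C * r) (h.y1 i).le hCr) (Pb (Xk i) ξ)‖ ^ 2 ≤
        K * (1 + Real.log (1 / r)) ^ 2 * ‖ξ‖ ^ 2 := by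
  classical
  have hC0' : 0 < C := zero_lt_one.trans_le hC
  obtain ⟨M, hM⟩ := exists_code (k := k) (η := ε / (2 * C)) (by positivity)
  refine ⟨4 * ((((M ^ 4 : ℕ) : ℝ) * C0) * (M ^ 4 : ℕ)) + 2 * C0, by positivity, ?_⟩
  intro E _ _ _ Pb Pc Lm Ll q r ι S y Xk h hCr ξ
  obtain ⟨J, hJ1, hJ2, hJ3⟩ := exists_scale h.r0 h.r1
  have hp : ∀ j : ℕ, 0 < (1 / 2 : ℝ) ^ j := fun j => by positivity
  set G : ℕ → ι → Clopens (ℙ k (Fin 3 → k)) := fun j i => Bal (y i) ((1 / 2) ^ j) (h.y1 i).le (hp j)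
    with hG
  have hdich : ∀ j i i', G j i = G j i' ∨ Disjoint (G j i) (G j i') := by
    intro j i i'
    by_cases hij : ‖wd (y i) (y i')‖ ≤ (1 / 2) ^ j
    · exact Or.inl (Bal_eq (h.y1 i) (h.y1 i') (hp j) hij)
    · exact Or.inr (Bal_disj (h.y1 i) (h.y1 i') (hp j) hij)
  have hhalf : ∀ j : ℕ, (1 / 2 : ℝ) ^ (j + 1) = (1 / 2) ^ j / 2 := fun j => by rw [pow_succ]; ring
  have hmono : ∀ j : ℕ, (1 / 2 : ℝ) ^ (j + 1) ≤ (1 / 2) ^ j := fun j => by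
    rw [hhalf]; linarith [hp j]
  have hp1 : ∀ j : ℕ, (1 / 2 : ℝ) ^ j ≤ 1 := fun j => pow_le_one₀ (by norm_num) (by norm_num)
  have key := q.kak_abs S (fun i => Bal (y i) (C * r) (h.y1 i).le hCr) Xk J G
    (fun i _ => Bal_top _ _ (by norm_num)) (fun j _ i _ => Bal_mono _ _ _ (hmono j))
    (fun j _ i _ i' _ => hdich j i i')
    (fun j _ i _ i' _ hii => Bal_eq (h.y1 i) (h.y1 i') (hp j)
      ((wd_of_Bal_eq (h.y1 i) (h.y1 i') (hp (j + 1)) hii).trans (hmono j)))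
    (M ^ 4) ?_ (((M ^ 4 : ℕ) : ℝ) * C0) (by positivity) ?_ C0 ?_ ξ
  · refine key.trans (mul_le_mul_of_nonneg_right ?_ (sq_nonneg _))
    have hlog : 0 ≤ Real.log (1 / r) :=
      Real.log_nonneg (by rw [le_div_iff₀ h.r0]; linarith [h.r1])
    set L : ℝ := 1 + Real.log (1 / r) with hL
    have hL1 : 1 ≤ L := by rw [hL]; linarith
    have hJL : (J : ℝ) ≤ 2 * L := by rw [hL]; linarith
    have hJL1 : (J : ℝ) + 1 ≤ 2 * L := by rw [hL]; linarith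
    set D : ℝ := (((M ^ 4 : ℕ) : ℝ) * C0) * (M ^ 4 : ℕ) with hD
    have hD0 : 0 ≤ D := by positivity
    have hJ0 : (0 : ℝ) ≤ J := Nat.cast_nonneg _
    have hC00 : (0 : ℝ) ≤ C0 := Nat.cast_nonneg _
    calc ((J : ℝ) + 1) * (J * D + C0) ≤ (2 * L) * ((2 * L) * D + C0 * L) := by
          refine mul_le_mul hJL1 (add_le_add (mul_le_mul_of_nonneg_right hJL hD0) ?_)
            (by positivity) (by positivity)
          nlinarith
      _ = (4 * D + 2 * C0) * L ^ 2 := by ring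
  · -- counting
    intro j _ k0 hk0 t ht htG hinj
    have hη : ε / (2 * C) ≤ 1 / 2 := by
      rw [div_le_div_iff₀ (by positivity) (by norm_num)]
      linarith
    refine card_cells hM (hp j) (hp j) (b₁ := (1 / 2) ^ j / 2) (b₂ := (1 / 2) ^ j / 2) ?_ ?_ t
      (fun i => y i) (y k0) ?_ ?_ (y := y k0)
    · have := mul_le_mul_of_nonneg_right hη (hp j).le
      linarith
    · have := mul_le_mul_of_nonneg_right hη (hp j).le
      linarith
    · intro i hi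
      have h1 : ‖wd (y i) (y k0)‖ ≤ (1 / 2) ^ j :=
        wd_of_Bal_eq (h.y1 i) (h.y1 k0) (hp j) (htG i hi)
      obtain ⟨c, hc, h2⟩ := exists_close (h.y1 i) (h.y1 k0) h1
      refine ⟨c, hc, h2, (norm_dt_le _ _).trans ?_⟩
      rw [h.y1 k0, one_mul]; exact h2
    · intro i hi i' hi' hii
      obtain ⟨c, hc, h2, _⟩ := hii
      have h3 : ‖wd (y i) (y i')‖ ≤ (1 / 2) ^ (j + 1) := by
        have e : wd (y i) (y i') = wd (y i - c • y i') (y i') := by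
          rw [wd_sub_left, wd_smul_left, wd_self, smul_zero, sub_zero]
        rw [e, hhalf]
        refine (norm_wd_le _ _).trans ?_
        rw [h.y1 i', mul_one]; exact h2
      exact hinj hi hi' (Bal_eq (h.y1 i) (h.y1 i') (hp (j + 1)) h3)
  · -- one scale
    intro j hj k0 hk0 T hT hTG ζ
    have e1 : ∀ i, G (j + 1) i = Bal (y i) ((1 / 2) ^ j / 2) (h.y1 i).le (by
        have := hp j; linarith) := by
      intro i
      rw [hG]
      simp only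
      congr 1
      exact hhalf j
    have h1 := one_scale_P hC hε hε1 hM q h hCr (hJ2 j hj) (hp1 j) hk0 (hp j)
      (by have := hp j; linarith) T hT (fun i hi => by rw [← e1, ← e1]; exact hTG i hi) ζ
    rw [← e1] at h1
    exact h1
  · intro ζ
    refine sum_le_mult q.hLl S (G J) C0 (fun i _ i' _ => hdich J i i') ?_ ζ
    intro i hi t ht hti
    refine h.cap i hi t ht fun j hj => ?_
    refine (wd_of_Bal_eq (h.y1 j) (h.y1 i) (hp J) (hti j hj)).trans (hJ1.trans ?_)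
    have := h.r0
    nlinarith

end Vale.Agent.P092.H375.Ultra
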