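import Vale.Agent.P092.H820.Pn

/-!
P092 (helper375), D-ULTRA, block DU-KAK: ultrametric geometry of unit vectors in `k ^ 3`.
-/

set_option linter.all false

namespace Vale.Agent.P092.H375.Ultra

open Vale.Agent.P092.H820 TopologicalSpace
open scoped LinearAlgebra.Projectivization Matrix

variable {k : Type*} [NontriviallyNormedField k] [IsUltrametricDist k]

theorem nsub_le {F : Type*} [NormedAddCommGroup F] [IsUltrametricDist F] (a b : F) :
    ‖a - b‖ ≤ max ‖a‖ ‖b‖ := by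
  have h := IsUltrametricDist.norm_add_le_max a (-b)
  rwa [norm_neg, ← sub_eq_add_neg] at h

theorem nadd_le {F : Type*} [NormedAddCommGroup F] [IsUltrametricDist F] (a b : F) :
    ‖a + b‖ ≤ max ‖a‖ ‖b‖ := IsUltrametricDist.norm_add_le_max a b

/-- explicit scalar product -/
def dt (y x : Fin 3 → k) : k := y 0 * x 0 + y 1 * x 1 + y 2 * x 2

theorem dt_eq (y x : Fin 3 → k) : dt y x = y ⬝ᵥ x := by
  simp [dt, dotProduct, Fin.sum_univ_three]

theorem dt_comm (y x : Fin 3 → k) : dt y x = dt x y := by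
  unfold dt; ring

theorem dt_sub (y x z : Fin 3 → k) : dt y (x - z) = dt y x - dt y z := by
  simp only [dt, Pi.sub_apply]; ring

theorem dt_add (y x z : Fin 3 → k) : dt y (x + z) = dt y x + dt y z := by
  simp only [dt, Pi.add_apply]; ring

theorem dt_smul (c : k) (y x : Fin 3 → k) : dt y (c • x) = c * dt y x := by
  simp only [dt, Pi.smul_apply, smul_eq_mul]; ring

theorem add_dt (y z x : Fin 3 → k) : dt (y + z) x = dt y x + dt z x := by
  simp only [dt, Pi.add_apply]; ring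

theorem sub_dt (y z x : Fin 3 → k) : dt (y - z) x = dt y x - dt z x := by
  simp only [dt, Pi.sub_apply]; ring

theorem smul_dt (c : k) (y x : Fin 3 → k) : dt (c • y) x = c * dt y x := by
  simp only [dt, Pi.smul_apply, smul_eq_mul]; ring

theorem continuous_dt (y : Fin 3 → k) : Continuous (dt y) := by
  unfold dt; fun_prop

theorem norm_dt_le (y x : Fin 3 → k) : ‖dt y x‖ ≤ ‖y‖ * ‖x‖ := by
  unfold dt
  have h : ∀ i, ‖y i * x i‖ ≤ ‖y‖ * ‖x‖ := fun i => by
    rw [norm_mul]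
    exact mul_le_mul (norm_le_pi_norm y i) (norm_le_pi_norm x i) (norm_nonneg _) (norm_nonneg _)
  exact (nadd_le _ _).trans (max_le ((nadd_le _ _).trans (max_le (h 0) (h 1))) (h 2))

/-- explicit vector product -/
def cr (v w : Fin 3 → k) : Fin 3 → k :=
  ![v 1 * w 2 - v 2 * w 1, v 2 * w 0 - v 0 * w 2, v 0 * w 1 - v 1 * w 0]

theorem norm_wd_le_iff (v w : Fin 3 → k) {M : ℝ} (hM : 0 ≤ M) :
    ‖wd v w‖ ≤ M ↔ ∀ e, ‖cr v w e‖ ≤ M := by
  rw [pi_norm_le_iff_of_nonneg hM]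
  constructor
  · intro h e
    fin_cases e
    · exact h (1, 2)
    · exact h (2, 0)
    · exact h (0, 1)
  · intro h p
    obtain ⟨a, b⟩ := p
    have h0 := h 0
    have h1 := h 1
    have h2 := h 2
    simp only [cr, Matrix.cons_val_zero, Matrix.cons_val_one, Matrix.cons_val_two,
      Matrix.cons_val] at h0 h1 h2
    fin_cases a <;> fin_cases b <;>
      simp only [wd, Fin.zero_eta, Fin.mk_one, Fin.reduceFinMk, Fin.isValue] <;>
      first
        | exact h0 | exact h1 | exact h2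
        | (rw [← norm_neg, neg_sub]; first | exact h0 | exact h1 | exact h2)
        | (rw [mul_comm, sub_self, norm_zero]; exact hM)

theorem norm_cr_le (v w : Fin 3 → k) (e : Fin 3) : ‖cr v w e‖ ≤ ‖wd v w‖ :=
  (norm_wd_le_iff v w (norm_nonneg _)).1 le_rfl e

theorem wd_swap (v w : Fin 3 → k) : ‖wd v w‖ = ‖wd w v‖ := by
  have : wd w v = - wd v w := by
    ext p; simp only [wd, Pi.neg_apply]; ring
  rw [this, norm_neg]

theorem wd_smul_left (c : k) (v w : Fin 3 → k) : wd (c • v) w = c • wd v w := by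
  ext p; simp only [wd, Pi.smul_apply, smul_eq_mul]; ring

theorem wd_smul_right (c : k) (v w : Fin 3 → k) : wd v (c • w) = c • wd v w := by
  ext p; simp only [wd, Pi.smul_apply, smul_eq_mul]; ring

theorem wd_add_right (v w z : Fin 3 → k) : wd v (w + z) = wd v w + wd v z := by
  ext p; simp only [wd, Pi.add_apply]; ring

theorem wd_sub_right (v w z : Fin 3 → k) : wd v (w - z) = wd v w - wd v z := by
  ext p; simp only [wd, Pi.sub_apply]; ring

theorem wd_sub_left (v w z : Fin 3 → k) : wd (v - w) z = wd v z - wd w z := by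
  ext p; simp only [wd, Pi.sub_apply]; ring

theorem norm_wd_le (v w : Fin 3 → k) : ‖wd v w‖ ≤ ‖v‖ * ‖w‖ := by
  rw [pi_norm_le_iff_of_nonneg (by positivity)]
  intro p
  have h : ∀ i j, ‖v i * w j‖ ≤ ‖v‖ * ‖w‖ := fun i j => by
    rw [norm_mul]
    exact mul_le_mul (norm_le_pi_norm v i) (norm_le_pi_norm w j) (norm_nonneg _) (norm_nonneg _)
  exact (nsub_le _ _).trans (max_le (h _ _) (h _ _))

/-- a unit vector has a coordinate of norm one -/
theorem exists_coord {v : Fin 3 → k} (hv : ‖v‖ = 1) : ∃ i, ‖v i‖ = 1 := by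
  obtain ⟨i, hi⟩ := Finite.exists_max fun i => ‖v i‖
  refine ⟨i, ?_⟩
  rw [← hv]
  exact le_antisymm (norm_le_pi_norm v i) ((pi_norm_le_iff_of_nonneg (norm_nonneg _)).2 hi)

/-- the ultrametric inequality on the projective plane -/
theorem wd_tri {a b c : Fin 3 → k} (ha : ‖a‖ ≤ 1) (hb : ‖b‖ = 1) (hc : ‖c‖ ≤ 1) :
    ‖wd a c‖ ≤ max ‖wd a b‖ ‖wd b c‖ := by
  obtain ⟨i, hi⟩ := exists_coord hb
  rw [pi_norm_le_iff_of_nonneg (by positivity)]
  intro p
  have h1 : b i * wd a c p = a i * wd b c p + (c p.2 * wd a b (p.1, i) - c p.1 * wd a b (p.2, i)) := by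
    simp only [wd]; ring
  have h2 : ‖wd a c p‖ = ‖b i * wd a c p‖ := by rw [norm_mul, hi, one_mul]
  rw [h2, h1]
  have key : ∀ (s : k) (t : Fin 3 × Fin 3 → k) (q), ‖s‖ ≤ 1 → ‖s * t q‖ ≤ ‖t‖ := by
    intro s t q hs
    rw [norm_mul]
    calc ‖s‖ * ‖t q‖ ≤ 1 * ‖t‖ := mul_le_mul hs (norm_le_pi_norm t q) (norm_nonneg _) zero_le_one
      _ = _ := one_mul _
  refine (nadd_le _ _).trans (max_le ?_ ((nsub_le _ _).trans (max_le ?_ ?_)))
  · exact (key _ _ _ ((norm_le_pi_norm a i).trans ha)).trans (le_max_right _ _)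
  · exact (key _ _ _ ((norm_le_pi_norm c _).trans hc)).trans (le_max_left _ _)
  · exact (key _ _ _ ((norm_le_pi_norm c _).trans hc)).trans (le_max_left _ _)

/-- close unit vectors -/
theorem exists_close {x z : Fin 3 → k} (hx : ‖x‖ = 1) (hz : ‖z‖ = 1) {δ : ℝ}
    (h : ‖wd x z‖ ≤ δ) : ∃ c : k, ‖c‖ = 1 ∧ ‖x - c • z‖ ≤ δ := by
  by_cases hδ : 1 ≤ δ
  · refine ⟨1, norm_one, ?_⟩
    rw [one_smul]
    exact ((nsub_le _ _).trans (max_le hx.le hz.le)).trans hδ
  push Not at hδ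
  obtain ⟨i, hi⟩ := exists_coord hx
  -- the coordinate of `z` is a unit too
  have hzi : ‖z i‖ = 1 := by
    obtain ⟨j, hj⟩ := exists_coord hz
    by_contra hne
    have hlt : ‖z i‖ < 1 := lt_of_le_of_ne ((norm_le_pi_norm z i).trans hz.le) hne
    have h1 : ‖x i * z j‖ = 1 := by rw [norm_mul, hi, hj, one_mul]
    have h2 : ‖x j * z i‖ < 1 := by
      rw [norm_mul]
      calc ‖x j‖ * ‖z i‖ ≤ 1 * ‖z i‖ := mul_le_mul_of_nonneg_right
            ((norm_le_pi_norm x j).trans hx.le) (norm_nonneg _)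
        _ < 1 := by rw [one_mul]; exact hlt
    have h3 : ‖wd x z (i, j)‖ < 1 := ((norm_le_pi_norm (wd x z) (i, j)).trans h).trans_lt hδ
    have h4 : x i * z j = wd x z (i, j) + x j * z i := by simp only [wd]; ring
    rw [h4] at h1
    have h5 := nadd_le (wd x z (i, j)) (x j * z i)
    rw [h1] at h5
    exact absurd h5 (not_le.2 (max_lt h3 h2))
  have hzi0 : z i ≠ 0 := by
    intro h0
    rw [h0, norm_zero] at hzi
    exact zero_ne_one hzi
  refine ⟨x i / z i, by rw [norm_div, hi, hzi, div_one], ?_⟩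
  rw [pi_norm_le_iff_of_nonneg ((norm_nonneg _).trans h)]
  intro b
  have h1 : (x - (x i / z i) • z) b = (z i)⁻¹ * wd x z (b, i) := by
    simp only [wd, Pi.sub_apply, Pi.smul_apply, smul_eq_mul]
    field_simp
  rw [h1, norm_mul, norm_inv, hzi, inv_one, one_mul]
  exact (norm_le_pi_norm (wd x z) (b, i)).trans h

/-- a point on a line close to `y` is almost on `y` -/
theorem dt_le_of_wd {ν y z : Fin 3 → k} (hν : ‖ν‖ = 1) (hz : ‖z‖ ≤ 1) {δ : ℝ}
    (h : ‖wd ν y‖ ≤ δ) (hνz : dt ν z = 0) : ‖dt y z‖ ≤ δ := by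
  obtain ⟨i, hi⟩ := exists_coord hν
  have hk : ∀ b, ‖wd ν y (i, b) * z b‖ ≤ δ := fun b => by
    rw [norm_mul]
    calc ‖wd ν y (i, b)‖ * ‖z b‖ ≤ δ * 1 := mul_le_mul ((norm_le_pi_norm _ _).trans h)
          ((norm_le_pi_norm z b).trans hz) (norm_nonneg _) ((norm_nonneg _).trans h)
      _ = δ := mul_one δ
  have h1 : ν i * dt y z = (wd ν y (i, 0) * z 0 + wd ν y (i, 1) * z 1) + wd ν y (i, 2) * z 2 := by
    have h2 : ν i * dt y z = ν i * dt y z - y i * dt ν z := by rw [hνz]; ring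
    rw [h2]
    simp only [wd, dt]; ring
  have h3 : ‖dt y z‖ = ‖ν i * dt y z‖ := by rw [norm_mul, hi, one_mul]
  rw [h3, h1]
  exact (nadd_le _ _).trans (max_le ((nadd_le _ _).trans (max_le (hk 0) (hk 1))) (hk 2))

/-- the fundamental identity -/
theorem cr_mul_cr (x z ν y : Fin 3 → k) (e f : Fin 3) :
    cr x z e * cr ν y f = ν e * (dt y x * z f - dt y z * x f) +
      ((x f * y e - (if e = f then dt x y else 0)) * dt ν z -
        (z f * y e - (if e = f then dt z y else 0)) * dt ν x) := by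
  fin_cases e <;> fin_cases f <;> simp [cr, dt] <;> ring

/-- two points on `ν`, both almost on `y`, are close if `ν` is far from `y`. -/
theorem wd_mul_wd_le {x z ν y : Fin 3 → k} (hx : ‖x‖ ≤ 1) (hz : ‖z‖ ≤ 1) (hν : ‖ν‖ ≤ 1) {δ : ℝ}
    (h1 : dt ν x = 0) (h2 : dt ν z = 0) (h3 : ‖dt y x‖ ≤ δ) (h4 : ‖dt y z‖ ≤ δ) :
    ‖wd x z‖ * ‖wd ν y‖ ≤ δ := by
  have hδ : 0 ≤ δ := (norm_nonneg _).trans h3
  have key : ∀ e f, ‖cr x z e‖ * ‖cr ν y f‖ ≤ δ := by
    intro e f
    rw [← norm_mul, cr_mul_cr, h1, h2, mul_zero, mul_zero, sub_zero, add_zero, norm_mul]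
    have hA : ‖dt y x * z f - dt y z * x f‖ ≤ δ := by
      refine (nsub_le _ _).trans (max_le ?_ ?_)
      · rw [norm_mul]
        calc ‖dt y x‖ * ‖z f‖ ≤ δ * 1 := mul_le_mul h3 ((norm_le_pi_norm z f).trans hz)
              (norm_nonneg _) hδ
          _ = δ := mul_one δ
      · rw [norm_mul]
        calc ‖dt y z‖ * ‖x f‖ ≤ δ * 1 := mul_le_mul h4 ((norm_le_pi_norm x f).trans hx)
              (norm_nonneg _) hδ
          _ = δ := mul_one δ
    calc ‖ν e‖ * _ ≤ 1 * δ := mul_le_mul ((norm_le_pi_norm ν e).trans hν) hA (norm_nonneg _)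
          zero_le_one
      _ = δ := one_mul δ
  -- pass to the maxima
  by_cases hq : ‖wd ν y‖ = 0
  · rw [hq, mul_zero]; exact hδ
  have hq' : 0 < ‖wd ν y‖ := lt_of_le_of_ne (norm_nonneg _) (Ne.symm hq)
  rw [← le_div_iff₀ hq', norm_wd_le_iff _ _ (by positivity)]
  intro e
  rw [le_div_iff₀ hq']
  by_cases hp : ‖cr x z e‖ = 0
  · rw [hp, zero_mul]; exact hδ
  have hp' : 0 < ‖cr x z e‖ := lt_of_le_of_ne (norm_nonneg _) (Ne.symm hp)
  rw [mul_comm, ← le_div_iff₀ hp', norm_wd_le_iff _ _ (by positivity)]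
  intro f
  rw [le_div_iff₀ hp', mul_comm]
  exact key e f

end Vale.Agent.P092.H375.Ultra
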